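import Vale.Agent.P266.Recursion

/-!
P266: the determinant of the certificate from its truncated gauge transforms.
-/

namespace P266

open Finset

noncomputable section

/-- A section of degree `n` vanishing through order `n` at all points is zero. -/
theorem eq_zero_of_vanish {n : ℕ} {f : K} (hf : f ∈ G (n : ℤ))
    (h : ∀ p, ∀ k : ℤ, k ≤ (n : ℤ) → (f p).coeff k = 0) : f = 0 := by
  have hg : wpow (-((n : ℤ) + 1)) * f ∈ G (-1) := by
    have := mul_mem_G (wpow_mem_G (-((n : ℤ) + 1))) hf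
    rwa [show -((n : ℤ) + 1) + (n : ℤ) = -1 by ring] at this
  have hr : Reg (wpow (-((n : ℤ) + 1)) * f) := by
    intro p k hk
    show (HahnSeries.single (-((n : ℤ) + 1)) (1 : ℂ) * f p).coeff k = 0
    rw [coeff_single_mul, one_mul]
    exact h p _ (by omega)
  have h0 := reg_neg_G (by omega) hg hr
  calc f = wpow ((n : ℤ) + 1) * (wpow (-((n : ℤ) + 1)) * f) := by
        rw [← mul_assoc, wpow_mul, add_neg_cancel, wpow_zero, one_mul]
    _ = 0 := by rw [h0, mul_zero]

theorem coeff_truncV {N m : ℕ} (D : VF) :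
    PowerSeries.coeff m (truncV N D).1 = (if m ≤ N then PowerSeries.coeff m D.1 else 0) ∧
      PowerSeries.coeff m (truncV N D).2 = (if m ≤ N then PowerSeries.coeff m D.2 else 0) :=
  ⟨by simp [truncV], by simp [truncV]⟩

/-- The coefficients of the truncated determinant, one sum over the antidiagonal. -/
theorem coeff_det_trunc_sum (U V : VF) (n : ℕ) :
    PowerSeries.coeff n (det2 (truncV 6 U) (truncV 6 V))
      = ∑ i ∈ range (n + 1), if i ≤ 6 ∧ n - i ≤ 6 then
          PowerSeries.coeff i U.1 * PowerSeries.coeff (n - i) V.2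
            - PowerSeries.coeff i V.1 * PowerSeries.coeff (n - i) U.2 else 0 := by
  simp only [det2, map_sub, PowerSeries.coeff_mul, Nat.sum_antidiagonal_eq_sum_range_succ_mk,
    ← sum_sub_distrib, (coeff_truncV _).1, (coeff_truncV _).2]
  refine sum_congr rfl fun i _ => ?_
  by_cases h1 : i ≤ 6 <;> by_cases h2 : n - i ≤ 6 <;> simp [h1, h2]

theorem coeff_det_trunc_six (U V : VF)
    (ha : ∀ k < 2, PowerSeries.coeff k U.1 = 0) (ha' : ∀ k < 2, PowerSeries.coeff k V.1 = 0)
    (hb : ∀ k < 3, PowerSeries.coeff k U.2 = 0) (hb' : ∀ k < 3, PowerSeries.coeff k V.2 = 0) :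
    PowerSeries.coeff 6 (det2 (truncV 6 U) (truncV 6 V))
      = PowerSeries.coeff 2 U.1 * PowerSeries.coeff 4 V.2
          - PowerSeries.coeff 2 V.1 * PowerSeries.coeff 4 U.2
        + (PowerSeries.coeff 3 U.1 * PowerSeries.coeff 3 V.2
          - PowerSeries.coeff 3 V.1 * PowerSeries.coeff 3 U.2) := by
  rw [coeff_det_trunc_sum]
  simp only [sum_range_succ, sum_range_zero]
  norm_num [ha 0, ha 1, ha' 0, ha' 1, hb 0, hb 1, hb 2, hb' 0, hb' 1, hb' 2]

theorem coeff_det_trunc_seven (U V : VF)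
    (ha : ∀ k < 2, PowerSeries.coeff k U.1 = 0) (ha' : ∀ k < 2, PowerSeries.coeff k V.1 = 0)
    (hb : ∀ k < 3, PowerSeries.coeff k U.2 = 0) (hb' : ∀ k < 3, PowerSeries.coeff k V.2 = 0) :
    PowerSeries.coeff 7 (det2 (truncV 6 U) (truncV 6 V))
      = PowerSeries.coeff 2 U.1 * PowerSeries.coeff 5 V.2
          - PowerSeries.coeff 2 V.1 * PowerSeries.coeff 5 U.2
        + (PowerSeries.coeff 3 U.1 * PowerSeries.coeff 4 V.2
          - PowerSeries.coeff 3 V.1 * PowerSeries.coeff 4 U.2)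
        + (PowerSeries.coeff 4 U.1 * PowerSeries.coeff 3 V.2
          - PowerSeries.coeff 4 V.1 * PowerSeries.coeff 3 U.2) := by
  rw [coeff_det_trunc_sum]
  simp only [sum_range_succ, sum_range_zero]
  norm_num [ha 0, ha 1, ha' 0, ha' 1, hb 0, hb 1, hb 2, hb' 0, hb' 1, hb' 2]

theorem coeff_det_trunc_eight (U V : VF)
    (ha : ∀ k < 2, PowerSeries.coeff k U.1 = 0) (ha' : ∀ k < 2, PowerSeries.coeff k V.1 = 0)
    (hb : ∀ k < 3, PowerSeries.coeff k U.2 = 0) (hb' : ∀ k < 3, PowerSeries.coeff k V.2 = 0) :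
    PowerSeries.coeff 8 (det2 (truncV 6 U) (truncV 6 V))
      = PowerSeries.coeff 2 U.1 * PowerSeries.coeff 6 V.2
          - PowerSeries.coeff 2 V.1 * PowerSeries.coeff 6 U.2
        + (PowerSeries.coeff 3 U.1 * PowerSeries.coeff 5 V.2
          - PowerSeries.coeff 3 V.1 * PowerSeries.coeff 5 U.2)
        + (PowerSeries.coeff 4 U.1 * PowerSeries.coeff 4 V.2
          - PowerSeries.coeff 4 V.1 * PowerSeries.coeff 4 U.2)
        + (PowerSeries.coeff 5 U.1 * PowerSeries.coeff 3 V.2
          - PowerSeries.coeff 5 V.1 * PowerSeries.coeff 3 U.2) := by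
  rw [coeff_det_trunc_sum]
  simp only [sum_range_succ, sum_range_zero]
  norm_num [ha 0, ha 1, ha' 0, ha' 1, hb 0, hb 1, hb 2, hb' 0, hb' 1, hb' 2]

theorem coeff_det_trunc_nine (U V : VF)
    (hb : ∀ k < 3, PowerSeries.coeff k U.2 = 0) (hb' : ∀ k < 3, PowerSeries.coeff k V.2 = 0) :
    PowerSeries.coeff 9 (det2 (truncV 6 U) (truncV 6 V))
      = PowerSeries.coeff 3 U.1 * PowerSeries.coeff 6 V.2
          - PowerSeries.coeff 3 V.1 * PowerSeries.coeff 6 U.2
        + (PowerSeries.coeff 4 U.1 * PowerSeries.coeff 5 V.2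
          - PowerSeries.coeff 4 V.1 * PowerSeries.coeff 5 U.2)
        + (PowerSeries.coeff 5 U.1 * PowerSeries.coeff 4 V.2
          - PowerSeries.coeff 5 V.1 * PowerSeries.coeff 4 U.2)
        + (PowerSeries.coeff 6 U.1 * PowerSeries.coeff 3 V.2
          - PowerSeries.coeff 6 V.1 * PowerSeries.coeff 3 U.2) := by
  rw [coeff_det_trunc_sum]
  simp only [sum_range_succ, sum_range_zero]
  norm_num [hb 0, hb 1, hb 2, hb' 0, hb' 1, hb' 2]

/-- Truncation at level six is invisible below level nine. -/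
theorem coeff_det_trunc_eq {U V : VF} {n : ℕ} (hn : n ≤ 8)
    (ha : ∀ k < 2, PowerSeries.coeff k U.1 = 0) (ha' : ∀ k < 2, PowerSeries.coeff k V.1 = 0)
    (hb : ∀ k < 3, PowerSeries.coeff k U.2 = 0) (hb' : ∀ k < 3, PowerSeries.coeff k V.2 = 0) :
    PowerSeries.coeff n (det2 (truncV 6 U) (truncV 6 V)) = PowerSeries.coeff n (det2 U V) := by
  rw [coeff_det_trunc_sum]
  simp only [det2, map_sub, PowerSeries.coeff_mul, Nat.sum_antidiagonal_eq_sum_range_succ_mk,
    ← sum_sub_distrib]
  refine sum_congr rfl fun i hi => ?_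
  have hi' : i ≤ n := by simpa [Nat.lt_succ_iff] using hi
  split
  · rfl
  · rename_i h
    by_cases h1 : i < 2
    · rw [ha i h1, ha' i h1]; ring
    · rw [hb (n - i) (by omega), hb' (n - i) (by omega)]; ring

/-- The determinant condition of the certificate. -/
theorem det_of_levels (q : ℕ → K) (D : Fin 2 → VF) (glob : ∀ i, GlobV (D i))
    (h1 : ∀ i, ∀ n < 2, PowerSeries.coeff n (D i).1 = 0)
    (h2 : ∀ i, ∀ n < 4, PowerSeries.coeff n (D i).2 = 0)
    (hb : ∀ i, ∀ n < 3, PowerSeries.coeff n (tauVF q 4 (D i)).2 = 0)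
    (hz : ∀ n : ℕ, 6 ≤ n → n ≤ 8 → ∀ p, ∀ k : ℤ, k ≤ (n : ℤ) - 6 →
      ((PowerSeries.coeff n (det2 (truncV 6 (tauVF q 4 (D 0))) (truncV 6 (tauVF q 4 (D 1))))
        + (if n = 6 then 1 else 0)) p).coeff k = 0) :
    ∀ n ≤ 8, PowerSeries.coeff n (det2 (D 0) (D 1)) = if n = 6 then -1 else 0 := by
  set d := det2 (D 0) (D 1) with hd
  set U := tauVF q 4 (D 0) with hU
  set V := tauVF q 4 (D 1) with hV
  have ha : ∀ i, ∀ k < 2, PowerSeries.coeff k (tauVF q 4 (D i)).1 = 0 := fun i k hk =>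
    (low_VF.1 (tauVF_low q 4 (low_VF.2 fun m hm => ⟨h1 i m hm, h2 i m (by omega)⟩)).1 k hk).1
  have d6 : Low 6 d := by
    rw [hd, det2]
    exact (low_mul (low_S_iff.2 (h1 0)) (low_S_iff.2 (h2 1))).sub
      (low_mul (low_S_iff.2 (h1 1)) (low_S_iff.2 (h2 0)))
  set r := d + PowerSeries.monomial 6 1 with hr
  have key : ∀ m ≤ 9, Low m r := by
    intro m hm
    induction m with
    | zero => exact low_zero _
    | succ m ih =>
      have hlow := ih (by omega)
      refine low_S_iff.2 fun k hk => ?_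
      rcases Nat.lt_or_ge k m with hkm | hkm
      · exact low_S_iff.1 hlow k hkm
      obtain rfl : k = m := by omega
      rcases Nat.lt_or_ge k 6 with hk6 | hk6
      · rw [hr, map_add, low_S_iff.1 d6 k hk6, PowerSeries.coeff_monomial, if_neg (by omega),
          add_zero]
      have e1 := low_S_iff.1 (tauT_low q 4 hlow).2 k (by omega)
      have e2 := low_S_iff.1 (tauT_six q 4).1 k (by omega)
      rw [map_sub, sub_eq_zero] at e1 e2
      have hval : PowerSeries.coeff k r
          = PowerSeries.coeff k (det2 (truncV 6 U) (truncV 6 V)) + (if k = 6 then 1 else 0) := by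
        rw [← e1, hr, map_add, map_add, e2, hd, tauT_det, PowerSeries.coeff_monomial,
          coeff_det_trunc_eq (by omega) (ha 0) (ha 1) (hb 0) (hb 1)]
      refine eq_zero_of_vanish (n := k - 6) ?_ fun p j hj => ?_
      · rw [hr, map_add, show ((k - 6 : ℕ) : ℤ) = (k : ℤ) - 6 by omega]
        refine (G _).add_mem (globV_det (glob 0) (glob 1) k) ?_
        rw [PowerSeries.coeff_monomial]
        split
        · exact one_mem_G (by omega)
        · exact (G _).zero_mem
      · rw [hval]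
        exact hz k hk6 (by omega) p j (by omega)
  intro n hn
  have h := low_S_iff.1 (key 9 le_rfl) n (by omega)
  rw [hr, map_add, PowerSeries.coeff_monomial] at h
  split
  · rename_i h6
    rw [if_pos h6] at h
    exact eq_neg_of_add_eq_zero_left h
  · rename_i h6
    rwa [if_neg h6, add_zero] at h

end

end P266
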