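import Vale.Agent.P266.CertLev

/-!
P266: the determinant of the transformed certificate fields.
-/

namespace P266

noncomputable section

/-- The two truncated transformed fields. -/
def tcert : S := det2 (truncV 6 (tauVF qcert 4 certD0)) (truncV 6 (tauVF qcert 4 certD1))

theorem tcert_6 : det6 = PowerSeries.coeff 6 tcert + ((1 : ℕ) : K) := by
  simp only [tcert, det2, truncV, map_sub, PowerSeries.coeff_mul,
    Finset.Nat.sum_antidiagonal_eq_sum_range_succ_mk, Finset.sum_range_succ, Finset.sum_range_zero,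
    PowerSeries.coeff_mk, Nat.sub_self, Nat.reduceSub, Nat.reduceLeDiff, ↓reduceIte,
    lv0_4_2.1,
    lv0_4_2.2,
    lv0_4_3.1,
    lv0_4_3.2,
    lv0_4_4.1,
    lv0_4_4.2,
    lv0_4_5.1,
    lv0_4_5.2,
    lv0_4_6.1,
    lv0_4_6.2,
    (low_VF.1 (low_tau 4 low_certD0) 0 (by norm_num)).1,
    (low_VF.1 (low_tau 4 low_certD0) 0 (by norm_num)).2,
    (low_VF.1 (low_tau 4 low_certD0) 1 (by norm_num)).1,
    (low_VF.1 (low_tau 4 low_certD0) 1 (by norm_num)).2,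
    lv1_4_2.1,
    lv1_4_2.2,
    lv1_4_3.1,
    lv1_4_3.2,
    lv1_4_4.1,
    lv1_4_4.2,
    lv1_4_5.1,
    lv1_4_5.2,
    lv1_4_6.1,
    lv1_4_6.2,
    (low_VF.1 (low_tau 4 low_certD1) 0 (by norm_num)).1,
    (low_VF.1 (low_tau 4 low_certD1) 0 (by norm_num)).2,
    (low_VF.1 (low_tau 4 low_certD1) 1 (by norm_num)).1,
    (low_VF.1 (low_tau 4 low_certD1) 1 (by norm_num)).2,
    mul_zero, zero_mul, add_zero, zero_add, det6]
  ring

theorem tcert_6_zero (p : Pt) (k : ℤ) (hk : k ≤ 0) :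
    ((PowerSeries.coeff 6 tcert + ((1 : ℕ) : K)) p).coeff k = 0 := by
  rw [← tcert_6]
  exact r_det6.zero_below 1 (by norm_num) (by decide +kernel) p (by omega)

theorem tcert_7 : det7 = PowerSeries.coeff 7 tcert := by
  simp only [tcert, det2, truncV, map_sub, PowerSeries.coeff_mul,
    Finset.Nat.sum_antidiagonal_eq_sum_range_succ_mk, Finset.sum_range_succ, Finset.sum_range_zero,
    PowerSeries.coeff_mk, Nat.sub_self, Nat.reduceSub, Nat.reduceLeDiff, ↓reduceIte,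
    lv0_4_2.1,
    lv0_4_2.2,
    lv0_4_3.1,
    lv0_4_3.2,
    lv0_4_4.1,
    lv0_4_4.2,
    lv0_4_5.1,
    lv0_4_5.2,
    lv0_4_6.1,
    lv0_4_6.2,
    (low_VF.1 (low_tau 4 low_certD0) 0 (by norm_num)).1,
    (low_VF.1 (low_tau 4 low_certD0) 0 (by norm_num)).2,
    (low_VF.1 (low_tau 4 low_certD0) 1 (by norm_num)).1,
    (low_VF.1 (low_tau 4 low_certD0) 1 (by norm_num)).2,
    lv1_4_2.1,
    lv1_4_2.2,
    lv1_4_3.1,
    lv1_4_3.2,
    lv1_4_4.1,
    lv1_4_4.2,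
    lv1_4_5.1,
    lv1_4_5.2,
    lv1_4_6.1,
    lv1_4_6.2,
    (low_VF.1 (low_tau 4 low_certD1) 0 (by norm_num)).1,
    (low_VF.1 (low_tau 4 low_certD1) 0 (by norm_num)).2,
    (low_VF.1 (low_tau 4 low_certD1) 1 (by norm_num)).1,
    (low_VF.1 (low_tau 4 low_certD1) 1 (by norm_num)).2,
    mul_zero, zero_mul, add_zero, zero_add, det7]
  ring

theorem tcert_7_zero (p : Pt) (k : ℤ) (hk : k ≤ 1) :
    ((PowerSeries.coeff 7 tcert) p).coeff k = 0 := by
  rw [← tcert_7]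
  exact r_det7.zero_below 2 (by norm_num) (by decide +kernel) p (by omega)

theorem tcert_8 : det8 = PowerSeries.coeff 8 tcert := by
  simp only [tcert, det2, truncV, map_sub, PowerSeries.coeff_mul,
    Finset.Nat.sum_antidiagonal_eq_sum_range_succ_mk, Finset.sum_range_succ, Finset.sum_range_zero,
    PowerSeries.coeff_mk, Nat.sub_self, Nat.reduceSub, Nat.reduceLeDiff, ↓reduceIte,
    lv0_4_2.1,
    lv0_4_2.2,
    lv0_4_3.1,
    lv0_4_3.2,
    lv0_4_4.1,
    lv0_4_4.2,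
    lv0_4_5.1,
    lv0_4_5.2,
    lv0_4_6.1,
    lv0_4_6.2,
    (low_VF.1 (low_tau 4 low_certD0) 0 (by norm_num)).1,
    (low_VF.1 (low_tau 4 low_certD0) 0 (by norm_num)).2,
    (low_VF.1 (low_tau 4 low_certD0) 1 (by norm_num)).1,
    (low_VF.1 (low_tau 4 low_certD0) 1 (by norm_num)).2,
    lv1_4_2.1,
    lv1_4_2.2,
    lv1_4_3.1,
    lv1_4_3.2,
    lv1_4_4.1,
    lv1_4_4.2,
    lv1_4_5.1,
    lv1_4_5.2,
    lv1_4_6.1,
    lv1_4_6.2,
    (low_VF.1 (low_tau 4 low_certD1) 0 (by norm_num)).1,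
    (low_VF.1 (low_tau 4 low_certD1) 0 (by norm_num)).2,
    (low_VF.1 (low_tau 4 low_certD1) 1 (by norm_num)).1,
    (low_VF.1 (low_tau 4 low_certD1) 1 (by norm_num)).2,
    mul_zero, zero_mul, add_zero, zero_add, det8]
  ring

theorem tcert_8_zero (p : Pt) (k : ℤ) (hk : k ≤ 2) :
    ((PowerSeries.coeff 8 tcert) p).coeff k = 0 := by
  rw [← tcert_8]
  exact r_det8.zero_below 3 (by norm_num) (by decide +kernel) p (by omega)

theorem tcert_9 : det9 = PowerSeries.coeff 9 tcert := by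
  simp only [tcert, det2, truncV, map_sub, PowerSeries.coeff_mul,
    Finset.Nat.sum_antidiagonal_eq_sum_range_succ_mk, Finset.sum_range_succ, Finset.sum_range_zero,
    PowerSeries.coeff_mk, Nat.sub_self, Nat.reduceSub, Nat.reduceLeDiff, ↓reduceIte,
    lv0_4_2.1,
    lv0_4_2.2,
    lv0_4_3.1,
    lv0_4_3.2,
    lv0_4_4.1,
    lv0_4_4.2,
    lv0_4_5.1,
    lv0_4_5.2,
    lv0_4_6.1,
    lv0_4_6.2,
    (low_VF.1 (low_tau 4 low_certD0) 0 (by norm_num)).1,
    (low_VF.1 (low_tau 4 low_certD0) 0 (by norm_num)).2,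
    (low_VF.1 (low_tau 4 low_certD0) 1 (by norm_num)).1,
    (low_VF.1 (low_tau 4 low_certD0) 1 (by norm_num)).2,
    lv1_4_2.1,
    lv1_4_2.2,
    lv1_4_3.1,
    lv1_4_3.2,
    lv1_4_4.1,
    lv1_4_4.2,
    lv1_4_5.1,
    lv1_4_5.2,
    lv1_4_6.1,
    lv1_4_6.2,
    (low_VF.1 (low_tau 4 low_certD1) 0 (by norm_num)).1,
    (low_VF.1 (low_tau 4 low_certD1) 0 (by norm_num)).2,
    (low_VF.1 (low_tau 4 low_certD1) 1 (by norm_num)).1,
    (low_VF.1 (low_tau 4 low_certD1) 1 (by norm_num)).2,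
    mul_zero, zero_mul, add_zero, zero_add, det9]
  ring

theorem tcert_9_zero (p : Pt) (k : ℤ) (hk : k ≤ 0) :
    ((PowerSeries.coeff 9 tcert) p).coeff k = 0 := by
  rw [← tcert_9]
  exact r_det9.zero_below 1 (by norm_num) (by decide +kernel) p (by omega)

end

end P266
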