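import Vale.Agent.P266.CertSpec
import Vale.Agent.P266.CertDetVal
import Vale.Agent.P266.CertDet

/-!
P266: verification of the certificate.
-/

namespace P266

noncomputable section

theorem qcert_one : qcert 1 = q1K := by
  funext p
  show litK (-1) 1 L_qc1 p = _
  simp [litK, L_qc1, q1K, sem_lit_cons, sem_lit_nil, rowVal, HahnSeries.ofPowerSeries_C,
    HahnSeries.C_apply, HahnSeries.single_mul_single]
  ring_nf
  rw [HahnSeries.single_mul_single]
  simp

/-- The two fields of the certificate. -/
def certD : Fin 2 → VF := ![certD0, certD1]

theorem certD_zero_fst {m : ℕ} (hm : m < 2) (i : Fin 2) :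
    PowerSeries.coeff m (certD i).1 = 0 := by
  fin_cases i <;> interval_cases m <;> simp [certD, certD0, certD1, certA0, certA1]

theorem certD_zero_snd {m : ℕ} (hm : m < 4) (i : Fin 2) :
    PowerSeries.coeff m (certD i).2 = 0 := by
  fin_cases i <;> interval_cases m <;> simp [certD, certD0, certD1, certB0, certB1]

theorem certD_high {m : ℕ} (hm : 6 < m) (i : Fin 2) :
    PowerSeries.coeff m (certD i).1 = 0 ∧ PowerSeries.coeff m (certD i).2 = 0 := by
  obtain ⟨m, rfl⟩ : ∃ j, m = j + 7 := ⟨m - 7, by omega⟩
  fin_cases i <;> simp [certD, certD0, certD1, certA0, certA1, certB0, certB1]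

theorem litK_lead : litK 1 1 [[1]] = wK := by
  funext p
  simp [litK, wK, sem_lit_cons, sem_lit_nil, rowVal]

theorem certD_det : ∀ n ≤ 8,
    PowerSeries.coeff n (det2 (certD 0) (certD 1)) = if n = 6 then -1 else 0 := by
  refine det_of_levels qcert certD ?_ (fun i n hn => certD_zero_fst hn i)
    (fun i n hn => certD_zero_snd hn i) ?_ ?_
  · intro i; fin_cases i
    · exact glob_certD0
    · exact glob_certD1
  · intro i; fin_cases i
    · exact tau_small0
    · exact tau_small1
  · intro n h6 h8 p k hk
    interval_cases n
    · have := tcert_6_zero p k (by simpa using hk)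
      simpa [tcert, certD] using this
    · have := tcert_7_zero p k (by simpa using hk)
      simpa [tcert, certD] using this
    · have := tcert_8_zero p k (by simpa using hk)
      simpa [tcert, certD] using this

theorem exists_cert : Nonempty Cert :=
  ⟨{
    q := qcert
    q_one := qcert_one
    D := certD
    glob := fun i => by
      fin_cases i
      · exact glob_certD0
      · exact glob_certD1
    high := fun i n hn => certD_high hn i
    lead_low := fun i n hn => certD_zero_fst hn i
    lead_horizontal := fun i n hn => certD_zero_snd hn i
    lead_x := by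
      simp [certD, certD0, certA0, D0_2, A0_2, L_wA02_10, litK_lead]
    lead_y := by
      simp [certD, certD1, certA1, D1_2, A1_2, L_wA12_01, litK_lead]
    reg := fun i => by
      fin_cases i
      · exact tau_reg0
      · exact tau_reg1
    det := certD_det
    cross_five := fun p => by
      simpa [tcert, certD] using tcert_9_zero p 0 le_rfl }⟩

end

end P266
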