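import Vale.Agent.P266.Curve

/-!
P266: smoothness of the curve off `w = 0`, as a partition of unity.

In the chart `w = 1`, with (X, Y, Z) = (x/w, y/w, 1/w), the curve has no singular point, so the
differentials of `X`, `Y`, `Z` generate: a combination with coefficients of degree `0` is `w^6`.
-/

namespace P266

noncomputable section

/-- The two eliminated polynomials have no common zero. -/
theorem elim_coprime (z : ℂ)
    (h1 :
      (-576 : ℂ) + ((3168 / 5) : ℂ) * z ^ 4 + (144 : ℂ) * z ^ 5 + (50 : ℂ) * z ^ 6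
      + ((-1056 / 5) : ℂ) * z ^ 9 + (520 : ℂ) * z ^ 10 + (-100 : ℂ) * z ^ 11
      + ((88 / 5) : ℂ) * z ^ 14 + (-88 : ℂ) * z ^ 15 + (50 : ℂ) * z ^ 16 = 0)
    (h2 :
      ((50 / 9) : ℂ) + (88 : ℂ) * z ^ 2 + ((-50 / 3) : ℂ) * z ^ 3 + ((196 / 9) : ℂ) * z ^ 4
      + ((-125 / 27) : ℂ) * z ^ 5 + ((-308 / 3) : ℂ) * z ^ 7 + ((182 / 45) : ℂ) * z ^ 8
      + ((26 / 27) : ℂ) * z ^ 9 + ((-200 / 27) : ℂ) * z ^ 10 + ((44 / 3) : ℂ) * z ^ 12
      + ((-1591 / 135) : ℂ) * z ^ 13 + ((-614 / 27) : ℂ) * z ^ 14 + ((175 / 27) : ℂ) * z ^ 15 = 0) : False := by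
  have h : (1112613503489442233932859572753795693825160196816754308756192525000 : ℂ) = 0 := by
    linear_combination
      ((
        (-1932780516218243270843596894422728706773525069082076095607837500 : ℂ)
        + (-1915365275007918893084162368407767692659663659856818894700000 : ℂ) * z ^ 1
        + (115782274933152879518955938728310804799303205198329140923638000 : ℂ) * z ^ 2
        + (170480572928370281908850430966806281976520910103291314173649500 : ℂ) * z ^ 3
        + (222354973320185979949135452520017945733570217888561657850151545 : ℂ) * z ^ 4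
        + (2232046468295969210307474103126743520477180385225144129093347900 : ℂ) * z ^ 5
        + (3412009491334606291866201649234439529060840579457578509773900460 : ℂ) * z ^ 6
        + (196869939224635812421464353679662026716424451093150353487792200 : ℂ) * z ^ 7
        + (1033551956888986351468098778393436659510247185613882288679430250 : ℂ) * z ^ 8
        + (32028788388075392606051761918736155274664149231709481152916230 : ℂ) * z ^ 9
        + (-322211224838223081347647736536114052657871634037042154897689186 : ℂ) * z ^ 10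
        + (-340940072149131157421473941472686615910977166462324791507785140 : ℂ) * z ^ 11
        + (953349493841745840708036753198674731480636998735996512640086125 : ℂ) * z ^ 12
        + (775974334043153299836907023720606224325721046222093721596834250 : ℂ) * z ^ 13
        + (-260089381364824615967379885425134597351575156038557411327709375 : ℂ) * z ^ 14)) * h1
      + ((
        (-120253293407860213149402918065287429750243735413874016505937500 : ℂ)
        + (-198585071712821030834965954356517354374953928253954983002496000 : ℂ) * z ^ 1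
        + (13909118432649796324811893949505417128835617083918529752416837840 : ℂ) * z ^ 2
        + (20460253456920935317287264645449847919374226976810268334765704300 : ℂ) * z ^ 3
        + (23038717669342666112317263747979391504503466318149697155199439000 : ℂ) * z ^ 4
        + (49875335783204917384049706023867553766660343487920204699464350 : ℂ) * z ^ 5
        + (-244681243484755620257746111401696540061156022727792080517990624 : ℂ) * z ^ 6
        + (-4524746058193911379545418042819065544585332401269752592422265800 : ℂ) * z ^ 7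
        + (3520137095101462289391963291927313075344383613945639402318688200 : ℂ) * z ^ 8
        + (15133235372441550991659862796455620392650209457997708985905583000 : ℂ) * z ^ 9
        + (-2038882839229549799828213473838970728236094368584080969469282600 : ℂ) * z ^ 10
        + (29624675751892211670566586781978752135518362847585360369221104 : ℂ) * z ^ 11
        + (359156557625162406123989730522232019319146619403042002547485360 : ℂ) * z ^ 12
        + (-1157780095217435166825404414149584290019350952324322056094993500 : ℂ) * z ^ 13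
        + (-2477747362477907534052070324403922231216845721157275921886542000 : ℂ) * z ^ 14
        + (2006403799100075608891216258993895465283579775154585744528043750 : ℂ) * z ^ 15)) * h2
  norm_num at h

/-- The curve has no singular point in the chart `w = 1`. -/
theorem no_common_zero (X Y Z : ℂ) (hf : X ^ 5 - Z ^ 5 + 1 = 0)
    (hg : 90 * Y ^ 5 - Z ^ 5 + 1 + Z ^ 4 - 12 * X * Y * Z ^ 2 - 30 * X ^ 2 * Y ^ 2 = 0)
    (h1 : X ^ 4 * (450 * Y ^ 4 - 12 * X * Z ^ 2 - 60 * X ^ 2 * Y) = 0)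
    (h2 : Z ^ 4 * (450 * Y ^ 4 - 12 * X * Z ^ 2 - 60 * X ^ 2 * Y) = 0)
    (h3 : Z ^ 4 * (-12 * Y * Z ^ 2 - 60 * X * Y ^ 2)
      + X ^ 4 * (-5 * Z ^ 4 + 4 * Z ^ 3 - 24 * X * Y * Z) = 0) : False := by
  have hgY : 450 * Y ^ 4 - 12 * X * Z ^ 2 - 60 * X ^ 2 * Y = 0 := by
    by_contra h
    have hX : X = 0 := eq_zero_of_pow_eq_zero ((mul_eq_zero.1 h1).resolve_right h)
    have hZ : Z = 0 := eq_zero_of_pow_eq_zero ((mul_eq_zero.1 h2).resolve_right h)
    rw [hX, hZ] at hf
    norm_num at hf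
  set s := X * Y with hs
  set u := Z ^ 5 - 1 with hu
  have hP : 18 * s ^ 2 + (48 / 5 : ℂ) * s * Z ^ 2 + u - Z ^ 4 = 0 := by
    simp only [hs, hu]
    linear_combination (Y / 5) * hgY - hg
  have hQ2 : Z ^ 4 * (-12 * s * Z ^ 2 - 60 * s ^ 2) + u * (-5 * Z ^ 4 + 4 * Z ^ 3 - 24 * s * Z)
      = 0 := by
    simp only [hs, hu]
    linear_combination X * h3 - (-5 * Z ^ 4 + 4 * Z ^ 3 - 24 * X * Y * Z) * hf
  have hQ1 : s * (75 * s ^ 4 - u * (2 * Z ^ 2 + 10 * s)) = 0 := by
    simp only [hs, hu]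
    linear_combination (X ^ 5 * Y / 6) * hgY
      + (2 * X * Y * Z ^ 2 + 10 * X ^ 2 * Y ^ 2) * hf
  rcases mul_eq_zero.1 hQ1 with hs0 | hQ
  · rcases mul_eq_zero.1 (hs.symm.trans hs0) with hX | hY
    · rw [hX] at hf hgY hg
      have hY4 : Y ^ 4 = 0 := by linear_combination hgY / 450
      rw [eq_zero_of_pow_eq_zero hY4] at hg
      have hZ4 : Z ^ 4 = 0 := by linear_combination hg - hf
      rw [eq_zero_of_pow_eq_zero hZ4] at hf
      norm_num at hf
    · rw [hY] at hgY hg
      have hXZ : X * Z ^ 2 = 0 := by linear_combination -hgY / 12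
      rcases mul_eq_zero.1 hXZ with hX | hZ
      · rw [hX] at hf
        have hZ4 : Z ^ 4 = 0 := by linear_combination hg - hf
        rw [eq_zero_of_pow_eq_zero hZ4] at hf
        norm_num at hf
      · rw [eq_zero_of_pow_eq_zero hZ] at hg
        norm_num at hg
  by_cases hZ : Z = 0
  · simp only [hu, hZ] at hP hQ
    norm_num at hP hQ
    have e1 : s ^ 2 = 1 / 18 := by linear_combination hP / 18
    have e2 : s * (75 * s ^ 3 + 10) = 0 := by linear_combination hQ
    rcases mul_eq_zero.1 e2 with h | h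
    · rw [h] at e1; norm_num at e1
    · have e3 : s = -12 / 5 := by linear_combination (6 / 25) * h - 18 * s * e1
      rw [e3] at e1; norm_num at e1
  have hlin : 4 * (6 - Z ^ 5) * s
      + Z ^ 2 * (u * (4 - 5 / 3 * Z) - 10 / 3 * Z ^ 5) = 0 := by
    refine (mul_eq_zero.1 (?_ : Z * _ = 0)).resolve_left hZ
    simp only [hu] at hP hQ2 ⊢
    linear_combination (10 / 3 * Z ^ 4) * hP + hQ2
  set D := 6 - Z ^ 5 with hD
  set C := u * (4 - 5 / 3 * Z) - 10 / 3 * Z ^ 5 with hC
  set α := -(8 / 15 : ℂ) * Z ^ 2 with hα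
  set β := -(1 / 18 : ℂ) * (u - Z ^ 4) with hβ
  refine elim_coprime Z ?_ ?_
  · simp only [hu, hD, hC] at hP hlin ⊢
    linear_combination (16 * D ^ 2) * hP
      - (18 * (4 * D * s - Z ^ 2 * C) + 192 / 5 * D * Z ^ 2) * hlin
  · simp only [hu, hD, hC, hα, hβ] at hP hlin hQ ⊢
    linear_combination (4 * D) * hQ
      - (300 * D * (2 * (α * s + β) + (s ^ 2 - α * s - β) + α ^ 2) / 18) * hP
      - (75 * (α ^ 3 + 2 * α * β) - 10 * u) * hlin

open MvPolynomial in
/-- A certificate for the absence of singular points, by the Nullstellensatz. -/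
theorem exists_certificate_smooth :
    ∃ c : Fin 5 → MvPolynomial (Fin 3) ℂ,
      c 0 * (X 0 ^ 5 - X 2 ^ 5 + 1)
      + c 1 * (C 90 * X 1 ^ 5 - X 2 ^ 5 + 1 + X 2 ^ 4 - C 12 * X 0 * X 1 * X 2 ^ 2
          - C 30 * X 0 ^ 2 * X 1 ^ 2)
      + c 2 * (X 0 ^ 4 * (C 450 * X 1 ^ 4 - C 12 * X 0 * X 2 ^ 2 - C 60 * X 0 ^ 2 * X 1))
      + c 3 * (X 2 ^ 4 * (C 450 * X 1 ^ 4 - C 12 * X 0 * X 2 ^ 2 - C 60 * X 0 ^ 2 * X 1))
      + c 4 * (X 2 ^ 4 * (-C 12 * X 1 * X 2 ^ 2 - C 60 * X 0 * X 1 ^ 2)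
          + X 0 ^ 4 * (-C 5 * X 2 ^ 4 + C 4 * X 2 ^ 3 - C 24 * X 0 * X 1 * X 2)) = 1 := by
  let v : Fin 5 → MvPolynomial (Fin 3) ℂ :=
    ![X 0 ^ 5 - X 2 ^ 5 + 1,
      C 90 * X 1 ^ 5 - X 2 ^ 5 + 1 + X 2 ^ 4 - C 12 * X 0 * X 1 * X 2 ^ 2
        - C 30 * X 0 ^ 2 * X 1 ^ 2,
      X 0 ^ 4 * (C 450 * X 1 ^ 4 - C 12 * X 0 * X 2 ^ 2 - C 60 * X 0 ^ 2 * X 1),
      X 2 ^ 4 * (C 450 * X 1 ^ 4 - C 12 * X 0 * X 2 ^ 2 - C 60 * X 0 ^ 2 * X 1),
      X 2 ^ 4 * (-C 12 * X 1 * X 2 ^ 2 - C 60 * X 0 * X 1 ^ 2)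
        + X 0 ^ 4 * (-C 5 * X 2 ^ 4 + C 4 * X 2 ^ 3 - C 24 * X 0 * X 1 * X 2)]
  have hz : zeroLocus ℂ (Ideal.span (Set.range v)) = ∅ := by
    rw [zeroLocus_span]
    refine Set.eq_empty_iff_forall_notMem.2 fun p hp => ?_
    refine no_common_zero (p 0) (p 1) (p 2) ?_ ?_ ?_ ?_ ?_
    · simpa [v] using hp _ ⟨0, rfl⟩
    · simpa [v] using hp _ ⟨1, rfl⟩
    · simpa [v] using hp _ ⟨2, rfl⟩
    · simpa [v] using hp _ ⟨3, rfl⟩
    · simpa [v] using hp _ ⟨4, rfl⟩
  have htop : Ideal.span (Set.range v) = ⊤ := by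
    rw [← Ideal.radical_eq_top, ← vanishingIdeal_zeroLocus_eq_radical (K := ℂ), hz,
      vanishingIdeal_empty]
  obtain ⟨c, hc⟩ := Ideal.mem_span_range_iff_exists_fun.1
    (htop ▸ Submodule.mem_top : (1 : MvPolynomial (Fin 3) ℂ) ∈ Ideal.span (Set.range v))
  exact ⟨c, by simpa [Fin.sum_univ_five, v] using hc⟩

theorem wpow_pow (k : ℤ) (n : ℕ) : wpow k ^ n = wpow (n * k) := by
  induction n with
  | zero => simp [wpow_zero]
  | succ n ih => rw [pow_succ, ih, wpow_mul]; congr 1; push_cast; ring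

theorem wK_mul_iwK' : wK * iwK = 1 := by
  rw [wK_eq, iwK_eq, wpow_mul, add_neg_cancel, wpow_zero]

theorem mono_zero_zero (k : ℤ) : mono 0 0 k = wpow k := by simp [mono]

theorem wpow_mem_G' {k n : ℤ} (h : k ≤ n) : wpow k ∈ G n := by
  rw [← mono_zero_zero]; exact mono_mem_G (by simpa using h)

theorem reg_wpow {k : ℕ} : Reg (wpow k) := fun p m hm => by
  simp [wpow, HahnSeries.coeff_single_of_ne (show m ≠ (k : ℤ) by omega)]

/-- The derivation `J d/dw`. -/
def ddD : Derivation ℂ K K :=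
  Derivation.mk' { toFun := dd, map_add' := dd_add, map_smul' := fun c f => dd_smul c f }
    fun a b => by
      show dd (a * b) = a • dd b + b • dd a
      rw [dd_mul, smul_eq_mul, smul_eq_mul]; ring

theorem ddD_apply (f : K) : ddD f = dd f := rfl

theorem dd_iwK : dd iwK = -(jac * iwK * iwK) := by
  have h : ddD (wK * iwK) = 0 := by rw [wK_mul_iwK', Derivation.map_one_eq_zero]
  rw [Derivation.leibniz, smul_eq_mul, smul_eq_mul, ddD_apply, ddD_apply, dd_wK] at h
  linear_combination iwK * h - dd iwK * wK_mul_iwK'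

theorem coeff_zero_branch (p : Pt) (c : ℂ) (u : PowerSeries ℂ) :
    (HahnSeries.ofPowerSeries ℤ ℂ (PowerSeries.C c * u)).coeff 0
      = c * PowerSeries.constantCoeff u := by
  rw [show (0 : ℤ) = ((0 : ℕ) : ℤ) from rfl, HahnSeries.ofPowerSeries_apply_coeff,
    PowerSeries.coeff_zero_eq_constantCoeff_apply, map_mul, PowerSeries.constantCoeff_C]

theorem pa_ne_zero (p : Pt) : pa p ≠ 0 := fun h => by simpa [h] using pa_pow p

theorem pb_ne_zero (p : Pt) : pb p ≠ 0 := fun h => by simpa [h] using pb_pow p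

theorem xK_coeff_zero (p : Pt) : (xK p).coeff 0 = pa p := by
  rw [xK, coeff_zero_branch p, xs_spec.1, mul_one]

theorem yK_coeff_zero (p : Pt) : (yK p).coeff 0 = pb p := by
  rw [yK, coeff_zero_branch p, (ys_spec _).1, mul_one]

/-- `∂g/∂y` in the chart `z = 1`. -/
def gyK : K := (450 : K) * yK ^ 4 - wK * ((12 : K) * xK + (60 : K) * xK ^ 2 * yK)

/-- The part in the chart `z = 1` as a power series. -/
def gyP (p : Pt) : PowerSeries ℂ :=
  450 * (PowerSeries.C (pb p) * ys (ps p)) ^ 4 - PowerSeries.X *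
    (12 * (PowerSeries.C (pa p) * xs) +
      60 * (PowerSeries.C (pa p) * xs) ^ 2 * (PowerSeries.C (pb p) * ys (ps p)))

theorem gyK_eq (p : Pt) : gyK p = HahnSeries.ofPowerSeries ℤ ℂ (gyP p) := by
  simp only [gyK, gyP, xK, yK, wK, Pi.sub_apply, Pi.add_apply, Pi.mul_apply, Pi.pow_apply,
    Pi.ofNat_apply, map_sub, map_add, map_mul, map_pow, map_ofNat, HahnSeries.ofPowerSeries_X]

theorem gyP_const (p : Pt) : PowerSeries.constantCoeff (gyP p) = 450 * pb p ^ 4 := by
  simp [gyP, (ys_spec (ps p)).1, map_ofNat]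

theorem gyK_coeff_zero (p : Pt) : (gyK p).coeff 0 ≠ 0 := by
  rw [gyK_eq, show (0 : ℤ) = ((0 : ℕ) : ℤ) from rfl, HahnSeries.ofPowerSeries_apply_coeff,
    PowerSeries.coeff_zero_eq_constantCoeff_apply, gyP_const]
  exact mul_ne_zero (by norm_num) (pow_ne_zero _ (pb_ne_zero p))

theorem jac_eq : jac = (5 : K) * xK ^ 4 * gyK := rfl

theorem isUnit_of_ne_zero {f : K} (h : ∀ p, f p ≠ 0) : IsUnit f :=
  Pi.isUnit_iff.2 fun p => isUnit_iff_ne_zero.2 (h p)

theorem isUnit_xK : IsUnit xK := isUnit_of_ne_zero fun p h => by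
  have := xK_coeff_zero p
  rw [h] at this
  exact pa_ne_zero p (by simpa using this.symm)

theorem isUnit_gyK : IsUnit gyK := isUnit_of_ne_zero fun p h => by
  have := gyK_coeff_zero p
  rw [h] at this
  simp at this

theorem jac_coeff_zero (p : Pt) : (jac p).coeff 0 ≠ 0 := by
  have h : jac p = HahnSeries.ofPowerSeries ℤ ℂ (5 * (PowerSeries.C (pa p) * xs) ^ 4 * gyP p) := by
    rw [jac_eq, Pi.mul_apply, gyK_eq]
    simp [xK, map_ofNat]
  rw [h, show (0 : ℤ) = ((0 : ℕ) : ℤ) from rfl, HahnSeries.ofPowerSeries_apply_coeff,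
    PowerSeries.coeff_zero_eq_constantCoeff_apply]
  simp only [map_mul, map_pow, map_ofNat, PowerSeries.constantCoeff_C, xs_spec.1, gyP_const]
  exact mul_ne_zero (by simp [pa_ne_zero p]) (mul_ne_zero (by norm_num)
    (pow_ne_zero _ (pb_ne_zero p)))

theorem isUnit_jac : IsUnit jac := isUnit_of_ne_zero fun p h => jac_coeff_zero p (by simp [h])

/-- `x/w`. -/
def chX : K := xK * iwK

/-- `y/w`. -/
def chY : K := yK * iwK

/-- `∂g/∂X` in the chart `w = 1`. -/
def gXc : K := -(12 : K) * chY * iwK ^ 2 - (60 : K) * chX * chY ^ 2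

/-- `∂g/∂Y` in the chart `w = 1`. -/
def gYc : K := (450 : K) * chY ^ 4 - (12 : K) * chX * iwK ^ 2 - (60 : K) * chX ^ 2 * chY

/-- `∂g/∂Z` in the chart `w = 1`. -/
def gZc : K := -(5 : K) * iwK ^ 4 + (4 : K) * iwK ^ 3 - (24 : K) * chX * chY * iwK

theorem dd_consts : dd (90 : K) = 0 ∧ dd (12 : K) = 0 ∧ dd (30 : K) = 0 := by
  refine ⟨?_, ?_, ?_⟩
  · simpa [ddD_apply] using ddD.map_natCast 90
  · simpa [ddD_apply] using ddD.map_natCast 12
  · simpa [ddD_apply] using ddD.map_natCast 30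

theorem isUnit_five : IsUnit (5 : K) := isUnit_of_ne_zero fun p => by
  rw [Pi.ofNat_apply, ← map_ofNat (algebraMap ℂ (LaurentSeries ℂ)) 5]
  exact (map_ne_zero _).2 (by norm_num)

theorem chart_f : chX ^ 5 - iwK ^ 5 + 1 = 0 := by
  have h : (wK * iwK) ^ 5 = 1 := by rw [wK_mul_iwK', one_pow]
  rw [chX]
  linear_combination iwK ^ 5 * xK_pow - h

theorem chart_g : (90 : K) * chY ^ 5 - iwK ^ 5 + 1 + iwK ^ 4 - (12 : K) * chX * chY * iwK ^ 2
    - (30 : K) * chX ^ 2 * chY ^ 2 = 0 := by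
  have h : (wK * iwK) ^ 5 = 1 := by rw [wK_mul_iwK', one_pow]
  rw [chX, chY]
  linear_combination iwK ^ 5 * yK_pow - h
    + (-(iwK ^ 4) + (12 : K) * xK * yK * iwK ^ 4 + (30 : K) * xK ^ 2 * yK ^ 2 * iwK ^ 4)
      * wK_mul_iwK'

theorem gYc_eq : gYc = iwK ^ 4 * gyK := by
  rw [gYc, chX, chY, gyK]
  linear_combination ((12 : K) * xK * iwK ^ 3 + (60 : K) * xK ^ 2 * yK * iwK ^ 3) * wK_mul_iwK'

theorem dd_chart_Z : dd iwK = -(5 : K) * wK ^ 6 * (chX ^ 4 * gYc) := by
  have h : (wK * iwK) ^ 6 = 1 := by rw [wK_mul_iwK', one_pow]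
  rw [dd_iwK, gYc_eq, chX, jac_eq]
  linear_combination ((5 : K) * xK ^ 4 * gyK * iwK ^ 2) * h

theorem dd_chart_X : dd chX = -(5 : K) * wK ^ 6 * (iwK ^ 4 * gYc) := by
  have h : ddD (chX ^ 5 - iwK ^ 5 + 1) = 0 := by rw [chart_f, map_zero]
  simp only [map_add, map_sub, Derivation.map_one_eq_zero, Derivation.leibniz_pow, nsmul_eq_mul,
    smul_eq_mul, ddD_apply, add_zero] at h
  have hu : IsUnit ((5 : K) * chX ^ 4) := by
    refine IsUnit.mul isUnit_five (IsUnit.pow _ (isUnit_xK.mul ?_))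
    exact IsUnit.of_mul_eq_one _ (by rw [mul_comm]; exact wK_mul_iwK')
  refine hu.mul_left_cancel ?_
  push_cast at h
  linear_combination h + ((5 : K) * iwK ^ 4) * dd_chart_Z

theorem dd_chart_Y : dd chY = (5 : K) * wK ^ 6 * (iwK ^ 4 * gXc + chX ^ 4 * gZc) := by
  have h : ddD ((90 : K) * chY ^ 5 - iwK ^ 5 + 1 + iwK ^ 4 - (12 : K) * chX * chY * iwK ^ 2
      - (30 : K) * chX ^ 2 * chY ^ 2) = 0 := by rw [chart_g, map_zero]
  simp only [map_add, map_sub, Derivation.map_one_eq_zero, Derivation.leibniz,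
    Derivation.leibniz_pow, nsmul_eq_mul, smul_eq_mul, ddD_apply, dd_consts.1, dd_consts.2.1,
    dd_consts.2.2, add_zero,
    mul_zero] at h
  push_cast at h
  have hu : IsUnit gYc := by
    rw [gYc_eq]
    exact (IsUnit.pow _ (IsUnit.of_mul_eq_one _ (by rw [mul_comm]; exact wK_mul_iwK'))).mul
      isUnit_gyK
  refine hu.mul_left_cancel ?_
  rw [dd_chart_X, dd_chart_Z] at h
  simp only [gXc, gYc, gZc] at h ⊢
  linear_combination h

/-- The differentials of the three coordinates generate over the punctured curve. -/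
theorem exists_partition :
    ∃ a b c : K, a ∈ G 0 ∧ b ∈ G 0 ∧ c ∈ G 0 ∧
      a * dd chX + b * dd chY + c * dd iwK = wK ^ 6 := by
  obtain ⟨c, hc⟩ := exists_certificate_smooth
  set e : MvPolynomial (Fin 3) ℂ →ₐ[ℂ] K := MvPolynomial.aeval ![chX, chY, iwK] with he
  have hmem : ∀ P, e P ∈ G 0 := by
    intro P
    induction P using MvPolynomial.induction_on with
    | C r =>
      rw [he, MvPolynomial.aeval_C, Algebra.algebraMap_eq_smul_one]
      exact Submodule.smul_mem _ _ (one_mem_G le_rfl)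
    | add P Q hP hQ => rw [map_add]; exact Submodule.add_mem _ hP hQ
    | mul_X P i hP =>
      rw [map_mul]
      suffices h : e (MvPolynomial.X i) ∈ G 0 by simpa using mul_mem_G hP h
      rw [he, MvPolynomial.aeval_X]
      fin_cases i
      · simpa [chX, mono, iwK_eq] using mono_mem_G (i := 1) (j := 0) (k := -1) (n := 0) (by norm_num)
      · simpa [chY, mono, iwK_eq] using mono_mem_G (i := 0) (j := 1) (k := -1) (n := 0) (by norm_num)
      · exact G_mono (by norm_num) iwK_mem_G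
  have h := congrArg e hc
  simp only [he, map_add, map_sub, map_neg, map_mul, map_pow, map_one, MvPolynomial.aeval_X,
    MvPolynomial.aeval_C, map_ofNat, Matrix.cons_val_zero, Matrix.cons_val_one,
    Matrix.cons_val] at h
  have hs : ∀ (r : ℂ) (P : MvPolynomial (Fin 3) ℂ), algebraMap ℂ K r * e P ∈ G 0 := fun r P => by
    rw [← Algebra.smul_def]; exact Submodule.smul_mem _ _ (hmem _)
  refine ⟨-(algebraMap ℂ K (5 : ℂ)⁻¹ * e (c 3)), algebraMap ℂ K (5 : ℂ)⁻¹ * e (c 4),
    -(algebraMap ℂ K (5 : ℂ)⁻¹ * e (c 2)), Submodule.neg_mem _ (hs _ _), hs _ _,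
    Submodule.neg_mem _ (hs _ _), ?_⟩
  have h5 : algebraMap ℂ K (5 : ℂ)⁻¹ * 5 = 1 := by
    rw [← map_ofNat (algebraMap ℂ K) 5, ← map_mul, inv_mul_cancel₀ (by norm_num), map_one]
  rw [dd_chart_X, dd_chart_Y, dd_chart_Z]
  simp only [he, gXc, gYc, gZc]
  have hf := chart_f
  have hg := chart_g
  simp only [hf, hg, mul_zero, zero_add] at h
  linear_combination (wK ^ 6 * algebraMap ℂ K (5 : ℂ)⁻¹ * (5 : K)) * h + wK ^ 6 * h5

end

end P266
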