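import Vale.Agent.P266.Ring
import Vale.Agent.P266.Smooth

/-!
P266: derivations of the ring are free of rank two.

A derivation `δ` agrees with `a D₀ + b D₁`, where `T^20 a` is found by Cramer's rule from two
lifts with independent differentials. A pair whose Wronskian is a unit at the 25 points makes `a`
regular there, and a partition of unity on the punctured curve makes it global.
-/

namespace P266

open PowerSeries (coeff X C)
open Finset

noncomputable section

/-- All coefficients are sections of degree shifted by `d`. -/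
def GlobD (d : ℤ) (f : S) : Prop := ∀ n : ℕ, coeff n f ∈ G ((n : ℤ) + d)

/-- The series divided by `T^k`. -/
def shiftS (k : ℕ) (f : S) : S := PowerSeries.mk fun n => coeff (n + k) f

theorem coeff_shiftS (k n : ℕ) (f : S) : coeff n (shiftS k f) = coeff (n + k) f := by
  simp [shiftS]

theorem eq_X_pow_mul {k : ℕ} {f : S} (h : Low k f) : f = X ^ k * shiftS k f := by
  refine PowerSeries.ext fun n => ?_
  rw [PowerSeries.coeff_X_pow_mul']
  split_ifs with hn
  · rw [coeff_shiftS, Nat.sub_add_cancel hn]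
  · exact low_S_iff.1 h n (by omega)

theorem X_pow_mul_cancel {k : ℕ} {f g : S} (h : X ^ k * f = X ^ k * g) : f = g :=
  PowerSeries.ext fun n => by
    simpa [PowerSeries.coeff_X_pow_mul] using congrArg (coeff (n + k)) h

theorem low_X_pow_mul (k : ℕ) (f : S) : Low k (X ^ k * f) :=
  low_S_iff.2 fun m hm => by rw [PowerSeries.coeff_X_pow_mul', if_neg (by omega)]

theorem coeff_X_pow_mul_top (k : ℕ) (f : S) : coeff k (X ^ k * f) = coeff 0 f := by
  simpa using PowerSeries.coeff_X_pow_mul f k 0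

private theorem low_mul_pair {a b : ℕ} {f g : S} (hf : Low a f) (hg : Low b g) :
    Low (a + b) (f * g) ∧ coeff (a + b) (f * g) = coeff a f * coeff b g := by
  have e : f * g = X ^ (a + b) * (shiftS a f * shiftS b g) := by
    conv_lhs => rw [eq_X_pow_mul hf, eq_X_pow_mul hg]
    rw [pow_add]; ring
  rw [e]
  refine ⟨low_X_pow_mul _ _, ?_⟩
  rw [coeff_X_pow_mul_top, PowerSeries.coeff_zero_eq_constantCoeff_apply, map_mul,
    ← PowerSeries.coeff_zero_eq_constantCoeff_apply, ← PowerSeries.coeff_zero_eq_constantCoeff_apply,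
    coeff_shiftS, coeff_shiftS, zero_add, zero_add]

/-- The inverse of a series with invertible constant term inherits a multiplicative property. -/
theorem coeff_inv_induction (P : ℕ → K → Prop) {f g : S} (hfg : f * g = 1)
    (h : ∀ m, (∀ j < m, P j (coeff j g)) → ∀ u, u * coeff 0 f = 1 →
      P m (u * ((if m = 0 then 1 else 0) - ∑ ij ∈ (antidiagonal m).erase (0, m),
        coeff ij.1 f * coeff ij.2 g))) :
    ∀ m, P m (coeff m g) := by
  intro m
  induction m using Nat.strong_induction_on with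
  | _ m ih =>
    have h0 : coeff 0 g * coeff 0 f = 1 := by
      have := congrArg PowerSeries.constantCoeff hfg
      rw [map_mul, map_one] at this
      rw [PowerSeries.coeff_zero_eq_constantCoeff_apply,
        PowerSeries.coeff_zero_eq_constantCoeff_apply, mul_comm]
      exact this
    have hm := congrArg (coeff m) hfg
    rw [PowerSeries.coeff_mul, PowerSeries.coeff_one,
      ← add_sum_erase _ _ (show ((0 : ℕ), m) ∈ antidiagonal m by simp)] at hm
    have e : coeff m g = coeff 0 g * ((if m = 0 then 1 else 0) -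
        ∑ ij ∈ (antidiagonal m).erase (0, m), coeff ij.1 f * coeff ij.2 g) := by
      linear_combination coeff 0 g * hm - coeff m g * h0
    rw [e]
    exact h m ih _ h0

theorem isUnit_S {f : S} (h : IsUnit (coeff 0 f)) : IsUnit f := by
  rw [PowerSeries.isUnit_iff_constantCoeff, ← PowerSeries.coeff_zero_eq_constantCoeff_apply]
  exact h

theorem snd_lt_of_mem_erase {m : ℕ} {ij : ℕ × ℕ} (h : ij ∈ (antidiagonal m).erase (0, m)) :
    ij.1 + ij.2 = m ∧ ij.2 < m := by
  rw [mem_erase, HasAntidiagonal.mem_antidiagonal, ne_eq, Prod.ext_iff, not_and] at h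
  refine ⟨h.2, ?_⟩
  by_contra hc
  exact h.1 (by omega) (by omega)

theorem globD_inv {d : ℤ} {f g : S} (hfg : f * g = 1) (hf : GlobD d f) {u : K}
    (hu : u * coeff 0 f = 1) (hu' : u ∈ G (-d)) : GlobD (-d) g := by
  refine coeff_inv_induction (fun m x => x ∈ G ((m : ℤ) + -d)) hfg fun m ih v hv => ?_
  have hvu : v = u := by linear_combination u * hv - v * hu
  subst hvu
  rw [add_comm]
  refine mul_mem_G hu' (Submodule.sub_mem _ ?_ (Submodule.sum_mem _ fun ij hij => ?_))
  · split_ifs
    · exact one_mem_G (Int.natCast_nonneg m)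
    · exact Submodule.zero_mem _
  · obtain ⟨hsum, hlt⟩ := snd_lt_of_mem_erase hij
    refine G_mono (le_of_eq ?_) (mul_mem_G (hf ij.1) (ih ij.2 hlt))
    rw [← hsum]; push_cast; ring

theorem Reg.zero : Reg 0 := fun p k _ => by simp

theorem Reg.one : Reg 1 := fun p k hk => by
  simp [HahnSeries.coeff_one, hk.ne]

theorem Reg.sum {ι : Type*} (s : Finset ι) (F : ι → K) (h : ∀ i ∈ s, Reg (F i)) :
    Reg (∑ i ∈ s, F i) :=
  Finset.sum_induction F Reg (fun _ _ => Reg.add) Reg.zero h

theorem Reg.natCast (n : ℕ) : Reg (n : K) := by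
  induction n with
  | zero => simpa using Reg.zero
  | succ n ih => rw [Nat.cast_succ]; exact ih.add Reg.one

theorem regS_sub {f g : S} (hf : RegS f) (hg : RegS g) : RegS (f - g) := fun n => by
  rw [map_sub]; exact (hf n).sub (hg n)

theorem regS_add {f g : S} (hf : RegS f) (hg : RegS g) : RegS (f + g) := fun n => by
  rw [map_add]; exact (hf n).add (hg n)

theorem reg_ofPowerSeries {f : K} (u : Pt → PowerSeries ℂ)
    (h : ∀ p, f p = HahnSeries.ofPowerSeries ℤ ℂ (u p)) : Reg f := fun p k hk => by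
  rw [h p, HahnSeries.ofPowerSeries_apply, HahnSeries.embDomain_notin_range]
  rintro ⟨n, hn⟩
  simp at hn
  omega

theorem reg_eq_ofPowerSeries {f : K} (hf : Reg f) (p : Pt) :
    f p = HahnSeries.ofPowerSeries ℤ ℂ (PowerSeries.mk fun n => (f p).coeff (n : ℤ)) := by
  ext k
  rcases lt_or_ge k 0 with hk | hk
  · rw [hf p k hk, HahnSeries.ofPowerSeries_apply, HahnSeries.embDomain_notin_range]
    rintro ⟨n, hn⟩
    simp at hn
    omega
  · lift k to ℕ using hk
    simp

/-- A regular function which is nonzero at the points has a regular inverse. -/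
theorem exists_reg_inv {f : K} (hf : Reg f) (h : ∀ p, (f p).coeff 0 ≠ 0) :
    ∃ u : K, Reg u ∧ u * f = 1 := by
  refine ⟨fun p => HahnSeries.ofPowerSeries ℤ ℂ (PowerSeries.mk fun n => (f p).coeff (n : ℤ))⁻¹,
    reg_ofPowerSeries _ fun _ => rfl, ?_⟩
  funext p
  rw [Pi.mul_apply, Pi.one_apply]
  conv_lhs => arg 2; rw [reg_eq_ofPowerSeries hf p]
  rw [← map_mul, PowerSeries.inv_mul_cancel _ (by simpa using h p), map_one]

theorem regS_inv {f g : S} (hfg : f * g = 1) (hf : RegS f)
    (h0 : ∀ p, (coeff 0 f p).coeff 0 ≠ 0) : RegS g := by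
  obtain ⟨u, hu, hu'⟩ := exists_reg_inv (hf 0) h0
  refine coeff_inv_induction (fun _ x => Reg x) hfg fun m ih v hv => ?_
  have hvu : v = u := by linear_combination u * hv - v * hu'
  subst hvu
  refine hu.mul ((?_ : Reg _).sub (Reg.sum _ _ fun ij hij => ?_))
  · split_ifs
    · exact Reg.one
    · exact Reg.zero
  · exact (hf ij.1).mul (ih ij.2 (snd_lt_of_mem_erase hij).2)

theorem natCast_mul_mem_G {n : ℤ} (k : ℕ) {f : K} (hf : f ∈ G n) : (k : K) * f ∈ G n := by
  rw [← nsmul_eq_mul]; exact nsmul_mem hf k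

theorem globD_mul {d e : ℤ} {f g : S} (hf : GlobD d f) (hg : GlobD e g) :
    GlobD (d + e) (f * g) := fun n => by
  rw [PowerSeries.coeff_mul]
  refine Submodule.sum_mem _ fun ij hij => G_mono (le_of_eq ?_) (mul_mem_G (hf ij.1) (hg ij.2))
  rw [← HasAntidiagonal.mem_antidiagonal.1 hij]; push_cast; ring

theorem globD_zero_iff {f : S} : GlobD 0 f ↔ Glob f := by simp [GlobD, Glob]

theorem glob_act {D : VF} (hD : GlobV D) {f : S} (hf : Glob f) : Glob (act D f) := by
  intro n
  simp only [act, map_add, PowerSeries.coeff_mul, coeff_thetaS, coeff_dS, ← sum_add_distrib]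
  refine Submodule.sum_mem _ fun ij hij => ?_
  obtain ⟨h1, h2⟩ := hD ij.1
  have e : coeff ij.1 D.1 * ((ij.2 : K) * coeff ij.2 f) + coeff ij.1 D.2 * dd (coeff ij.2 f)
      = (coeff ij.1 D.1 - kap * coeff ij.1 D.2) * ((ij.2 : K) * coeff ij.2 f)
        + coeff ij.1 D.2 * (dd (coeff ij.2 f) + (((ij.2 : ℕ) : ℤ) : K) * kap * coeff ij.2 f) := by
    push_cast; ring
  rw [e]
  refine Submodule.add_mem _ (G_mono (le_of_eq ?_) (mul_mem_G h1 (natCast_mul_mem_G _ (hf ij.2))))
    (G_mono (le_of_eq ?_) (mul_mem_G h2 (hat_mem_G (hf ij.2))))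
  · rw [← HasAntidiagonal.mem_antidiagonal.1 hij]; push_cast; ring
  · rw [← HasAntidiagonal.mem_antidiagonal.1 hij]; push_cast; ring

theorem regS_act {D : VF} (hD : RegV D) {f : S} (hf : RegS f) : RegS (act D f) := by
  intro n
  simp only [act, map_add, PowerSeries.coeff_mul, coeff_thetaS, coeff_dS]
  exact (Reg.sum _ _ fun ij _ => (hD.1 ij.1).mul ((Reg.natCast _).mul (hf ij.2))).add
    (Reg.sum _ _ fun ij _ => (hD.2 ij.1).mul (hf ij.2).dd)

/-- The Wronskian of two series. -/
def wr (f g : S) : S := thetaS f * dS g - thetaS g * dS f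

theorem act_cramer (D E : VF) (f g : S) :
    act D f * act E g - act D g * act E f = det2 D E * wr f g := by
  simp only [act, det2, wr]; ring

theorem wr_seven {f g : S} (hf : Low 7 f) (hg : Low 7 g) :
    Low 14 (wr f g) ∧ coeff 14 (wr f g)
      = (7 : K) * (coeff 7 f * dd (coeff 7 g) - coeff 7 g * dd (coeff 7 f)) := by
  have hth : ∀ f : S, Low 7 f → Low 7 (thetaS f) ∧ Low 7 (dS f) := fun f hf =>
    ⟨low_S_iff.2 fun m hm => by rw [coeff_thetaS, low_S_iff.1 hf m hm, mul_zero],
      low_S_iff.2 fun m hm => by rw [coeff_dS, low_S_iff.1 hf m hm, dd_zero]⟩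
  obtain ⟨a1, a2⟩ := low_mul_pair (hth f hf).1 (hth g hg).2
  obtain ⟨b1, b2⟩ := low_mul_pair (hth g hg).1 (hth f hf).2
  refine ⟨a1.sub b1, ?_⟩
  rw [wr, map_sub, a2, b2, coeff_thetaS, coeff_thetaS, coeff_dS, coeff_dS]
  push_cast; ring

namespace Model

variable (M : Model)

theorem act_mem (i : Fin 2) {f : S} (hf : f ∈ M.ring) : act (M.D i) f ∈ M.ring :=
  ⟨glob_act (M.glob i) hf.1, by
    show RegS (M.tau (act (M.D i) f))
    rw [M.tau_act]; exact regS_act (M.reg i) hf.2⟩

/-- The field `D i` as a linear map of the ring. -/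
def derLin (i : Fin 2) : M.ring →ₗ[ℂ] M.ring where
  toFun f := ⟨act (M.D i) (f : S), M.act_mem i f.2⟩
  map_add' f g := Subtype.ext (act_add _ _ _)
  map_smul' c f := Subtype.ext (act_smul _ _ _)

/-- The field `D i` as a derivation of the ring. -/
def der (i : Fin 2) : Derivation ℂ M.ring M.ring :=
  Derivation.mk' (R := ℂ) (A := M.ring) (M := M.ring) (M.derLin i)
    fun (f g : M.ring) => Subtype.ext (by
      show act (M.D i) ((f : S) * g) = (f : S) * act (M.D i) g + (g : S) * act (M.D i) f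
      rw [act_mul]; ring)

theorem coe_der (i : Fin 2) (f : M.ring) : ((M.der i f : M.ring) : S) = act (M.D i) f := rfl

/-- The determinant of the two fields on a pair of series. -/
def DET (f g : S) : S := act (M.D 0) f * act (M.D 1) g - act (M.D 0) g * act (M.D 1) f

theorem DET_seven {f g : S} (hf : Low 7 f) (hg : Low 7 g) :
    Low 20 (M.DET f g) ∧ coeff 20 (M.DET f g)
      = -((7 : K) * (coeff 7 f * dd (coeff 7 g) - coeff 7 g * dd (coeff 7 f))) := by
  obtain ⟨h1, h2⟩ := low_mul_pair (low_S_iff.2 M.det_low) (wr_seven hf hg).1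
  rw [DET, act_cramer]
  exact ⟨h1, by rw [h2, M.det_six, (wr_seven hf hg).2]; ring⟩

theorem DET_mem (f g : M.ring) : M.DET f g ∈ M.ring :=
  sub_mem (mul_mem (M.act_mem 0 f.2) (M.act_mem 1 g.2))
    (mul_mem (M.act_mem 0 g.2) (M.act_mem 1 f.2))

theorem coeff_eq_zero_of_branch {n : ℕ} {f : S} (hf : f ∈ M.ring) (h : Low n f)
    (hne : coeff n f ≠ 0) : IsUnit (coeff n f) :=
  isUnit_of_ne_zero fun _ hp => hne (eq_zero_of_branch (hf.1 n) (M.lowest_reg hf h) hp)

theorem nonZeroDivisor {f : S} (hf : f ∈ M.ring) (hne : f ≠ 0) {g : S} (h : f * g = 0) :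
    g = 0 := by
  classical
  have hex : ∃ n, coeff n f ≠ 0 := by
    by_contra hc
    simp only [not_exists, not_not] at hc
    exact hne (PowerSeries.ext fun n => by simpa using hc n)
  have hlow : Low (Nat.find hex) f :=
    low_S_iff.2 fun m hm => not_not.1 (Nat.find_min hex hm)
  have hu : IsUnit (shiftS (Nat.find hex) f) := isUnit_S (by
    rw [coeff_shiftS, zero_add]
    exact M.coeff_eq_zero_of_branch hf hlow (Nat.find_spec hex))
  rw [eq_X_pow_mul hlow, mul_assoc] at h
  exact (hu.mul_right_eq_zero).1 (X_pow_mul_cancel (h.trans (mul_zero _).symm))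

theorem exists_seven {g : K} (hg : g ∈ G 7) (hr : Reg g) :
    ∃ f : M.ring, Low 7 (f : S) ∧ coeff 7 (f : S) = g := by
  obtain ⟨f, hf, h1, h2⟩ := M.exists_lift (n := 7) le_rfl (by exact_mod_cast hg) hr
  exact ⟨⟨f, hf⟩, h1, h2⟩

theorem tau_X : M.tau X = X * shiftS 1 (M.tau X) ∧ coeff 0 (shiftS 1 (M.tau X)) = 1 := by
  have hX : Low 1 (X : S) := low_S_iff.2 fun m hm => by
    rw [show m = 0 by omega, PowerSeries.coeff_zero_X]
  have h := M.tau_low 1 X hX
  have hl : Low 1 (M.tau X) := by
    simpa using (h.mono (Nat.le_succ 1)).add hX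
  refine ⟨by simpa using eq_X_pow_mul hl, ?_⟩
  have h1 := low_S_iff.1 h 1 (by omega)
  rw [map_sub, sub_eq_zero, PowerSeries.coeff_one_X] at h1
  rw [coeff_shiftS, zero_add]; exact h1

/-- The global part, by the partition of unity. -/
theorem quotient_glob (a : S) (N : M.ring → M.ring → M.ring)
    (ha : ∀ f g : M.ring, a * M.DET f g = X ^ 20 * (N f g : S)) :
    GlobD (-20) a := by
  obtain ⟨c₁, c₂, c₃, hc₁, hc₂, hc₃, hpart⟩ := exists_partition
  obtain ⟨u, hu1, hu2⟩ := M.exists_seven (wpow_mem_G' (k := 7) le_rfl) (reg_wpow (k := 7))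
  have hchX : chX * wpow 7 = xK * wpow 6 := by
    rw [chX, iwK_eq, mul_assoc, wpow_mul]; norm_num
  have hchY : chY * wpow 7 = yK * wpow 6 := by
    rw [chY, iwK_eq, mul_assoc, wpow_mul]; norm_num
  have hchZ : iwK * wpow 7 = wpow 6 := by
    rw [iwK_eq, wpow_mul]; norm_num
  obtain ⟨f₁, hf₁, hf₁'⟩ := M.exists_seven (g := chX * wpow 7)
    (by rw [hchX]; simpa [mono] using mono_mem_G (i := 1) (j := 0) (k := 6) (n := 7) (by norm_num))
    (by rw [hchX]; exact reg_xK.mul (reg_wpow (k := 6)))
  obtain ⟨f₂, hf₂, hf₂'⟩ := M.exists_seven (g := chY * wpow 7)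
    (by rw [hchY]; simpa [mono] using mono_mem_G (i := 0) (j := 1) (k := 6) (n := 7) (by norm_num))
    (by rw [hchY]; exact reg_yK.mul (reg_wpow (k := 6)))
  obtain ⟨f₃, hf₃, hf₃'⟩ := M.exists_seven (g := iwK * wpow 7)
    (by rw [hchZ]; exact wpow_mem_G' (by norm_num)) (by rw [hchZ]; exact reg_wpow (k := 6))
  set E : S := C c₁ * M.DET u f₁ + C c₂ * M.DET u f₂ + C c₃ * M.DET u f₃ with hE
  set Nn : S := C c₁ * (N u f₁ : S) + C c₂ * (N u f₂ : S) + C c₃ * (N u f₃ : S) with hNn
  have hEN : a * E = X ^ 20 * Nn := by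
    rw [hE, hNn]
    linear_combination C c₁ * ha u f₁ + C c₂ * ha u f₂ + C c₃ * ha u f₃
  have hwrd : ∀ P : K, wpow 7 * dd (P * wpow 7) - P * wpow 7 * dd (wpow 7)
      = wpow 14 * dd P := fun P => by
    rw [dd_mul, show wpow 14 = wpow 7 * wpow 7 by rw [wpow_mul]; norm_num]; ring
  have hElow : Low 20 E ∧ coeff 20 E = -((7 : K) * wpow 20) := by
    obtain ⟨a1, a2⟩ := M.DET_seven hu1 hf₁
    obtain ⟨b1, b2⟩ := M.DET_seven hu1 hf₂
    obtain ⟨d1, d2⟩ := M.DET_seven hu1 hf₃
    refine ⟨((?_ : Low 20 _).add ?_).add ?_, ?_⟩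
    · simpa using (low_mul_pair (low_zero (C c₁)) a1).1
    · simpa using (low_mul_pair (low_zero (C c₂)) b1).1
    · simpa using (low_mul_pair (low_zero (C c₃)) d1).1
    · rw [hE, map_add, map_add, PowerSeries.coeff_C_mul, PowerSeries.coeff_C_mul,
        PowerSeries.coeff_C_mul, a2, b2, d2, hu2, hf₁', hf₂', hf₃', hwrd, hwrd, hwrd,
        show wpow 20 = wpow 14 * wK ^ 6 by rw [wK_eq, wpow_pow, wpow_mul]; norm_num]
      linear_combination (-(7 : K) * wpow 14) * hpart
  set U := shiftS 20 E with hU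
  have hU0 : coeff 0 U = -((7 : K) * wpow 20) := by rw [hU, coeff_shiftS, zero_add, hElow.2]
  have hGE : ∀ (c : K) (f g : M.ring), c ∈ G 0 →
      GlobD 0 (C c * M.DET f g) ∧ GlobD 0 (C c * (N f g : S)) := by
    intro c f g hc
    have hC : GlobD 0 (C c) := fun n => by
      rw [PowerSeries.coeff_C]; split_ifs with h
      · subst h; simpa using hc
      · exact Submodule.zero_mem _
    exact ⟨by simpa using globD_mul hC (globD_zero_iff.2 (M.DET_mem f g).1),
      by simpa using globD_mul hC (globD_zero_iff.2 (N f g).2.1)⟩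
  have hGsum : ∀ F : Fin 3 → S, (∀ i, GlobD 0 (F i)) → GlobD 0 (F 0 + F 1 + F 2) := fun F h n => by
    simp only [map_add]; exact Submodule.add_mem _ (Submodule.add_mem _ (h 0 n) (h 1 n)) (h 2 n)
  have hEg : GlobD 0 E := hGsum ![_, _, _] fun i => by
    fin_cases i
    · exact (hGE c₁ u f₁ hc₁).1
    · exact (hGE c₂ u f₂ hc₂).1
    · exact (hGE c₃ u f₃ hc₃).1
  have hNg : GlobD 0 Nn := hGsum ![_, _, _] fun i => by
    fin_cases i
    · exact (hGE c₁ u f₁ hc₁).2
    · exact (hGE c₂ u f₂ hc₂).2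
    · exact (hGE c₃ u f₃ hc₃).2
  have hUg : GlobD 20 U := fun n => by
    rw [hU, coeff_shiftS]; simpa using hEg (n + 20)
  set r : K := algebraMap ℂ K (-(7 : ℂ)⁻¹) * wpow (-20)
  have hr : r * coeff 0 U = 1 := by
    have h7 : algebraMap ℂ K (7 : ℂ)⁻¹ * 7 = 1 := by
      rw [← map_ofNat (algebraMap ℂ K) 7, ← map_mul, inv_mul_cancel₀ (by norm_num), map_one]
    have h20 : wpow (-20) * wpow 20 = 1 := by rw [wpow_mul, neg_add_cancel, wpow_zero]
    rw [hU0]; simp only [r, map_neg]
    linear_combination wpow (-20) * wpow 20 * h7 + h20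
  have hrG : r ∈ G (-20) := by
    simp only [r, ← Algebra.smul_def]; exact Submodule.smul_mem _ _ (wpow_mem_G' le_rfl)
  obtain ⟨Ui, hUi⟩ : ∃ g, U * g = 1 := (isUnit_S (IsUnit.of_mul_eq_one_right r hr)).exists_right_inv
  have haU : a * U = Nn := X_pow_mul_cancel (k := 20) (by
    rw [← hEN, eq_X_pow_mul hElow.1, ← hU]; ring)
  have e : a = Nn * Ui := by linear_combination Ui * haU - a * hUi
  rw [e]; simpa using globD_mul hNg (globD_inv hUi hUg hr hrG)

/-- The regular part, by a Wronskian which is a unit at the points. -/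
theorem quotient_reg (a : S) (N : M.ring → M.ring → M.ring)
    (ha : ∀ f g : M.ring, a * M.DET f g = X ^ 20 * (N f g : S)) :
    ∃ ρ : S, RegS ρ ∧ M.tau a = shiftS 1 (M.tau X) ^ 20 * ρ := by
  obtain ⟨v₀, hv₀, hv₀'⟩ := M.exists_seven (g := 1) (one_mem_G (by norm_num)) Reg.one
  obtain ⟨v₁, hv₁, hv₁'⟩ := M.exists_seven (g := wK) (by rw [wK_eq]; exact wpow_mem_G' (by norm_num))
    (reg_wpow (k := 1))
  obtain ⟨hDl, hD20⟩ := M.DET_seven hv₀ hv₁
  rw [hv₀', hv₁', show dd (1 : K) = 0 from ddD.map_one_eq_zero, dd_wK] at hD20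
  have hτl : Low 20 (M.tau (M.DET v₀ v₁)) := by
    simpa using ((M.tau_low 20 _ hDl).mono (Nat.le_succ 20)).add hDl
  have hτ20 : coeff 20 (M.tau (M.DET v₀ v₁)) = coeff 20 (M.DET v₀ v₁) := by
    have h := low_S_iff.1 (M.tau_low 20 _ hDl) 20 (by omega)
    rwa [map_sub, sub_eq_zero] at h
  set W := shiftS 20 (M.tau (M.DET v₀ v₁)) with hW
  have hW0 : coeff 0 W = -((7 : K) * jac) := by
    rw [hW, coeff_shiftS, zero_add, hτ20, hD20]; ring
  have hWr : RegS W := fun n => by rw [hW, coeff_shiftS]; exact (M.DET_mem v₀ v₁).2 _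
  have hW00 : ∀ p, (coeff 0 W p).coeff 0 ≠ 0 := fun p => by
    rw [hW0, show -((7 : K) * jac) = (-7 : ℂ) • jac by
      rw [smul_K, map_neg, map_ofNat]; ring]
    simpa [HahnSeries.coeff_smul] using jac_coeff_zero p
  obtain ⟨Wi, hWi⟩ : ∃ g, W * g = 1 :=
    (isUnit_S (isUnit_of_ne_zero fun p hp => hW00 p (by simp [hp]))).exists_right_inv
  obtain ⟨hv, hv0⟩ := M.tau_X
  set v := shiftS 1 (M.tau X)
  set ρ := M.tau (N v₀ v₁ : S) * Wi with hρ
  have hρr : RegS ρ := regS_mul (N v₀ v₁).2.2 (regS_inv hWi hWr hW00)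
  have hτa : M.tau a = v ^ 20 * ρ := by
    have h := congrArg M.tau (ha v₀ v₁)
    rw [map_mul, map_mul, map_pow, hv, mul_pow, eq_X_pow_mul hτl, ← hW] at h
    have h' : M.tau a * W = v ^ 20 * M.tau (N v₀ v₁ : S) :=
      X_pow_mul_cancel (k := 20) (by rw [← mul_assoc (X ^ 20) (v ^ 20), ← h]; ring)
    rw [hρ]
    linear_combination Wi * h' - M.tau a * hWi
  exact ⟨ρ, hρr, hτa⟩

/-- Powers of a series with constant term one have an inverse with constant term one. -/
theorem exists_pow_inv (n : ℕ) {v w : S} (hv : coeff 0 v = 1) (h : v * w = 1) :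
    ∃ g : S, v ^ n * g = 1 ∧ coeff 0 g = 1 := by
  refine ⟨w ^ n, by rw [← mul_pow, h, one_pow], ?_⟩
  have h1 : PowerSeries.constantCoeff w = 1 := by
    have h2 := congrArg (PowerSeries.constantCoeff (R := K)) h
    rw [map_mul, map_one, ← PowerSeries.coeff_zero_eq_constantCoeff_apply, hv, one_mul] at h2
    exact h2
  rw [PowerSeries.coeff_zero_eq_constantCoeff_apply, map_pow, h1, one_pow]

/-- A series with Cramer numerators in the ring is `T^20` times an element of the ring. -/
theorem exists_quotient (a : S) (N : M.ring → M.ring → M.ring)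
    (ha : ∀ f g : M.ring, a * M.DET f g = X ^ 20 * (N f g : S)) :
    ∃ b : M.ring, a = X ^ 20 * (b : S) := by
  have haG := M.quotient_glob a N ha
  obtain ⟨ρ, hρr, hτa⟩ := M.quotient_reg a N ha
  obtain ⟨hv, hv0⟩ := M.tau_X
  set v := shiftS 1 (M.tau X)
  have hu : IsUnit v := isUnit_S (by rw [hv0]; exact isUnit_one)
  obtain ⟨w, hw⟩ := hu.exists_right_inv
  obtain ⟨vi, hvi, hvi0⟩ := exists_pow_inv 20 hv0 hw
  have hlow : ∀ m ≤ 20, Low m a := by
    intro m hm
    induction m with
    | zero => exact low_zero a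
    | succ m ih =>
      have hl := ih (by omega)
      refine low_S_iff.2 fun k hk => ?_
      rcases Nat.lt_succ_iff_lt_or_eq.1 hk with hk' | hk'
      · exact low_S_iff.1 hl k hk'
      subst hk'
      have hτl' : Low k (M.tau a) := by
        simpa using ((M.tau_low k a hl).mono (Nat.le_succ k)).add hl
      have e : ρ = M.tau a * vi := by linear_combination (-vi) * hτa - ρ * hvi
      have h1 : coeff k ρ = coeff k a := by
        have h2 := (low_mul_pair hτl' (low_zero vi)).2
        rw [add_zero, ← e, hvi0, mul_one] at h2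
        have h3 := low_S_iff.1 (M.tau_low k a hl) k (Nat.lt_succ_self k)
        rw [map_sub, sub_eq_zero] at h3
        rw [h2, h3]
      refine reg_neg_G (n := (k : ℤ) + -20) (by omega) (haG k) ?_
      rw [← h1]; exact hρr k
  have ha20 := eq_X_pow_mul (hlow 20 le_rfl)
  refine ⟨⟨shiftS 20 a, fun n => ?_, ?_⟩, ha20⟩
  · rw [coeff_shiftS]; simpa using haG (n + 20)
  · show RegS (M.tau (shiftS 20 a))
    have h : X ^ 20 * (v ^ 20 * M.tau (shiftS 20 a)) = v ^ 20 * ρ := by
      rw [← hτa]
      conv_rhs => rw [ha20, map_mul, map_pow, hv, mul_pow]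
      ring
    have hρl : Low 20 ρ := by
      have e : ρ = X ^ 20 * M.tau (shiftS 20 a) := by
        linear_combination (-vi) * h + (X ^ 20 * M.tau (shiftS 20 a) - ρ) * hvi
      rw [e]; exact low_X_pow_mul _ _
    intro n
    have e : M.tau (shiftS 20 a) = shiftS 20 ρ := X_pow_mul_cancel (k := 20) (by
      rw [← eq_X_pow_mul hρl]
      linear_combination vi * h + (ρ - X ^ 20 * M.tau (shiftS 20 a)) * hvi)
    rw [e, coeff_shiftS]; exact hρr _

/-- Derivations into series which kill the two parameters vanish. -/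
theorem vanish_of_params {ev : MvPowerSeries (Fin 2) ℂ →ₐ[ℂ] M.ring}
    (hint : (∀ f : M.ring, ∃ P : Polynomial (MvPowerSeries (Fin 2) ℂ), P.Monic ∧
      Polynomial.eval₂ ev.toRingHom f P = 0))
    (hlow : ∀ i, Low 7 ((ev (MvPowerSeries.X i) : M.ring) : S))
    (Δ : M.ring → S) (hadd : ∀ f g, Δ (f + g) = Δ f + Δ g)
    (hmul : ∀ f g : M.ring, Δ (f * g) = (f : S) * Δ g + (g : S) * Δ f)
    (hsmul : ∀ (c : ℂ), Δ (algebraMap ℂ M.ring c) = 0)
    (hpar : ∀ i, Δ (ev (MvPowerSeries.X i)) = 0) (f : M.ring) : Δ f = 0 := by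
  classical
  have h0 : Δ 0 = 0 := by simpa using hadd 0 0
  have hps : ∀ N g, Low (7 * N) (Δ (ev g)) := by
    intro N
    induction N with
    | zero => exact fun g => low_zero _
    | succ N ih =>
      intro g
      have hC : ∀ c : ℂ, Δ (ev (MvPowerSeries.C c)) = 0 := fun c => by
        rw [show MvPowerSeries.C c = algebraMap ℂ (MvPowerSeries (Fin 2) ℂ) c by
          simp [MvPowerSeries.algebraMap_apply], AlgHom.commutes, hsmul]
      obtain ⟨g₀, g₁, hg⟩ : ∃ g₀ g₁, g = MvPowerSeries.C (MvPowerSeries.constantCoeff g)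
          + MvPowerSeries.X 0 * g₀ + MvPowerSeries.X 1 * g₁ := by
        refine ⟨show MvPowerSeries (Fin 2) ℂ from
            fun n => MvPowerSeries.coeff (n + Finsupp.single 0 1) g,
          show MvPowerSeries (Fin 2) ℂ from
            fun n => if n 0 = 0 then MvPowerSeries.coeff (n + Finsupp.single 1 1) g else 0, ?_⟩
        refine MvPowerSeries.ext fun n => ?_
        rw [map_add, map_add, MvPowerSeries.coeff_C, MvPowerSeries.X, MvPowerSeries.X,
          MvPowerSeries.coeff_monomial_mul, MvPowerSeries.coeff_monomial_mul]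
        simp only [one_mul, Finsupp.single_le_iff]
        change g n = (if n = 0 then MvPowerSeries.constantCoeff g else 0)
          + (if 1 ≤ n 0 then g (n - Finsupp.single 0 1 + Finsupp.single 0 1) else 0)
          + (if 1 ≤ n 1 then (if (n - Finsupp.single 1 1 : Fin 2 →₀ ℕ) 0 = 0
              then g (n - Finsupp.single 1 1 + Finsupp.single 1 1) else 0) else 0)
        by_cases ha : n 0 = 0
        · by_cases hb : n 1 = 0
          · have hn : n = 0 := by ext i; fin_cases i <;> simpa
            subst hn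
            simp [← MvPowerSeries.coeff_zero_eq_constantCoeff_apply, MvPowerSeries.coeff_apply]
          · have hn : n ≠ 0 := fun h => hb (by simp [h])
            have h1 : n - Finsupp.single 1 1 + Finsupp.single 1 1 = n :=
              tsub_add_cancel_of_le (Finsupp.single_le_iff.2 (by omega))
            rw [if_neg hn, if_neg (by omega : ¬ 1 ≤ n 0), if_pos (by omega : 1 ≤ n 1), h1,
              if_pos (by simp [ha]), zero_add, zero_add]
        · have hn : n ≠ 0 := fun h => ha (by simp [h])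
          have h1 : n - Finsupp.single 0 1 + Finsupp.single 0 1 = n :=
            tsub_add_cancel_of_le (Finsupp.single_le_iff.2 (by omega))
          rw [if_neg hn, if_pos (by omega : 1 ≤ n 0), h1, zero_add]
          split_ifs with h2 h3
          · exact absurd h3 (by simp [ha])
          · rw [add_zero]
          · rw [add_zero]
      rw [hg, map_add, map_add, map_mul, map_mul, hadd, hadd, hmul, hmul, hpar, hpar, mul_zero,
        mul_zero, add_zero, add_zero, hC,
        zero_add, show 7 * (N + 1) = 7 + 7 * N by ring]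
      exact (low_mul_pair (hlow 0) (ih g₀)).1.add (low_mul_pair (hlow 1) (ih g₁)).1
  have hzero : ∀ g, Δ (ev g) = 0 := fun g => PowerSeries.ext fun n => by
    simpa using low_S_iff.1 (hps (n + 1) g) n (by omega)
  -- a relation of least degree
  obtain ⟨P₀, hP₀, hP₀'⟩ := hint f
  let _ : Algebra (MvPowerSeries (Fin 2) ℂ) M.ring := ev.toRingHom.toAlgebra
  have hev : ∀ g, algebraMap (MvPowerSeries (Fin 2) ℂ) M.ring g = ev g := fun _ => rfl
  have hΔ : ∀ P : Polynomial (MvPowerSeries (Fin 2) ℂ), Δ (Polynomial.aeval f P)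
      = ((Polynomial.aeval f (Polynomial.derivative P) : M.ring) : S) * Δ f := by
    intro P
    induction P using Polynomial.induction_on with
    | C g => simp [hev, hzero]
    | add P Q hP hQ =>
      rw [map_add, hadd, hP, hQ, map_add, map_add, Subalgebra.coe_add, add_mul]
    | monomial n g ih =>
      rw [pow_succ, ← mul_assoc]
      generalize Polynomial.C g * Polynomial.X ^ n = p at ih ⊢
      rw [map_mul, hmul, ih, Polynomial.derivative_mul,
        Polynomial.derivative_X, mul_one, map_add, Subalgebra.coe_add, Polynomial.aeval_X, map_mul,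
        Subalgebra.coe_mul, Polynomial.aeval_X]
      ring
  have hex : ∃ d, ∃ P : Polynomial (MvPowerSeries (Fin 2) ℂ), P.Monic ∧ P.natDegree = d ∧
      Polynomial.aeval f P = 0 := ⟨_, P₀, hP₀, rfl, hP₀'⟩
  obtain ⟨P, hPm, hPd, hP⟩ := Nat.find_spec hex
  have hne : Polynomial.aeval f (Polynomial.derivative P) ≠ 0 := by
    intro hd
    set d := Nat.find hex with hdd
    have hd0 : d ≠ 0 := by
      intro hz
      rw [hz] at hPd
      rw [hPm.natDegree_eq_zero.1 hPd, map_one] at hP
      exact one_ne_zero hP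
    have hcC : IsUnit ((d : MvPowerSeries (Fin 2) ℂ)) := by
      rw [← map_natCast (algebraMap ℂ (MvPowerSeries (Fin 2) ℂ)) d]
      exact (isUnit_iff_ne_zero.2 (Nat.cast_ne_zero.2 hd0)).map _
    obtain ⟨e, he⟩ := hcC.exists_left_inv
    set Q := Polynomial.C e * Polynomial.derivative P
    have hcoef : Q.coeff (d - 1) = 1 := by
      rw [Polynomial.coeff_C_mul, Polynomial.coeff_derivative, Nat.sub_add_cancel
        (Nat.pos_of_ne_zero hd0), ← hPd, hPm.coeff_natDegree, hPd, one_mul,
        Nat.cast_sub (Nat.pos_of_ne_zero hd0), Nat.cast_one, sub_add_cancel, he]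
    have hQd : Q.natDegree ≤ d - 1 :=
      (Polynomial.natDegree_C_mul_le _ _).trans (hPd ▸ Polynomial.natDegree_derivative_le P)
    have hQm : Q.Monic := Polynomial.monic_of_natDegree_le_of_coeff_eq_one (d - 1) hQd hcoef
    exact Nat.find_min hex (show Q.natDegree < d by omega)
      ⟨Q, hQm, rfl, by simp [Q, hd]⟩
  have h := hΔ P
  rw [hP, h0] at h
  exact M.nonZeroDivisor (Polynomial.aeval f (Polynomial.derivative P)).2
    (fun h' => hne (Subtype.ext h')) h.symm

/-- The two fields form a basis, given the two parameters. -/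
theorem der_free_of {ev : MvPowerSeries (Fin 2) ℂ →ₐ[ℂ] M.ring}
    (hint : (∀ f : M.ring, ∃ P : Polynomial (MvPowerSeries (Fin 2) ℂ), P.Monic ∧
      Polynomial.eval₂ ev.toRingHom f P = 0))
    (h0 : Low 7 ((ev (MvPowerSeries.X 0) : M.ring) : S))
    (h0' : coeff 7 ((ev (MvPowerSeries.X 0) : M.ring) : S) = 1)
    (h1 : Low 7 ((ev (MvPowerSeries.X 1) : M.ring) : S))
    (h1' : coeff 7 ((ev (MvPowerSeries.X 1) : M.ring) : S) = wpow 7) :
    Nonempty (Module.Basis (Fin 2) M.ring (Derivation ℂ M.ring M.ring)) := by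
  set Φ := ev (MvPowerSeries.X 0)
  set Ψ := ev (MvPowerSeries.X 1)
  obtain ⟨hl, h20⟩ := M.DET_seven h0 h1
  rw [h0', h1', show dd (1 : K) = 0 from ddD.map_one_eq_zero,
    show wpow 7 = wK ^ 7 by rw [wK_eq, wpow_pow]; norm_num, ← ddD_apply, Derivation.leibniz_pow,
    ddD_apply, dd_wK] at h20
  set U := shiftS 20 (M.DET Φ Ψ) with hU
  have hwK : IsUnit wK := IsUnit.of_mul_eq_one _ wK_mul_iwK'
  have hU0 : IsUnit (coeff 0 U) := by
    have e : coeff 0 U = (-49 : ℂ) • (wK ^ 6 * jac) := by
      rw [hU, coeff_shiftS, zero_add, h20, smul_K, map_neg, map_ofNat]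
      simp only [nsmul_eq_mul, smul_eq_mul]
      push_cast; ring
    rw [e, smul_K]
    exact ((isUnit_iff_ne_zero.2 (by norm_num : (-49 : ℂ) ≠ 0)).map _).mul
      ((hwK.pow 6).mul isUnit_jac)
  obtain ⟨Ui, hUi⟩ : ∃ g, U * g = 1 := (isUnit_S hU0).exists_right_inv
  let T : (Fin 2 → M.ring) →ₗ[M.ring] Derivation ℂ M.ring M.ring :=
    { toFun := fun c => c 0 • M.der 0 + c 1 • M.der 1
      map_add' := fun c d => by simp only [Pi.add_apply, add_smul]; abel
      map_smul' := fun r c => by simp [smul_add, mul_smul] }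
  have hT : ∀ c f, ((T c f : M.ring) : S)
      = (c 0 : S) * act (M.D 0) f + (c 1 : S) * act (M.D 1) f := fun c f => rfl
  refine ⟨Module.Basis.ofEquivFun (LinearEquiv.ofBijective T ⟨?_, ?_⟩).symm⟩
  · intro c₁ c₂ h12
    have hc : ∀ f, (T c₁ f : S) - (T c₂ f : S) = 0 := fun f => by rw [h12, sub_self]
    rw [← sub_eq_zero]
    set c := c₁ - c₂ with hcdef
    have e : ∀ f : M.ring, (c 0 : S) * act (M.D 0) f + (c 1 : S) * act (M.D 1) f = 0 := fun f => by
      have h := hc f
      simp only [hT] at h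
      simp only [hcdef, Pi.sub_apply, Subalgebra.coe_sub]
      linear_combination h
    have hker : ∀ x : S, x * M.DET Φ Ψ = 0 → x = 0 := fun x hx => by
      rw [eq_X_pow_mul hl, ← hU, mul_left_comm] at hx
      have := X_pow_mul_cancel (hx.trans (mul_zero _).symm)
      linear_combination Ui * this - x * hUi
    have c0 : (c 0 : S) = 0 := hker _ (by
      rw [DET]; linear_combination act (M.D 1) Ψ * e Φ - act (M.D 1) Φ * e Ψ)
    have c1 : (c 1 : S) = 0 := hker _ (by
      rw [DET]; linear_combination act (M.D 0) Φ * e Ψ - act (M.D 0) Ψ * e Φ)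
    funext i
    fin_cases i
    · exact Subtype.ext c0
    · exact Subtype.ext c1
  · intro δ
    have hDET : M.DET Φ Ψ = X ^ 20 * U := eq_X_pow_mul hl
    set a : S := ((δ Φ : S) * act (M.D 1) Ψ - (δ Ψ : S) * act (M.D 1) Φ) * Ui with ha
    set b : S := (act (M.D 0) Φ * (δ Ψ : S) - act (M.D 0) Ψ * (δ Φ : S)) * Ui with hb
    set Δ : M.ring → S := fun f =>
      X ^ 20 * (δ f : S) - a * act (M.D 0) f - b * act (M.D 1) f with hΔ
    have hall : ∀ f, Δ f = 0 := by
      refine M.vanish_of_params hint (fun i => by fin_cases i <;> assumption) Δ (fun f g => ?_)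
        (fun f g => ?_) (fun c => ?_) (fun i => ?_)
      · simp only [hΔ, map_add, Subalgebra.coe_add, act_add]; ring
      · simp only [hΔ, Derivation.leibniz, smul_eq_mul, Subalgebra.coe_add, Subalgebra.coe_mul,
          act_mul]
        ring
      · have hz : ∀ i, act (M.D i) (algebraMap ℂ M.ring c : S) = 0 := fun i => by
          rw [← coe_der, Derivation.map_algebraMap]; rfl
        simp only [hΔ, Derivation.map_algebraMap, hz, ZeroMemClass.coe_zero, mul_zero, sub_zero]
      · rw [DET] at hDET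
        fin_cases i
        · show X ^ 20 * (δ Φ : S) - a * act (M.D 0) Φ - b * act (M.D 1) Φ = 0
          rw [ha, hb]
          linear_combination (-(δ Φ : S) * Ui) * hDET - (X ^ 20 * (δ Φ : S)) * hUi
        · show X ^ 20 * (δ Ψ : S) - a * act (M.D 0) Ψ - b * act (M.D 1) Ψ = 0
          rw [ha, hb]
          linear_combination (-(δ Ψ : S) * Ui) * hDET - (X ^ 20 * (δ Ψ : S)) * hUi
    obtain ⟨a', ha'⟩ := M.exists_quotient a (fun f g => δ f * M.der 1 g - δ g * M.der 1 f)
      fun f g => by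
        have hf := hall f
        have hg := hall g
        simp only [hΔ] at hf hg
        simp only [Subalgebra.coe_sub, Subalgebra.coe_mul, coe_der, DET]
        linear_combination act (M.D 1) f * hg - act (M.D 1) g * hf
    obtain ⟨b', hb'⟩ := M.exists_quotient b (fun f g => M.der 0 f * δ g - M.der 0 g * δ f)
      fun f g => by
        have hf := hall f
        have hg := hall g
        simp only [hΔ] at hf hg
        simp only [Subalgebra.coe_sub, Subalgebra.coe_mul, coe_der, DET]
        linear_combination act (M.D 0) g * hf - act (M.D 0) f * hg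
    refine ⟨![a', b'], Derivation.ext fun f => Subtype.ext ?_⟩
    rw [hT]
    refine (X_pow_mul_cancel (k := 20) ?_).symm
    have hf := hall f
    simp only [hΔ] at hf
    show X ^ 20 * (δ f : S) = X ^ 20 * ((a' : S) * _ + (b' : S) * _)
    linear_combination hf + act (M.D 0) (f : S) * ha' + act (M.D 1) (f : S) * hb'

theorem der_free :
    Nonempty (Module.Basis (Fin 2) M.ring (Derivation ℂ M.ring M.ring)) := by
  obtain ⟨ev, hint, h0, h0', h1, h1'⟩ := M.finite_ps
  exact M.der_free_of hint h0 h0' h1 h1'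

end Model

end

end P266
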