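import Vale.Agent.P266.Gauge

/-!
P266: properties of gauges and of their products.
-/

namespace P266

noncomputable section

theorem low_VF {n : ℕ} {D : VF} :
    Low n D ↔ ∀ m < n, PowerSeries.coeff m D.1 = 0 ∧ PowerSeries.coeff m D.2 = 0 := by
  rw [low_prod_iff, low_S_iff, low_S_iff]
  exact ⟨fun h m hm => ⟨h.1 m hm, h.2 m hm⟩, fun h => ⟨fun m hm => (h m hm).1, fun m hm => (h m hm).2⟩⟩

theorem low_mul {a b : ℕ} {f g : S} (hf : Low a f) (hg : Low b g) : Low (a + b) (f * g) := by
  rw [low_S_iff] at hf hg ⊢
  intro m hm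
  rw [PowerSeries.coeff_mul]
  refine Finset.sum_eq_zero fun ij hij => ?_
  rw [Finset.HasAntidiagonal.mem_antidiagonal] at hij
  by_cases h : ij.1 < a
  · rw [hf _ h, zero_mul]
  · rw [hg _ (by omega), mul_zero]

theorem coeff_mul_low {a b : ℕ} {f g : S} (hf : Low a f) (hg : Low b g) :
    PowerSeries.coeff (a + b) (f * g) = PowerSeries.coeff a f * PowerSeries.coeff b g := by
  rw [low_S_iff] at hf hg
  rw [PowerSeries.coeff_mul, Finset.sum_eq_single (a, b)]
  · intro ij hij hne
    rw [Finset.HasAntidiagonal.mem_antidiagonal] at hij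
    by_cases h : ij.1 < a
    · rw [hf _ h, zero_mul]
    · by_cases h' : ij.2 < b
      · rw [hg _ h', mul_zero]
      · exact absurd (Prod.ext (by omega) (by omega) : ij = (a, b)) hne
  · intro h; exact absurd (by simp) h

theorem low_thetaS {a : ℕ} {f : S} (hf : Low a f) : Low a (thetaS f) := by
  rw [low_S_iff] at hf ⊢
  intro m hm; simp [coeff_thetaS, hf m hm]

theorem low_dS {a : ℕ} {f : S} (hf : Low a f) : Low a (dS f) := by
  rw [low_S_iff] at hf ⊢
  intro m hm; simp [coeff_dS, hf m hm, dd_zero]

theorem low_monomial (n : ℕ) (c : K) : Low n (PowerSeries.monomial n c) := by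
  rw [low_S_iff]
  intro m hm
  rw [PowerSeries.coeff_monomial, if_neg (by omega)]

theorem low_act {a b : ℕ} {D : VF} {f : S} (hD : Low a D) (hf : Low b f) :
    Low (a + b) (act D f) := by
  rw [low_prod_iff] at hD
  exact (low_mul hD.1 (low_thetaS hf)).add (low_mul hD.2 (low_dS hf))

theorem low_lie {a b : ℕ} {D E : VF} (hD : Low a D) (hE : Low b E) :
    Low (a + b) (lie D E) := by
  have hD' := low_prod_iff.1 hD
  have hE' := low_prod_iff.1 hE
  have h1 := low_act hD hE'.1
  have h2 := low_act hD hE'.2
  have h3 : Low (a + b) (act E D.1) := (add_comm b a) ▸ low_act hE hD'.1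
  have h4 : Low (a + b) (act E D.2) := (add_comm b a) ▸ low_act hE hD'.2
  exact low_prod_iff.2 ⟨h1.sub h3, h2.sub h4⟩

theorem low_det2 {a b : ℕ} {D E : VF} (hD : Low a D) (hE : Low b E) :
    Low (a + b) (det2 D E) := by
  have hD' := low_prod_iff.1 hD
  have hE' := low_prod_iff.1 hE
  exact (low_mul hD'.1 hE'.2).sub ((add_comm b a) ▸ low_mul hE'.1 hD'.2)

theorem low_gauge (n : ℕ) (q : K) : Low n (gauge n q) := by
  refine low_prod_iff.2 ⟨?_, low_monomial n q⟩
  simp only [gauge]
  split
  · exact low_monomial _ _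
  · exact fun m _ => by simp

theorem raises_act (n : ℕ) (q : K) : Raises n (actL (gauge n q)) := fun m _ h =>
  (add_comm n m) ▸ low_act (low_gauge n q) h

theorem raises_lie (n : ℕ) (q : K) : Raises n (lieL (gauge n q)) := fun m _ h =>
  (add_comm n m) ▸ low_lie (low_gauge n q) h

theorem raises_twist (n : ℕ) (q : K) : Raises n (twistL (gauge n q)) := fun m f h => by
  have h' := low_prod_iff.1 (low_gauge n q)
  exact (raises_act n q m f h).sub
    ((add_comm n m) ▸ low_mul ((low_thetaS h'.1).add (low_dS h'.2)) h)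

theorem Raises.mono {M : Type*} [AddCommGroup M] [Module ℂ M] [Tower M] {i j : ℕ}
    {δ : M →ₗ[ℂ] M} (h : Raises j δ) (hij : i ≤ j) : Raises i δ :=
  fun n x hx => (h n x hx).mono (by omega)

/-- The twisted composite used for determinants. -/
def tauT (q : ℕ → K) : ℕ → (S →ₗ[ℂ] S)
  | 0 => LinearMap.id
  | n + 1 => (expT (twistL (gauge (n + 1) (q (n + 1))))).comp (tauT q n)

/-- `act` as a bilinear map. -/
def actB : VF →ₗ[ℂ] S →ₗ[ℂ] S :=
  LinearMap.mk₂ ℂ act
    (fun D E f => by simp only [act, Prod.fst_add, Prod.snd_add]; ring)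
    (fun c D f => by simp only [act, Prod.smul_fst, Prod.smul_snd, smul_S]; ring)
    act_add (fun c D f => act_smul D c f)

/-- `det2` as a bilinear map. -/
def detB : VF →ₗ[ℂ] VF →ₗ[ℂ] S :=
  LinearMap.mk₂ ℂ det2
    (fun D E F => by simp only [det2, Prod.fst_add, Prod.snd_add]; ring)
    (fun c D F => by simp only [det2, Prod.smul_fst, Prod.smul_snd, smul_S]; ring)
    (fun D E F => by simp only [det2, Prod.fst_add, Prod.snd_add]; ring)
    (fun c D F => by simp only [det2, Prod.smul_fst, Prod.smul_snd, smul_S]; ring)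

/-- Multiplication as a bilinear map. -/
def mulB : S →ₗ[ℂ] S →ₗ[ℂ] S :=
  LinearMap.mk₂ ℂ (· * ·) (fun a b c => add_mul a b c)
    (fun c a b => by simp only [smul_S]; ring) (fun a b c => mul_add a b c)
    (fun c a b => by simp only [smul_S]; ring)

theorem tauS_mul (q : ℕ → K) (n : ℕ) (f g : S) :
    tauS q n (f * g) = tauS q n f * tauS q n g := by
  induction n with
  | zero => rfl
  | succ n ih =>
    simp only [tauS, LinearMap.comp_apply, ih]
    exact expT_bilin ((raises_act _ _).mono (by omega)) ((raises_act _ _).mono (by omega))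
      ((raises_act _ _).mono (by omega)) mulB (fun a b x y hx hy => low_mul hx hy)
      (fun x y => act_mul _ x y) _ _

theorem tauS_act (q : ℕ → K) (n : ℕ) (D : VF) (f : S) :
    tauS q n (act D f) = act (tauVF q n D) (tauS q n f) := by
  induction n with
  | zero => rfl
  | succ n ih =>
    simp only [tauS, tauVF, LinearMap.comp_apply, ih]
    exact expT_bilin ((raises_lie _ _).mono (by omega)) ((raises_act _ _).mono (by omega))
      ((raises_act _ _).mono (by omega)) actB (fun a b x y hx hy => low_act hx hy)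
      (fun x y => act_act _ x y) _ _

theorem tauT_det (q : ℕ → K) (n : ℕ) (D E : VF) :
    tauT q n (det2 D E) = det2 (tauVF q n D) (tauVF q n E) := by
  induction n with
  | zero => rfl
  | succ n ih =>
    simp only [tauT, tauVF, LinearMap.comp_apply, ih]
    refine expT_bilin ((raises_lie _ _).mono (by omega)) ((raises_lie _ _).mono (by omega))
      ((raises_twist _ _).mono (by omega)) detB (fun a b x y hx hy => low_det2 hx hy)
      (fun x y => ?_) _ _
    show act _ (det2 x y) - _ * det2 x y = det2 (lie _ x) y + det2 x (lie _ y)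
    rw [act_det2]; ring

theorem expT_fix {M : Type*} [AddCommGroup M] [Module ℂ M] [Tower M] (δ : M →ₗ[ℂ] M) {x : M}
    (h : δ x = 0) : expT δ x = x := by
  refine Tower.sep _ _ fun m => ?_
  rw [cf_expT, Finset.sum_eq_single 0]
  · simp
  · intro k _ hk
    obtain ⟨j, rfl⟩ := Nat.exists_eq_succ_of_ne_zero hk
    rw [Function.iterate_succ_apply, h]
    simp [← Module.End.coe_pow]
  · simp

theorem tauS_one (q : ℕ → K) (n : ℕ) : tauS q n 1 = 1 := by
  induction n with
  | zero => rfl
  | succ n ih =>
    simp only [tauS, LinearMap.comp_apply, ih]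
    have h : actL (gauge (n + 1) (q (n + 1))) 1 = 0 := by
      have h1 : thetaS (1 : S) = 0 := by
        refine PowerSeries.ext fun m => ?_
        rcases m with _ | m <;> simp [coeff_thetaS, PowerSeries.coeff_one]
      have h2 : dS (1 : S) = 0 := by
        have := dS_mul 1 1
        simp only [mul_one, one_mul] at this
        simpa using this
      show act _ 1 = 0
      simp [act, h1, h2]
    exact expT_fix _ h

/-- Steps after level `m` do not change coefficient `m`. -/
theorem tau_stable {M : Type*} [AddCommGroup M] [Module ℂ M] [Tower M]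
    (δ : ℕ → (M →ₗ[ℂ] M)) (hδ : ∀ k, Raises k (δ k)) (τ : ℕ → (M →ₗ[ℂ] M))
    (hτ : ∀ k x, τ (k + 1) x = expT (δ (k + 1)) (τ k x)) (x : M) {m k : ℕ} (h : m ≤ k) :
    Low (m + 1) (τ k x - τ m x) := by
  induction k, h using Nat.le_induction with
  | base => simp [Low]
  | succ k hk ih =>
    have h1 : Low (m + 1) (τ (k + 1) x - τ k x) := by
      rw [hτ]
      exact (low_expT_sub_self (by omega) (hδ (k + 1)) (low_zero (τ k x))).mono (by omega)
    have := h1.add ih
    rwa [sub_add_sub_cancel] at this

theorem tauS_stable (q : ℕ → K) (f : S) {m k : ℕ} (h : m ≤ k) :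
    Low (m + 1) (tauS q k f - tauS q m f) :=
  tau_stable (fun j => actL (gauge j (q j))) (fun j => raises_act j (q j)) (tauS q)
    (fun _ _ => rfl) f h

theorem tauVF_stable (q : ℕ → K) (D : VF) {m k : ℕ} (h : m ≤ k) :
    Low (m + 1) (tauVF q k D - tauVF q m D) :=
  tau_stable (fun j => lieL (gauge j (q j))) (fun j => raises_lie j (q j)) (tauVF q)
    (fun _ _ => rfl) D h

theorem tauVF_congr {q q' : ℕ → K} {n : ℕ} (h : ∀ k ≤ n, q k = q' k) :
    tauVF q n = tauVF q' n := by
  induction n with
  | zero => rfl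
  | succ n ih => simp only [tauVF, h (n + 1) le_rfl, ih fun k hk => h k (by omega)]

theorem tauS_congr {q q' : ℕ → K} {n : ℕ} (h : ∀ k ≤ n, q k = q' k) :
    tauS q n = tauS q' n := by
  induction n with
  | zero => rfl
  | succ n ih => simp only [tauS, h (n + 1) le_rfl, ih fun k hk => h k (by omega)]

theorem tauVF_low (q : ℕ → K) (n : ℕ) {a : ℕ} {D : VF} (hD : Low a D) :
    Low a (tauVF q n D) ∧ Low (a + 1) (tauVF q n D - D) := by
  induction n with
  | zero => exact ⟨hD, by simp [tauVF, Low]⟩
  | succ n ih =>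
    have hr : Raises 1 (lieL (gauge (n + 1) (q (n + 1)))) := (raises_lie _ _).mono (by omega)
    refine ⟨Low.expT hr ih.1, ?_⟩
    have := (low_expT_sub_self le_rfl hr ih.1).add ih.2
    rwa [sub_add_sub_cancel] at this

theorem tauS_low (q : ℕ → K) (n : ℕ) {a : ℕ} {f : S} (hf : Low a f) :
    Low a (tauS q n f) ∧ Low (a + 1) (tauS q n f - f) := by
  induction n with
  | zero => exact ⟨hf, by simp [tauS, Low]⟩
  | succ n ih =>
    have hr : Raises 1 (actL (gauge (n + 1) (q (n + 1)))) := (raises_act _ _).mono (by omega)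
    refine ⟨Low.expT hr ih.1, ?_⟩
    have := (low_expT_sub_self le_rfl hr ih.1).add ih.2
    rwa [sub_add_sub_cancel] at this

theorem tauT_low (q : ℕ → K) (n : ℕ) {a : ℕ} {f : S} (hf : Low a f) :
    Low a (tauT q n f) ∧ Low (a + 1) (tauT q n f - f) := by
  induction n with
  | zero => exact ⟨hf, by simp [tauT, Low]⟩
  | succ n ih =>
    have hr : Raises 1 (twistL (gauge (n + 1) (q (n + 1)))) := (raises_twist _ _).mono (by omega)
    refine ⟨Low.expT hr ih.1, ?_⟩
    have := (low_expT_sub_self le_rfl hr ih.1).add ih.2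
    rwa [sub_add_sub_cancel] at this

/-- First order effect of the composite one level above the lowest term. -/
theorem tauVF_first_order (q : ℕ → K) {n : ℕ} (hn : 1 ≤ n) {a : ℕ} {D : VF} (hD : Low a D) :
    Low (a + 2) (tauVF q n D - D - lie (gauge 1 (q 1)) D) := by
  induction n, hn using Nat.le_induction with
  | base =>
    have e : tauVF q 1 D = expT (lieL (gauge 1 (q 1))) D := by
      simp only [tauVF, LinearMap.comp_apply, LinearMap.id_coe, id_eq, zero_add]
    have h := low_expT_sub_linear le_rfl (raises_lie 1 (q 1)) hD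
    rw [mul_one] at h
    rw [e]
    exact h
  | succ n hn ih =>
    have hx : Low a (tauVF q n D) := (tauVF_low q n hD).1
    have h0 := low_expT_sub_self (j := n + 1) (Nat.succ_le_succ (Nat.zero_le n))
      (raises_lie (n + 1) (q (n + 1))) hx
    have e0 : tauVF q (n + 1) D = expT (lieL (gauge (n + 1) (q (n + 1)))) (tauVF q n D) := by
      simp only [tauVF, LinearMap.comp_apply]
    have h1 : Low (a + 2) (tauVF q (n + 1) D - tauVF q n D) := by
      rw [e0]; exact h0.mono (by omega)
    have e : tauVF q (n + 1) D - D - lie (gauge 1 (q 1)) D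
        = (tauVF q (n + 1) D - tauVF q n D) + (tauVF q n D - D - lie (gauge 1 (q 1)) D) := by
      abel
    rw [e]; exact h1.add ih

theorem twist_monomial_six (n : ℕ) (q : K) :
    twistL (gauge n q) (PowerSeries.monomial 6 1) = if n < 6 then 0
      else PowerSeries.monomial (n + 6) (-(dd q)) := by
  have hd1 : dd 1 = 0 := by simpa using dd_mul 1 1
  have ht : ∀ m (c : K), thetaS (PowerSeries.monomial m c)
      = PowerSeries.monomial m ((m : K) * c) := by
    intro m c
    refine PowerSeries.ext fun k => ?_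
    rw [coeff_thetaS, PowerSeries.coeff_monomial, PowerSeries.coeff_monomial]
    split
    · subst_vars; rfl
    · simp
  have hd : ∀ m (c : K), dS (PowerSeries.monomial m c) = PowerSeries.monomial m (dd c) := by
    intro m c
    refine PowerSeries.ext fun k => ?_
    rw [coeff_dS, PowerSeries.coeff_monomial, PowerSeries.coeff_monomial]
    split
    · rfl
    · exact dd_zero
  have t0 : thetaS (0 : S) = 0 := PowerSeries.ext fun k => by simp [coeff_thetaS]
  have d0 : dS (0 : S) = 0 := PowerSeries.ext fun k => by simp [coeff_dS, dd_zero]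
  obtain ⟨φ, hφ⟩ : ∃ φ : K, φ = (((6 : ℂ) - n)⁻¹) • dd q := ⟨_, rfl⟩
  show act (gauge n q) (PowerSeries.monomial 6 1) - _ * PowerSeries.monomial 6 1 = _
  by_cases h : n < 6
  · have key : ((6 : K) - (n : K)) * φ = dd q := by
      have h6 : (6 : ℂ) - n ≠ 0 := by
        rw [sub_ne_zero]; exact_mod_cast (by omega : (6 : ℕ) ≠ n)
      have e : ((6 : K) - (n : K)) = algebraMap ℂ K (6 - n) := by
        rw [map_sub, map_natCast]; congr 1; exact (map_ofNat _ 6).symm
      rw [hφ, e, smul_K, ← mul_assoc, ← map_mul, mul_inv_cancel₀ h6, map_one, one_mul]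
    have g1 : (gauge n q).1 = PowerSeries.monomial n φ := by rw [hφ]; simp only [gauge, if_pos h]
    have g2 : (gauge n q).2 = PowerSeries.monomial n q := rfl
    simp only [act, g1, g2, ht, hd, hd1, if_pos h, add_mul, PowerSeries.monomial_mul_monomial,
      mul_one, mul_zero, map_zero, add_zero]
    rw [← map_add, ← map_sub]
    have : φ * ((6 : ℕ) : K) - ((n : K) * φ + dd q) = 0 := by
      push_cast; linear_combination key
    rw [this, map_zero]
  · have g1 : (gauge n q).1 = 0 := by simp only [gauge, if_neg h]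
    have g2 : (gauge n q).2 = PowerSeries.monomial n q := rfl
    simp only [act, g1, g2, t0, hd, hd1, if_neg h, zero_mul, zero_add,
      PowerSeries.monomial_mul_monomial, mul_one, mul_zero, map_zero, map_neg, zero_sub]

/-- The weight `T^6` is fixed below `T^12`, and its `T^12` term is exact. -/
theorem tauT_six (q : ℕ → K) (n : ℕ) :
    Low 12 (tauT q n (PowerSeries.monomial 6 1) - PowerSeries.monomial 6 1) ∧
      PowerSeries.coeff 12 (tauT q n (PowerSeries.monomial 6 1))
        = if n < 6 then 0 else -(dd (q 6)) := by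
  have hsmall : ∀ k ≤ 5, tauT q k (PowerSeries.monomial 6 1) = PowerSeries.monomial 6 1 := by
    intro k hk
    induction k with
    | zero => rfl
    | succ k ih =>
      simp only [tauT, LinearMap.comp_apply, ih (by omega)]
      exact expT_fix _ (by rw [twist_monomial_six, if_pos (by omega)])
  by_cases hn : n < 6
  · rw [hsmall n (by omega), if_pos hn]
    simp [Low, PowerSeries.coeff_monomial]
  rw [if_neg hn]
  push Not at hn
  induction n, hn using Nat.le_induction with
  | base =>
    show Low 12 (expT (twistL (gauge 6 (q 6))) (tauT q 5 (PowerSeries.monomial 6 1))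
        - PowerSeries.monomial 6 1) ∧
      PowerSeries.coeff 12
        (expT (twistL (gauge 6 (q 6))) (tauT q 5 (PowerSeries.monomial 6 1))) = -(dd (q 6))
    rw [show tauT q 5 (PowerSeries.monomial 6 1) = PowerSeries.monomial 6 1 from hsmall 5 le_rfl]
    have h2 := low_expT_sub_linear (by omega) (raises_twist 6 (q 6)) (low_monomial 6 (1 : K))
    refine ⟨(low_expT_sub_self (by omega) (raises_twist 6 (q 6)) (low_monomial 6 (1 : K))).mono
      (by omega), ?_⟩
    have h3 := low_S_iff.1 h2 12 (by omega)
    rw [twist_monomial_six, if_neg (by omega)] at h3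
    simp [PowerSeries.coeff_monomial] at h3
    exact eq_neg_of_add_eq_zero_left h3
  | succ k hk ih =>
    have h1 := low_expT_sub_self (by omega) (raises_twist (k + 1) (q (k + 1)))
      ((tauT_low q k (low_monomial 6 (1 : K))).1)
    refine ⟨?_, ?_⟩
    · have := (h1.mono (by omega : 12 ≤ 6 + (k + 1))).add ih.1
      rw [sub_add_sub_cancel] at this
      exact this
    · have := low_S_iff.1 h1 12 (by omega)
      rw [map_sub, sub_eq_zero] at this
      rw [← ih.2]
      exact this

end

end P266
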