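import Vale.Agent.P266.Gauge

/-!
P266: what the recursion produces.
-/

namespace P266

noncomputable section

/-- A formal neighbourhood with two fields of nonvanishing determinant. -/
structure Model where
  tau : S ≃ₐ[ℂ] S
  tauV : VF → VF
  tau_act : ∀ D f, tau (act D f) = act (tauV D) (tau f)
  tau_low : ∀ (n : ℕ) (f : S), Low n f → Low (n + 1) (tau f - f)
  D : Fin 2 → VF
  glob : ∀ i, GlobV (D i)
  reg : ∀ i, RegV (tauV (D i))
  det_low : ∀ n < 6, PowerSeries.coeff n (det2 (D 0) (D 1)) = 0
  det_six : PowerSeries.coeff 6 (det2 (D 0) (D 1)) = -1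

end

end P266
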