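import Vale.Agent.P266.Curve

/-!
P266: tails at the 25 points and interpolation.
-/

namespace P266

noncomputable section

open Finset

theorem coeff_mul_lowest {f h : LaurentSeries ℂ} {m : ℤ} (hf : ∀ k < m, f.coeff k = 0)
    (hh : ∀ k < 0, h.coeff k = 0) : (f * h).coeff m = f.coeff m * h.coeff 0 := by
  rw [HahnSeries.coeff_mul, sum_eq_single (m, 0)]
  · rintro ⟨a, b⟩ hab hne
    have e : a + b = m := by simp at hab; omega
    rcases lt_trichotomy a m with ha | rfl | ha
    · simp [hf a ha]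
    · exact absurd (by rw [show b = 0 by omega]) hne
    · simp [hh b (by omega)]
  · intro hm
    rcases Classical.em (f.coeff m = 0) with h0 | h0
    · simp [h0]
    · have h1 : h.coeff 0 = 0 := by
        by_contra h1
        exact hm (by simp [h0, h1])
      simp [h1]

/-- Every value vector is a combination of `a^i b^j`, `i, j < 5`. -/
theorem exists_values (c : Pt → ℂ) : ∃ e : Fin 5 → Fin 5 → ℂ,
    ∀ p, ∑ i : Fin 5, ∑ j : Fin 5, e i j * (pa p ^ (i : ℕ) * pb p ^ (j : ℕ)) = c p := by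
  let L : (Pt → ℂ) →ₗ[ℂ] (Pt → ℂ) :=
    { toFun := fun v p => ∑ i : Fin 5, ∑ j : Fin 5, v (i, j) * (pa p ^ (i : ℕ) * pb p ^ (j : ℕ))
      map_add' := fun u v => by funext p; simp [add_mul, sum_add_distrib]
      map_smul' := fun r v => by funext p; simp [mul_sum, mul_assoc] }
  have hinj : Function.Injective L := by
    refine (injective_iff_map_eq_zero L).2 fun v hv => funext fun q => ?_
    exact coeff_eq_zero_of_values (fun i j => v (i, j)) (congrFun hv) q.1 q.2
  obtain ⟨v, hv⟩ := LinearMap.surjective_of_injective hinj c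
  exact ⟨fun i j => v (i, j), congrFun hv⟩

/-- A combination of monomials at one power of `w`. -/
def row (e : Fin 5 → Fin 5 → ℂ) (k : ℤ) : K := ∑ i : Fin 5, ∑ j : Fin 5, e i j • mono i j k

theorem row_mem {e : Fin 5 → Fin 5 → ℂ} {k d : ℤ}
    (h : ∀ i j : Fin 5, e i j ≠ 0 → ((i : ℕ) : ℤ) + ((j : ℕ) : ℤ) + k ≤ d) : row e k ∈ G d := by
  refine sum_mem fun i _ => sum_mem fun j _ => ?_
  by_cases he : e i j = 0
  · rw [he, zero_smul_K]; exact zero_mem _
  · exact Submodule.smul_mem _ _ (mono_mem_G (h i j he))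

theorem coeff_row (e : Fin 5 → Fin 5 → ℂ) {k l : ℤ} (h : l ≤ k) (p : Pt) :
    (row e k p).coeff l = if l = k
      then ∑ i : Fin 5, ∑ j : Fin 5, e i j * (pa p ^ (i : ℕ) * pb p ^ (j : ℕ)) else 0 := by
  simp only [row, Finset.sum_apply, HahnSeries.coeff_sum, smul_apply_K, HahnSeries.C_mul_eq_smul,
    HahnSeries.coeff_smul, coeff_mono_low _ _ _ _ _ h, smul_eq_mul]
  split_ifs <;> simp

/-- No coefficient below `-N`. -/
def Bound (N : ℕ) (f : K) : Prop := ∀ p, ∀ k < -(N : ℤ), (f p).coeff k = 0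

theorem exists_bound (f : K) : ∃ N, Bound N f := by
  refine ⟨univ.sup fun p => (-(f p).order).toNat, fun p k hk => ?_⟩
  refine HahnSeries.coeff_eq_zero_of_lt_order ?_
  have h : (-(f p).order).toNat ≤ univ.sup fun p => (-(f p).order).toNat :=
    le_sup (f := fun p => (-(f p).order).toNat) (mem_univ p)
  omega

theorem bound_zero {f : K} (h : Bound 0 f) : Reg f := fun p k hk => h p k (by simpa using hk)

/-- Lower the pole order by a global section. -/
theorem step_bound {d : ℤ} {N : ℕ} {f : K} (hN : 7 ≤ d + N) (h : Bound (N + 1) f) :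
    ∃ g ∈ G d, Bound N (g + f) := by
  obtain ⟨e, he⟩ := exists_values fun p => -(f p).coeff (-((N + 1 : ℕ) : ℤ))
  refine ⟨row e (-((N + 1 : ℕ) : ℤ)), row_mem fun i j _ => ?_, fun p k hk => ?_⟩
  · have := i.2; have := j.2; push_cast; omega
  · rw [Pi.add_apply, HahnSeries.coeff_add, coeff_row e (by push_cast; omega) p]
    rcases eq_or_lt_of_le (show k ≤ -((N + 1 : ℕ) : ℤ) by push_cast; omega) with rfl | hlt
    · rw [if_pos rfl, he p, neg_add_cancel]
    · rw [if_neg (by omega), h p k hlt, add_zero]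

theorem lower_bound {d : ℤ} {M : ℕ} (hM : 7 ≤ d + M) :
    ∀ (N : ℕ) (f : K), M ≤ N → Bound N f → ∃ g ∈ G d, Bound M (g + f) := by
  intro N
  induction N with
  | zero => intro f h hf; exact ⟨0, zero_mem _, by simpa [Nat.le_zero.1 h] using hf⟩
  | succ N ih =>
    intro f h hf
    rcases eq_or_lt_of_le h with rfl | h'
    · exact ⟨0, zero_mem _, by simpa using hf⟩
    · obtain ⟨g, hg, hb⟩ := step_bound (d := d) (by omega) hf
      obtain ⟨g', hg', hb'⟩ := ih (g + f) (by omega) hb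
      exact ⟨g' + g, add_mem hg' hg, by rwa [add_assoc]⟩

theorem exists_bound_ge (M : ℕ) (f : K) : ∃ N, M ≤ N ∧ Bound N f := by
  obtain ⟨N, h⟩ := exists_bound f
  exact ⟨max M N, le_max_left _ _, fun p k hk => h p k (by omega)⟩

/-- In degree at least `7` every system of polar tails is matched. -/
theorem tails {d : ℤ} (hd : 7 ≤ d) (t : K) : ∃ g ∈ G d, Reg (g + t) := by
  obtain ⟨N, hN, hb⟩ := exists_bound_ge 0 t
  obtain ⟨g, hg, h⟩ := lower_bound (d := d) (M := 0) (by simpa using hd) N t hN hb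
  exact ⟨g, hg, bound_zero h⟩

/-- The sum of the residues against the residue form of the curve. -/
def res : K →ₗ[ℂ] ℂ where
  toFun f := ∑ p, (f p * (jac p)⁻¹).coeff (-1)
  map_add' f g := by simp [add_mul, sum_add_distrib]
  map_smul' c f := by
    simp only [smul_apply_K, HahnSeries.C_mul_eq_smul, smul_mul_assoc, HahnSeries.coeff_smul,
      mul_sum, smul_eq_mul, RingHom.id_apply]

theorem ofNat_ne (n : ℕ) [n.AtLeastTwo] : (OfNat.ofNat n : LaurentSeries ℂ) ≠ 0 := by
  rw [← map_ofNat (HahnSeries.C : ℂ →+* LaurentSeries ℂ)]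
  simp

theorem jac_ne (p : Pt) : jac p ≠ 0 :=
  mul_ne_zero (mul_ne_zero (ofNat_ne 5) (pow_ne_zero _ (xK_ne p))) (gy_ne p)

theorem res_dd (t : K) : res (dd t) = 0 := by
  show ∑ p, (dd t p * (jac p)⁻¹).coeff (-1) = 0
  refine Finset.sum_eq_zero fun p _ => ?_
  rw [dd, Pi.mul_apply, mul_comm (jac p), mul_assoc, mul_inv_cancel₀ (jac_ne p), mul_one, coeff_ddw]
  simp

open Polynomial in
theorem sum_branches (a : Fin 5) (j : ℕ) (hj : j < 5) :
    ∑ b : Fin 5, yK (a, b) ^ j *
      (((450 : K) * yK ^ 4 - wK * ((12 : K) * xK + (60 : K) * xK ^ 2 * yK)) (a, b))⁻¹ =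
      (if j = 4 then (90 : LaurentSeries ℂ)⁻¹ else 0) := by
  set r : Fin 5 → LaurentSeries ℂ := fun b => yK (a, b) with hr
  set X₀ := xK ((a, 0) : Pt) with hX₀
  set W : LaurentSeries ℂ := HahnSeries.single 1 1 with hW
  have hx : ∀ b, xK (a, b) = X₀ := fun b => rfl
  have hinj : Function.Injective r := by
    intro b b' hb
    have h1 := congrArg (fun f : LaurentSeries ℂ => f.coeff ((0 : ℕ) : ℤ)) hb
    simp only [hr, yK, HahnSeries.ofPowerSeries_apply_coeff] at h1
    simp [(ys_spec (ps (a, b))).1, (ys_spec (ps (a, b'))).1] at h1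
    exact pb_inj (p := (a, b)) (q := (a, b')) h1
  have hs : Set.InjOn r (univ : Finset (Fin 5)) := hinj.injOn
  set rest : (LaurentSeries ℂ)[X] := Polynomial.C (30 * W * X₀ ^ 2) * Polynomial.X ^ 2 +
    Polynomial.C (12 * W * X₀) * Polynomial.X + Polynomial.C (1 - W ^ 5 - W) with hrest
  have hnodal : Polynomial.C (90 : LaurentSeries ℂ) * Lagrange.nodal univ r =
      Polynomial.C (90 : LaurentSeries ℂ) * Polynomial.X ^ 5 - rest := by
    refine eq_of_degree_sub_lt_of_eval_index_eq univ hs ?_ fun b _ => ?_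
    · rw [show Polynomial.C (90 : LaurentSeries ℂ) * Lagrange.nodal univ r -
          (Polynomial.C (90 : LaurentSeries ℂ) * Polynomial.X ^ 5 - rest) =
          Polynomial.C (90 : LaurentSeries ℂ) * (Lagrange.nodal univ r - Polynomial.X ^ 5) + rest
          by ring]
      refine (degree_add_le _ _).trans_lt (max_lt ?_ ?_)
      · rw [degree_C_mul (ofNat_ne 90)]
        refine (degree_sub_lt_left (by simp [Lagrange.degree_nodal]) Lagrange.nodal_monic.ne_zero
          (by rw [Lagrange.nodal_monic.leadingCoeff, leadingCoeff_X_pow])).trans_le ?_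
        simp [Lagrange.degree_nodal]
      · refine (degree_quadratic_le).trans_lt ?_
        simp; decide
    · have h := congrFun yK_pow ((a, b) : Pt)
      simp only [Pi.mul_apply, Pi.pow_apply, Pi.sub_apply, Pi.ofNat_apply, hx, wK,
        ← hW] at h
      simp only [eval_mul, eval_C, Lagrange.eval_nodal_at_node (mem_univ b), mul_zero, eval_sub,
        eval_pow, eval_X, hrest, eval_add]
      rw [show r b = yK (a, b) from rfl]
      linear_combination -h
  have hprod : ∀ b, ∏ c ∈ univ.erase b, (r b - r c) =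
      ((450 : K) * yK ^ 4 - wK * ((12 : K) * xK + (60 : K) * xK ^ 2 * yK)) (a, b) / 90 := by
    intro b
    have h := congrArg (fun P => (derivative P).eval (r b)) hnodal
    simp only [hrest, derivative_mul, derivative_sub, derivative_add, derivative_C, zero_mul,
      zero_add, derivative_X_pow, derivative_X, eval_add, eval_sub, eval_mul, eval_C, eval_pow,
      eval_X, eval_one, add_zero] at h
    rw [Lagrange.eval_nodal_derivative_eval_node_eq (mem_univ b), Lagrange.eval_nodal] at h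
    rw [eq_div_iff (ofNat_ne 90)]
    simp only [Pi.mul_apply, Pi.pow_apply, Pi.sub_apply, Pi.add_apply, Pi.ofNat_apply, wK, ← hW, hx]
    rw [show yK (a, b) = r b from rfl]
    push_cast at h
    linear_combination h
  have hsum := Lagrange.coeff_eq_sum hs
    (P := (Polynomial.X : (LaurentSeries ℂ)[X]) ^ j) (by simp; exact_mod_cast hj)
  simp only [hprod, eval_pow, eval_X, card_univ, Fintype.card_fin, coeff_X_pow] at hsum
  have e : ∀ b : Fin 5, r b ^ j * (((450 : K) * yK ^ 4 -
      wK * ((12 : K) * xK + (60 : K) * xK ^ 2 * yK)) (a, b))⁻¹ =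
      (90 : LaurentSeries ℂ)⁻¹ * (r b ^ j / (((450 : K) * yK ^ 4 -
        wK * ((12 : K) * xK + (60 : K) * xK ^ 2 * yK)) (a, b) / 90)) := by
    intro b
    have := ofNat_ne 90
    field_simp
  rw [sum_congr rfl fun b _ => e b, ← mul_sum, ← hsum]
  by_cases h4 : j = 4
  · subst h4; simp
  · rw [if_neg (by omega), if_neg h4, mul_zero]

theorem res_mono (i j : Fin 5) (k : ℤ) (h : ((i : ℕ) : ℤ) + ((j : ℕ) : ℤ) + k ≤ 6) :
    res (mono i j k) = 0 := by
  have e : ∀ p : Pt, mono i j k p * (jac p)⁻¹ =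
      (HahnSeries.single k 1 * (xK p ^ (i : ℕ) * ((5 : LaurentSeries ℂ) * xK p ^ 4)⁻¹)) *
        (yK p ^ (j : ℕ) *
          (((450 : K) * yK ^ 4 - wK * ((12 : K) * xK + (60 : K) * xK ^ 2 * yK)) p)⁻¹) := by
    intro p
    rw [jac, Pi.mul_apply, mul_inv]
    simp only [mono, wpow, Pi.mul_apply, Pi.pow_apply, Pi.ofNat_apply]
    ring
  show ∑ p, (mono i j k p * (jac p)⁻¹).coeff (-1) = 0
  rw [← HahnSeries.coeff_sum, sum_congr rfl fun p _ => e p, Fintype.sum_prod_type]
  have hx : ∀ a b : Fin 5, xK (a, b) = xK ((a, 0) : Pt) := fun a b => rfl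
  simp only [hx _ _, ← mul_sum]
  rw [sum_congr rfl fun a _ => congrArg _ (sum_branches a j j.2)]
  by_cases hj : (j : ℕ) = 4
  · simp only [if_pos hj]
    set x₁ : LaurentSeries ℂ := HahnSeries.ofPowerSeries ℤ ℂ xs with hx₁
    have hxa : ∀ a : Fin 5, xK ((a, 0) : Pt) = HahnSeries.C zeta ^ (a : ℕ) * x₁ := fun a => by
      simp [xK, pa, hx₁]
    have hz : (HahnSeries.C zeta : LaurentSeries ℂ) ^ 5 = 1 := by
      rw [← map_pow, zeta_prim.pow_eq_one, map_one]
    have hC : (HahnSeries.C zeta : LaurentSeries ℂ) ≠ 0 :=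
      fun h0 => by simp [h0] at hz
    have he : ∀ a : Fin 5, xK ((a, 0) : Pt) ^ (i : ℕ) *
        ((5 : LaurentSeries ℂ) * xK ((a, 0) : Pt) ^ 4)⁻¹ =
        (HahnSeries.C zeta ^ ((i : ℕ) + 1)) ^ (a : ℕ) *
          (x₁ ^ (i : ℕ) * (5 * x₁ ^ 4)⁻¹) := by
      intro a
      rw [hxa, mul_pow, mul_pow, mul_inv, mul_inv, mul_inv]
      have : ((HahnSeries.C zeta : LaurentSeries ℂ) ^ (a : ℕ)) ^ 4 *
          HahnSeries.C zeta ^ (a : ℕ) = 1 := by
        rw [← pow_succ, ← pow_mul, mul_comm, pow_mul, hz, one_pow]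
      rw [show (((HahnSeries.C zeta : LaurentSeries ℂ) ^ (a : ℕ)) ^ 4)⁻¹ =
        HahnSeries.C zeta ^ (a : ℕ) from inv_eq_of_mul_eq_one_right this]
      ring
    simp only [he]
    by_cases hi : (i : ℕ) = 4
    · rw [hi]
      simp only [hz, one_pow, one_mul]
      rw [Fin.sum_const, nsmul_eq_mul]
      have hx0 : x₁ ≠ 0 := by
        intro h0
        have h1 := congrArg (fun f : LaurentSeries ℂ => f.coeff ((0 : ℕ) : ℤ)) h0
        simp only [hx₁, HahnSeries.ofPowerSeries_apply_coeff, HahnSeries.coeff_zero] at h1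
        simp [xs_spec.1] at h1
      have : ((5 : ℕ) : LaurentSeries ℂ) * (HahnSeries.single k (1 : ℂ) *
          (x₁ ^ 4 * (5 * x₁ ^ 4)⁻¹) * (90 : LaurentSeries ℂ)⁻¹) =
          HahnSeries.C ((90 : ℂ)⁻¹) * HahnSeries.single k 1 := by
        rw [map_inv₀, map_ofNat]
        have := ofNat_ne 5
        field_simp
        norm_num
      rw [this, HahnSeries.C_mul_eq_smul, HahnSeries.coeff_smul,
        HahnSeries.coeff_single_of_ne (by omega), smul_zero]
    · rw [← sum_mul, ← mul_sum, ← sum_mul, Fin.sum_univ_eq_sum_range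
        (fun a => ((HahnSeries.C zeta : LaurentSeries ℂ) ^ ((i : ℕ) + 1)) ^ a)]
      have hp : IsPrimitiveRoot (HahnSeries.C (zeta ^ ((i : ℕ) + 1)) : LaurentSeries ℂ) 5 :=
        (zeta_prim.pow_of_coprime _ (Nat.Coprime.symm ((Nat.Prime.coprime_iff_not_dvd
          (by norm_num)).2 (Nat.not_dvd_of_pos_of_lt (by omega) (by omega))))).map_of_injective
          HahnSeries.C_injective
      rw [← map_pow, hp.geom_sum_eq_zero (by norm_num)]
      simp
  · simp [if_neg hj]

theorem res_G6 {g : K} (hg : g ∈ G 6) : res g = 0 := by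
  obtain ⟨l, hl, rfl⟩ := exists_comb hg
  rw [comb, Finsupp.linearCombination_apply, Finsupp.sum, map_sum]
  exact sum_eq_zero fun t ht => by rw [map_smul, res_mono _ _ _ (hl t ht), smul_zero]

theorem sum_zeta_pow {m : ℕ} (h : ¬ 5 ∣ m) : ∑ a : Fin 5, (zeta ^ (a : ℕ)) ^ m = 0 := by
  rw [Fin.sum_univ_eq_sum_range (fun a => (zeta ^ a) ^ m)]
  simp only [← pow_mul, mul_comm _ m]
  simp only [pow_mul]
  exact (zeta_prim.pow_of_coprime _ (Nat.Coprime.symm ((Nat.Prime.coprime_iff_not_dvd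
    (by norm_num)).2 h))).geom_sum_eq_zero (by norm_num)

/-- In degree `6` every system of exact tails is matched. -/
theorem tails_six (t : K) : ∃ g ∈ G 6, Reg (g + dd t) := by
  obtain ⟨N, hN, hb⟩ := exists_bound_ge 1 (dd t)
  obtain ⟨g, hg, hf⟩ := lower_bound (d := 6) (M := 1) (by norm_num) N (dd t) hN hb
  set f := g + dd t with hfdef
  have hres : res f = 0 := by rw [hfdef, map_add, res_G6 hg, res_dd, add_zero]
  obtain ⟨e, he⟩ := exists_values fun p => -(f p).coeff (-1)
  have hj : ∀ p : Pt, (f p * (jac p)⁻¹).coeff (-1) = (f p).coeff (-1) * (pa p * pb p / 25) := by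
    intro p
    set u : PowerSeries ℂ := 5 * (PowerSeries.C (pa p) * xs) ^ 4 *
      (450 * (PowerSeries.C (pb p) * ys (ps p)) ^ 4 - PowerSeries.X *
        (12 * (PowerSeries.C (pa p) * xs) +
          60 * (PowerSeries.C (pa p) * xs) ^ 2 * (PowerSeries.C (pb p) * ys (ps p)))) with hu
    have hu0 : PowerSeries.constantCoeff u = 5 * pa p ^ 4 * (450 * pb p ^ 4) := by
      rw [hu, show (5 : PowerSeries ℂ) = PowerSeries.C 5 from (map_ofNat _ _).symm,
        show (450 : PowerSeries ℂ) = PowerSeries.C 450 from (map_ofNat _ _).symm]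
      simp [xs_spec.1, (ys_spec (ps p)).1]
    have hju : jac p = HahnSeries.ofPowerSeries ℤ ℂ u := by
      simp only [hu, map_mul, map_pow, map_sub, map_add, map_ofNat, HahnSeries.ofPowerSeries_X,
        Pi.mul_apply, Pi.pow_apply, Pi.sub_apply, Pi.add_apply, Pi.ofNat_apply, xK, yK, wK, jac]
    have hinv : (jac p)⁻¹ = HahnSeries.ofPowerSeries ℤ ℂ u⁻¹ := by
      refine inv_eq_of_mul_eq_one_right ?_
      rw [hju, ← map_mul, PowerSeries.mul_inv_cancel, map_one]
      rw [hu0]; simp [pa_ne p, pb_ne p]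
    rw [hinv, coeff_mul_lowest (fun k hk => hf p k (by simpa using hk))
      (fun k hk => reg_of_powerSeries (fun _ => u⁻¹) p k hk),
      show (0 : ℤ) = ((0 : ℕ) : ℤ) from rfl, HahnSeries.ofPowerSeries_apply_coeff,
      PowerSeries.coeff_zero_eq_constantCoeff_apply, PowerSeries.constantCoeff_inv, hu0]
    have ha := pa_ne p; have hb' := pb_ne p
    have hd : (5 * pa p ^ 4 * (450 * pb p ^ 4))⁻¹ = pa p * pb p / 25 := by
      refine inv_eq_of_mul_eq_one_right ?_
      linear_combination (90 * pb p ^ 5) * pa_pow p + pb_pow p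
    rw [hd]
  have h44 : e 4 4 = 0 := by
    have h0 : ∑ p : Pt, (∑ i : Fin 5, ∑ j : Fin 5,
        e i j * (pa p ^ (i : ℕ) * pb p ^ (j : ℕ))) * (pa p * pb p / 25) = 0 := by
      simp only [he, neg_mul, sum_neg_distrib, ← hj, neg_eq_zero]
      exact hres
    simp only [sum_mul] at h0
    rw [sum_comm, Fintype.sum_eq_single 4] at h0
    · rw [sum_comm, Fintype.sum_eq_single 4] at h0
      · have hc : ∀ p : Pt, e 4 4 * (pa p ^ ((4 : Fin 5) : ℕ) * pb p ^ ((4 : Fin 5) : ℕ)) *
            (pa p * pb p / 25) = e 4 4 / 2250 := fun p => by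
          show e 4 4 * (pa p ^ 4 * pb p ^ 4) * (pa p * pb p / 25) = _
          linear_combination (e 4 4 * pb p ^ 5 / 25) * pa_pow p + (e 4 4 / 2250) * pb_pow p
        simp only [hc, sum_const, card_univ, Fintype.card_prod, Fintype.card_fin, nsmul_eq_mul] at h0
        linear_combination 90 * h0
      · intro j hj4
        rw [Fintype.sum_prod_type]
        refine sum_eq_zero fun a _ => ?_
        have hz := sum_zeta_pow (m := (j : ℕ) + 1) (Nat.not_dvd_of_pos_of_lt (by omega) (by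
          have := j.2
          have : (j : ℕ) ≠ 4 := fun h => hj4 (Fin.ext h)
          omega))
        calc _ = (e 4 j * pa (a, 0) ^ 5 * beta ^ ((j : ℕ) + 1) / 25) *
            ∑ b : Fin 5, (zeta ^ (b : ℕ)) ^ ((j : ℕ) + 1) := by
              rw [mul_sum]
              refine sum_congr rfl fun b _ => ?_
              show e 4 j * (pa (a, 0) ^ 4 * (beta * zeta ^ (b : ℕ)) ^ (j : ℕ)) *
                (pa (a, 0) * (beta * zeta ^ (b : ℕ)) / 25) = _
              ring
          _ = 0 := by rw [hz, mul_zero]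
    · intro i hi4
      rw [Fintype.sum_prod_type_right]
      refine sum_eq_zero fun b _ => ?_
      have hz := sum_zeta_pow (m := (i : ℕ) + 1) (Nat.not_dvd_of_pos_of_lt (by omega) (by
        have := i.2
        have : (i : ℕ) ≠ 4 := fun h => hi4 (Fin.ext h)
        omega))
      rw [sum_comm]
      refine sum_eq_zero fun j _ => ?_
      calc _ = (e i j * pb (0, b) ^ ((j : ℕ) + 1) / 25) *
          ∑ a : Fin 5, (zeta ^ (a : ℕ)) ^ ((i : ℕ) + 1) := by
            rw [mul_sum]
            refine sum_congr rfl fun a _ => ?_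
            show e i j * ((zeta ^ (a : ℕ)) ^ (i : ℕ) * pb (0, b) ^ (j : ℕ)) *
              ((zeta ^ (a : ℕ)) * pb (0, b) / 25) = _
            ring
        _ = 0 := by rw [hz, mul_zero]
  refine ⟨row e (-1) + g, add_mem (row_mem fun i j hne => ?_) hg, ?_⟩
  · have hi := i.2; have hj' := j.2
    by_contra hcon
    exact hne (by
      rw [show i = 4 from Fin.ext (show (i : ℕ) = 4 by omega),
        show j = 4 from Fin.ext (show (j : ℕ) = 4 by omega)]; exact h44)
  · rw [add_assoc, ← hfdef]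
    intro p k hk
    rw [Pi.add_apply, HahnSeries.coeff_add, coeff_row e (by omega) p]
    rcases eq_or_lt_of_le (show k ≤ -1 by omega) with rfl | hlt
    · rw [if_pos rfl, he p, neg_add_cancel]
    · rw [if_neg (by omega), hf p k (by simpa using hlt), add_zero]

theorem xyw_identity : (xK ^ 4 * (1 - wK) + (12 : K) * yK * wK +
      (30 : K) * xK * yK ^ 2 * wK) * xK + (-((90 : K) * yK ^ 4)) * yK = wK ^ 6 := by
  linear_combination (1 - wK) * xK_pow - yK_pow

/-- Everything of degree `d` lies in the ideal (x, y) over the punctured curve. -/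
theorem split_xy {d : ℤ} {f : K} (hf : f ∈ G d) :
    ∃ u ∈ G (d - 1), ∃ v ∈ G (d - 1), f = xK * u + yK * v := by
  induction hf using Submodule.span_induction with
  | mem a ha =>
    obtain ⟨i, j, k, hk, rfl⟩ := ha
    rcases i with _ | i
    · rcases j with _ | j
      · have hk' : k ≤ d := by simpa using hk
        refine ⟨(xK ^ 4 * (1 - wK) + (12 : K) * yK * wK + (30 : K) * xK * yK ^ 2 * wK) *
          wpow (k - 6), ?_, -((90 : K) * yK ^ 4) * wpow (k - 6), ?_, ?_⟩
        · refine mul_mem_G' (m := 5) (add_mem (add_mem ?_ ?_) ?_) (wpow_mem_G (k - 6)) (by omega)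
          · exact mul_mem_G' (pow_mem_G xK_mem_G 4)
              (sub_mem (G_mono (by norm_num) (one_mem_G (le_refl (0 : ℤ)))) wK_mem_G) (by norm_num)
          · exact mul_mem_G' (ofNat_mul_mem_G 12 yK_mem_G) wK_mem_G (by norm_num)
          · exact mul_mem_G' (mul_mem_G (ofNat_mul_mem_G 30 xK_mem_G) (pow_mem_G yK_mem_G 2))
              wK_mem_G (by norm_num)
        · exact mul_mem_G' (neg_mem (ofNat_mul_mem_G 90 (pow_mem_G yK_mem_G 4)))
            (wpow_mem_G (k - 6)) (by omega)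
        · have e : mono 0 0 k = wK ^ 6 * wpow (k - 6) := by
            rw [← wpow_nat, wpow_mul]; simp [mono]
          rw [e, ← xyw_identity]; ring
      · refine ⟨0, zero_mem _, mono 0 j k, mono_mem_G (by push_cast at hk ⊢; omega), ?_⟩
        simp only [mono, pow_succ]; ring
    · refine ⟨mono i j k, mono_mem_G (by push_cast at hk ⊢; omega), 0, zero_mem _, ?_⟩
      simp only [mono, pow_succ]; ring
  | zero => exact ⟨0, zero_mem _, 0, zero_mem _, by simp⟩
  | add a b _ _ h1 h2 =>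
    obtain ⟨u, hu, v, hv, rfl⟩ := h1
    obtain ⟨u', hu', v', hv', rfl⟩ := h2
    exact ⟨u + u', add_mem hu hu', v + v', add_mem hv hv', by ring⟩
  | smul c a _ h =>
    obtain ⟨u, hu, v, hv, rfl⟩ := h
    exact ⟨c • u, Submodule.smul_mem _ c hu, c • v, Submodule.smul_mem _ c hv,
      by rw [smul_add_K, mul_smul_comm, mul_smul_comm]⟩

theorem reg_mono_nat (i j : ℕ) : Reg (mono i j 0) := fun p k hk => by
  rw [coeff_mono_low _ _ _ _ _ hk.le, if_neg (by omega)]

theorem reg_sum_smul {ι : Type*} (s : Finset ι) (c : ι → ℂ) (F : ι → K) (h : ∀ i, Reg (F i)) :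
    Reg (∑ i ∈ s, c i • F i) := fun p k hk => by
  rw [Finset.sum_apply, HahnSeries.coeff_sum]
  exact sum_eq_zero fun i _ => (h i).smul (c i) p k hk

/-- Values of `x h₂ - y h₁` at the points are arbitrary in degree at least `7`. -/
theorem interp {n : ℤ} (hn : 7 ≤ n) (c : Pt → ℂ) :
    ∃ h₁ h₂ : K, h₁ ∈ G n ∧ Reg h₁ ∧ h₂ ∈ G n ∧ Reg h₂ ∧
      ∀ p, ((xK * h₂ - yK * h₁) p).coeff 0 = c p := by
  obtain ⟨e, he⟩ := exists_values c
  let m₂ : Fin 5 × Fin 5 → ℕ × ℕ := fun t =>
    if (t.1 : ℕ) = 0 then (4, 0) else ((t.1 : ℕ) - 1, (t.2 : ℕ))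
  let c₂ : Fin 5 × Fin 5 → ℂ := fun t =>
    if (t.1 : ℕ) = 0 ∧ (t.2 : ℕ) ≠ 0 then 0 else e t.1 t.2
  let c₁ : Fin 5 → ℂ := fun j => if (j : ℕ) = 0 then 0 else -e 0 j
  refine ⟨∑ j : Fin 5, c₁ j • mono 0 ((j : ℕ) - 1) 0,
    ∑ t : Fin 5 × Fin 5, c₂ t • mono (m₂ t).1 (m₂ t).2 0,
    sum_mem fun j _ => Submodule.smul_mem _ _ (mono_mem_G (by have := j.2; omega)),
    reg_sum_smul _ _ _ fun j => reg_mono_nat _ _,
    sum_mem fun t _ => Submodule.smul_mem _ _ (mono_mem_G (by
      have := t.1.2; have := t.2.2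
      simp only [m₂]; split_ifs <;> simp only <;> omega)),
    reg_sum_smul _ _ _ fun t => reg_mono_nat _ _, fun p => ?_⟩
  rw [← he p]
  have hx : ∀ i j : ℕ, xK * mono i j 0 = mono (i + 1) j 0 := fun i j => by
    simp only [mono, pow_succ]; ring
  have hy : ∀ i j : ℕ, yK * mono i j 0 = mono i (j + 1) 0 := fun i j => by
    simp only [mono, pow_succ]; ring
  simp only [mul_sum, mul_smul_comm, hx, hy, Pi.sub_apply, HahnSeries.coeff_sub, Finset.sum_apply,
    HahnSeries.coeff_sum, smul_apply_K, HahnSeries.C_mul_eq_smul, HahnSeries.coeff_smul,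
    smul_eq_mul, coeff_mono_low _ _ _ _ _ (le_refl (0 : ℤ)), if_true]
  rw [Fintype.sum_prod_type, Fin.sum_univ_succ, Fin.sum_univ_succ (f := fun i : Fin 5 =>
    ∑ j : Fin 5, e i j * (pa p ^ (i : ℕ) * pb p ^ (j : ℕ)))]
  have hrest : ∀ i : Fin 4, ∀ j : Fin 5,
      c₂ (i.succ, j) * (pa p ^ ((m₂ (i.succ, j)).1 + 1) * pb p ^ (m₂ (i.succ, j)).2) =
        e i.succ j * (pa p ^ (i.succ : ℕ) * pb p ^ (j : ℕ)) := fun i j => by
    simp [m₂, c₂]
  simp only [hrest]
  simp only [Fin.sum_univ_five, c₁, c₂, m₂]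
  simp only [Fin.val_zero, Fin.isValue]
  norm_num
  linear_combination (e 0 0) * pa_pow p

end

end P266
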