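import Vale.Agent.P266.CertSpec
import Vale.Agent.P266.Model
import Vale.Agent.P266.Tails
import Vale.Agent.P266.GaugeLemmas

/-!
P266: the recursion over all levels.
-/

namespace P266

noncomputable section

theorem coeff_single_mul (k : ℤ) (r : ℂ) (f : LaurentSeries ℂ) (m : ℤ) :
    (HahnSeries.single k r * f).coeff m = r * f.coeff (m - k) := by
  conv_lhs => rw [show m = (m - k) + k by ring, HahnSeries.coeff_single_mul_add]

theorem reg_zero : Reg (0 : K) := fun p k _ => by simp

theorem Reg.neg {f : K} (hf : Reg f) : Reg (-f) := fun p k hk => by simp [hf p k hk]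

theorem Reg.sub {f g : K} (hf : Reg f) (hg : Reg g) : Reg (f - g) := by
  rw [sub_eq_add_neg]; exact hf.add hg.neg

theorem Reg.natMul (n : ℕ) {f : K} (hf : Reg f) : Reg ((n : K) * f) := by
  induction n with
  | zero => simpa using reg_zero
  | succ k ih => push_cast; rw [add_mul, one_mul]; exact ih.add hf

theorem reg_sum {ι : Type*} (s : Finset ι) (F : ι → K) (h : ∀ i ∈ s, Reg (F i)) :
    Reg (∑ i ∈ s, F i) :=
  Finset.sum_induction F Reg (fun _ _ a b => a.add b) reg_zero h

/-- The inverse of `x`. -/
def xinv : K := fun p => HahnSeries.ofPowerSeries ℤ ℂ (PowerSeries.C (pa p) * xs)⁻¹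

theorem reg_ofPS (u : Pt → PowerSeries ℂ) :
    Reg (fun p => HahnSeries.ofPowerSeries ℤ ℂ (u p)) := by
  intro p k hk
  exact (PowerSeries.coeff_coe (u p) k).trans (if_pos hk)

theorem reg_xK : Reg xK := reg_ofPS _

theorem reg_yK : Reg yK := reg_ofPS _

theorem reg_xinv : Reg xinv := reg_ofPS _

theorem reg_wK : Reg wK := by
  intro p k hk
  show (HahnSeries.single (1 : ℤ) (1 : ℂ)).coeff k = 0
  exact HahnSeries.coeff_single_of_ne (by omega)

theorem xK_mul_xinv : xK * xinv = 1 := by
  funext p
  show HahnSeries.ofPowerSeries ℤ ℂ _ * HahnSeries.ofPowerSeries ℤ ℂ _ = 1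
  rw [← map_mul, PowerSeries.mul_inv_cancel, map_one]
  have ha : pa p ≠ 0 := fun h => by simpa [h] using pa_pow p
  simp [xs_spec.1, ha]

theorem wK_mul_iwK : wK * iwK = 1 := by
  funext p
  simp [wK, iwK, HahnSeries.single_mul_single]

/-- Dividing by `w` a regular function vanishing at the points. -/
theorem reg_iwK_mul {f : K} (hf : Reg f) (h0 : ∀ p, (f p).coeff 0 = 0) : Reg (iwK * f) := by
  intro p k hk
  show (HahnSeries.single (-1 : ℤ) (1 : ℂ) * f p).coeff k = 0
  rw [coeff_single_mul, one_mul]
  rcases eq_or_lt_of_le (show k - (-1) ≤ 0 by omega) with h | h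
  · rw [h]; exact h0 p
  · exact hf p _ h

theorem coeff_zero_mul {f g : K} (hf : Reg f) (hg : Reg g) (p : Pt) :
    ((f * g) p).coeff 0 = (f p).coeff 0 * (g p).coeff 0 := by
  show ((f p) * (g p)).coeff 0 = _
  rw [HahnSeries.coeff_mul, Finset.sum_eq_single ((0 : ℤ), (0 : ℤ))]
  · intro ij hij hne
    simp only [Finset.mem_antidiagonal, HahnSeries.mem_support] at hij
    rcases lt_trichotomy ij.1 0 with h | h | h
    · exact absurd (hf p _ h) hij.1
    · exact absurd (Prod.ext h (by omega)) hne
    · exact absurd (hg p _ (by omega)) hij.2.1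
  · intro h
    by_contra h'
    exact h (by simp [Finset.mem_antidiagonal, left_ne_zero_of_mul h', right_ne_zero_of_mul h'])

/-- The vector field with a single vertical and horizontal term at level `n`. -/
def vmon (n : ℕ) (a b : K) : VF := (PowerSeries.monomial n a, PowerSeries.monomial n b)

theorem low_vmon (n : ℕ) (a b : K) : Low n (vmon n a b) :=
  low_prod_iff.2 ⟨low_monomial n a, low_monomial n b⟩

theorem globV_zero : GlobV 0 := fun n => by simp

theorem globV_add {D E : VF} (hD : GlobV D) (hE : GlobV E) : GlobV (D + E) := by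
  intro n
  simp only [Prod.fst_add, Prod.snd_add, map_add]
  refine ⟨?_, (G _).add_mem (hD n).2 (hE n).2⟩
  have h := (G (n : ℤ)).add_mem (hD n).1 (hE n).1
  convert h using 1
  ring

theorem globV_vmon {n : ℕ} {a b : K} (ha : a - kap * b ∈ G (n : ℤ))
    (hb : b ∈ G ((n : ℤ) - 6)) : GlobV (vmon n a b) := by
  intro m
  simp only [vmon, PowerSeries.coeff_monomial]
  split
  · subst_vars; exact ⟨ha, hb⟩
  · simp

theorem globV_det {D E : VF} (hD : GlobV D) (hE : GlobV E) (n : ℕ) :
    PowerSeries.coeff n (det2 D E) ∈ G ((n : ℤ) - 6) := by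
  simp only [det2, map_sub, PowerSeries.coeff_mul]
  rw [← Finset.Nat.sum_antidiagonal_swap
    (f := fun p => PowerSeries.coeff p.1 E.1 * PowerSeries.coeff p.2 D.2)]
  rw [← Finset.sum_sub_distrib]
  refine (G _).sum_mem fun ij hij => ?_
  rw [Finset.HasAntidiagonal.mem_antidiagonal] at hij
  simp only [Prod.fst_swap, Prod.snd_swap]
  have e : PowerSeries.coeff ij.1 D.1 * PowerSeries.coeff ij.2 E.2
      - PowerSeries.coeff ij.2 E.1 * PowerSeries.coeff ij.1 D.2
      = (PowerSeries.coeff ij.1 D.1 - kap * PowerSeries.coeff ij.1 D.2) * PowerSeries.coeff ij.2 E.2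
        - (PowerSeries.coeff ij.2 E.1 - kap * PowerSeries.coeff ij.2 E.2) *
          PowerSeries.coeff ij.1 D.2 := by ring
  rw [e]
  refine (G _).sub_mem ?_ ?_
  · have := mul_mem_G (hD ij.1).1 (hE ij.2).2
    rwa [show ((ij.1 : ℤ) + ((ij.2 : ℤ) - 6)) = (n : ℤ) - 6 by omega] at this
  · have := mul_mem_G (hE ij.2).1 (hD ij.1).2
    rwa [show ((ij.2 : ℤ) + ((ij.1 : ℤ) - 6)) = (n : ℤ) - 6 by omega] at this

/-- The invariant before step `n`. -/
structure Good (n : ℕ) (q : ℕ → K) (D : Fin 2 → VF) : Prop where
  q_one : q 1 = q1K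
  glob : ∀ i, GlobV (D i)
  lead_low : ∀ i, ∀ m < 2, PowerSeries.coeff m (D i).1 = 0
  lead_horizontal : ∀ i, ∀ m < 4, PowerSeries.coeff m (D i).2 = 0
  lead_x : PowerSeries.coeff 2 (D 0).1 = wK * xK
  lead_y : PowerSeries.coeff 2 (D 1).1 = wK * yK
  reg : ∀ i, ∀ m ≤ n + 1, Reg (PowerSeries.coeff m (tauVF q (n - 1) (D i)).1) ∧
    Reg (PowerSeries.coeff m (tauVF q (n - 1) (D i)).2)
  det : ∀ m ≤ min (n + 3) 11,
    PowerSeries.coeff m (det2 (D 0) (D 1)) = if m = 6 then -1 else 0

theorem Good.low {n : ℕ} {q : ℕ → K} {D : Fin 2 → VF} (h : Good n q D) (i : Fin 2) :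
    Low 2 (D i) :=
  low_VF.2 fun m hm => ⟨h.lead_low i m hm, h.lead_horizontal i m (by omega)⟩

/-- After the gauge the horizontal part starts at level `3`, with the known value. -/
theorem Good.third {n : ℕ} (hn : 2 ≤ n) {q : ℕ → K} {D : Fin 2 → VF} (h : Good n q D)
    (i : Fin 2) :
    (∀ m < 3, PowerSeries.coeff m (tauVF q (n - 1) (D i)).2 = 0) ∧
      PowerSeries.coeff 3 (tauVF q (n - 1) (D i)).2
        = -(PowerSeries.coeff 2 (D i).1 * q1K) ∧
      PowerSeries.coeff 2 (tauVF q (n - 1) (D i)).1 = PowerSeries.coeff 2 (D i).1 := by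
  have h1 := low_VF.1 (tauVF_first_order q (show 1 ≤ n - 1 by omega) (h.low i))
  have h2 := low_VF.1 (tauVF_low q (n - 1) (h.low i)).2
  have h3 := low_VF.1 (tauVF_low q (n - 1) (h.low i)).1
  refine ⟨fun m hm => ?_, ?_, ?_⟩
  · rcases Nat.lt_or_ge m 2 with hm2 | hm2
    · exact (h3 m hm2).2
    · obtain rfl : m = 2 := by omega
      have := (h2 2 (by omega)).2
      rw [Prod.snd_sub, map_sub, h.lead_horizontal i 2 (by omega), sub_zero] at this
      exact this
  · have := (h1 3 (by omega)).2
    have hlie : PowerSeries.coeff 3 (lie (gauge 1 (q 1)) (D i)).2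
        = -(PowerSeries.coeff 2 (D i).1 * q1K) := by
      have ha : Low 4 (act (gauge 1 (q 1)) (D i).2) := by
        have hb : Low 4 (D i).2 := low_S_iff.2 (h.lead_horizontal i)
        exact (low_act (low_gauge 1 (q 1)) hb).mono (by omega)
      have hA : Low 2 (D i).1 := (low_prod_iff.1 (h.low i)).1
      have hq : Low 1 (gauge 1 (q 1)).2 := (low_prod_iff.1 (low_gauge 1 (q 1))).2
      have hB : Low 4 ((D i).2 * dS (gauge 1 (q 1)).2) :=
        (low_mul (low_S_iff.2 (h.lead_horizontal i)) (low_dS hq)).mono (by omega)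
      have hlead : PowerSeries.coeff 3 ((D i).1 * thetaS (gauge 1 (q 1)).2)
          = PowerSeries.coeff 2 (D i).1 * q1K := by
        rw [coeff_mul_low hA (low_thetaS hq), coeff_thetaS]
        simp [gauge, h.q_one]
      show PowerSeries.coeff 3 (act (gauge 1 (q 1)) (D i).2 - act (D i) (gauge 1 (q 1)).2) = _
      rw [map_sub, low_S_iff.1 ha 3 (by omega), act, map_add, low_S_iff.1 hB 3 (by omega),
        hlead, add_zero, zero_sub]
    rw [Prod.snd_sub, Prod.snd_sub, map_sub, map_sub, h.lead_horizontal i 3 (by omega), sub_zero,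
      sub_eq_zero, hlie] at this
    exact this
  · have := (h2 2 (by omega)).1
    rwa [Prod.fst_sub, map_sub, sub_eq_zero] at this

/-- Adding a term at level `k` to a field: effect after the gauge through level `k`. -/
theorem tauVF_add_vmon (q : ℕ → K) (N k : ℕ) (D : VF) (a b : K) {m : ℕ} (hm : m ≤ k) :
    PowerSeries.coeff m (tauVF q N (D + vmon k a b)).1
      = PowerSeries.coeff m (tauVF q N D).1 + (if m = k then a else 0) ∧
    PowerSeries.coeff m (tauVF q N (D + vmon k a b)).2
      = PowerSeries.coeff m (tauVF q N D).2 + (if m = k then b else 0) := by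
  have h := low_VF.1 (tauVF_low q N (low_vmon k a b)).2 m (by omega)
  simp only [Prod.fst_sub, Prod.snd_sub, map_sub, sub_eq_zero] at h
  rw [map_add (tauVF q N), Prod.fst_add, Prod.snd_add, map_add, map_add, h.1, h.2]
  simp only [vmon, PowerSeries.coeff_monomial]
  exact ⟨trivial, trivial⟩

/-- The part of the determinant below the top level. -/
theorem coeff_det2_top {D E : VF} {N : ℕ} (hDa : ∀ m < 2, PowerSeries.coeff m D.1 = 0)
    (hEa : ∀ m < 2, PowerSeries.coeff m E.1 = 0) :
    PowerSeries.coeff (N + 2) (det2 D E)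
      = PowerSeries.coeff 2 D.1 * PowerSeries.coeff N E.2
        - PowerSeries.coeff 2 E.1 * PowerSeries.coeff N D.2
        + ∑ ij ∈ (Finset.HasAntidiagonal.antidiagonal (N + 2)).filter (fun ij => 3 ≤ ij.1),
          (PowerSeries.coeff ij.1 D.1 * PowerSeries.coeff ij.2 E.2
            - PowerSeries.coeff ij.1 E.1 * PowerSeries.coeff ij.2 D.2) := by
  simp only [det2, map_sub, PowerSeries.coeff_mul, ← Finset.sum_sub_distrib]
  rw [← Finset.sum_filter_not_add_sum_filter _ (fun ij : ℕ × ℕ => 3 ≤ ij.1)]
  congr 1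
  rw [Finset.sum_eq_single (2, N)]
  · intro ij hij hne
    simp only [Finset.mem_filter, Finset.HasAntidiagonal.mem_antidiagonal, not_le] at hij
    have : ij.1 < 2 := by
      by_contra h; exact hne (Prod.ext (by omega) (by omega))
    rw [hDa _ this, hEa _ this]; ring
  · intro h; exact absurd (by simp [Finset.mem_filter]; omega) h

theorem q1K_mul_wK : q1K * wK = fun p => HahnSeries.single 0 (1 - 6 * ps p ^ 2) := by
  funext p
  show HahnSeries.single (-1 : ℤ) (1 - 6 * ps p ^ 2) * HahnSeries.single (1 : ℤ) (1 : ℂ) = _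
  rw [HahnSeries.single_mul_single, mul_one, neg_add_cancel]

theorem step_exists {n : ℕ} (hn : 5 ≤ n) {q : ℕ → K} {D : Fin 2 → VF} (hG : Good n q D)
    (h5 : n = 5 → ∀ p, ((PowerSeries.coeff 9
      (det2 (truncV 6 (tauVF q 4 (D 0))) (truncV 6 (tauVF q 4 (D 1))))) p).coeff 0 = 0) :
    ∃ (q' : ℕ → K) (D' : Fin 2 → VF), Good (n + 1) q' D' ∧ (∀ k, k ≠ n → q' k = q k) ∧
      ∀ i, ∀ m ≤ n, PowerSeries.coeff m (D' i).1 = PowerSeries.coeff m (D i).1 ∧
        PowerSeries.coeff m (D' i).2 = PowerSeries.coeff m (D i).2 := by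
  set N := n - 1 with hN
  -- the top coefficient of the gauged determinant
  set u := PowerSeries.coeff (n + 4) (tauT q N (det2 (D 0) (D 1))) with hu
  obtain ⟨g, hg, hgr, hg11⟩ : ∃ g ∈ G ((n : ℤ) - 2), Reg (g + u) ∧
      (n + 4 ≤ 11 → g = -PowerSeries.coeff (n + 4) (det2 (D 0) (D 1)) ∧ g + u = 0) := by
    by_cases h9 : 9 ≤ n
    · obtain ⟨g, hg, hr⟩ := tails (d := (n : ℤ) - 2) (by omega) u
      exact ⟨g, hg, hr, fun h => absurd h (by omega)⟩
    set P := PowerSeries.coeff (n + 4) (det2 (D 0) (D 1)) with hP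
    have hPG : P ∈ G ((n : ℤ) - 2) := by
      have h := globV_det (hG.glob 0) (hG.glob 1) (n + 4)
      rwa [show ((n + 4 : ℕ) : ℤ) - 6 = (n : ℤ) - 2 by push_cast; ring] at h
    set r : S := det2 (D 0) (D 1) + PowerSeries.monomial 6 1 - PowerSeries.monomial (n + 4) P
      with hr
    have hlow : Low (n + 5) r := by
      refine low_S_iff.2 fun m hm => ?_
      simp only [hr, map_sub, map_add, PowerSeries.coeff_monomial]
      rcases Nat.lt_or_ge m (n + 4) with hm' | hm'
      · rw [hG.det m (by omega), if_neg (by omega : m ≠ n + 4)]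
        split <;> simp
      · obtain rfl : m = n + 4 := by omega
        rw [if_neg (by omega : n + 4 ≠ 6), if_pos rfl, add_zero, sub_self]
    have hu' : u = P - PowerSeries.coeff (n + 4) (tauT q N (PowerSeries.monomial 6 1)) := by
      have e : det2 (D 0) (D 1)
          = r - PowerSeries.monomial 6 1 + PowerSeries.monomial (n + 4) P := by rw [hr]; ring
      have h1 := low_S_iff.1 (tauT_low q N hlow).1 (n + 4) (by omega)
      have h2 := low_S_iff.1 (tauT_low q N (low_monomial (n + 4) P)).2 (n + 4) (by omega)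
      simp only [map_sub, sub_eq_zero, PowerSeries.coeff_monomial, if_pos] at h2
      rw [hu, e, map_add, map_sub, map_add, map_sub, h1, h2]
      ring
    by_cases h8 : n ≤ 7
    · have h0 : PowerSeries.coeff (n + 4) (tauT q N (PowerSeries.monomial 6 1)) = 0 := by
        have := low_S_iff.1 (tauT_six q N).1 (n + 4) (by omega)
        rw [map_sub, PowerSeries.coeff_monomial, if_neg (by omega : n + 4 ≠ 6), sub_zero] at this
        exact this
      refine ⟨-P, (G _).neg_mem hPG, ?_, fun _ => ⟨rfl, ?_⟩⟩
      · rw [hu', h0]; simpa using reg_zero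
      · rw [hu', h0]; ring
    · obtain rfl : n = 8 := by omega
      obtain ⟨g', hg', hr'⟩ := tails_six (q 6)
      refine ⟨g' - P, (G _).sub_mem hg' hPG, ?_, fun h => absurd h (by omega)⟩
      have h12 := (tauT_six q N).2
      rw [if_neg (by omega)] at h12
      rw [hu', h12]
      convert hr' using 1
      ring
  set R := g + u with hR
  -- the values needed at the points
  set Dt := fun i => tauVF q N (D i) with hDt
  set M0 := ∑ ij ∈ (Finset.HasAntidiagonal.antidiagonal (n + 2 + 2)).filter (fun ij => 3 ≤ ij.1),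
      (PowerSeries.coeff ij.1 (truncV (n + 1) (Dt 0)).1 *
          PowerSeries.coeff ij.2 (truncV (n + 1) (Dt 1)).2
        - PowerSeries.coeff ij.1 (truncV (n + 1) (Dt 1)).1 *
          PowerSeries.coeff ij.2 (truncV (n + 1) (Dt 0)).2) with hM0
  have hM0r : Reg M0 := by
    refine reg_sum _ _ fun ij hij => ?_
    simp only [Finset.mem_filter, Finset.HasAntidiagonal.mem_antidiagonal] at hij
    have key : ∀ i j, Reg (PowerSeries.coeff ij.1 (truncV (n + 1) (Dt i)).1 *
        PowerSeries.coeff ij.2 (truncV (n + 1) (Dt j)).2) := by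
      intro i j
      simp only [truncV, PowerSeries.coeff_mk]
      split
      · refine (hG.reg i _ (by omega)).1.mul ?_
        split
        · exact (hG.reg j _ (by omega)).2
        · exact reg_zero
      · simpa using reg_zero
    exact (key 0 1).sub (key 1 0)
  -- choose the vertical corrections
  obtain ⟨h, hh, hhr, hval⟩ : ∃ h : Fin 2 → K, (∀ i, h i ∈ G ((n : ℤ) + 1)) ∧ (∀ i, Reg (h i)) ∧
      ∀ p, ((xK * h 1 - yK * h 0) p).coeff 0 * (1 - 6 * ps p ^ 2)
        = ((R - M0) p).coeff 0 := by
    by_cases h6 : 6 ≤ n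
    · obtain ⟨h1, h2, a1, a2, a3, a4, a5⟩ := interp (n := (n : ℤ) + 1) (by omega)
        (fun p => ((R - M0) p).coeff 0 / (1 - 6 * ps p ^ 2))
      refine ⟨![h1, h2], ?_, ?_, fun p => ?_⟩
      · intro i; fin_cases i <;> assumption
      · intro i; fin_cases i <;> assumption
      · have := a5 p
        simp only [Matrix.cons_val_zero, Matrix.cons_val_one]
        rw [this, div_mul_cancel₀ _ (gv_ne_zero p)]
    · obtain rfl : n = 5 := by omega
      have hR0 : R = 0 := (hg11 (by omega)).2
      refine ⟨fun _ => 0, fun _ => (G _).zero_mem, fun _ => reg_zero, fun p => ?_⟩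
      have hD9 := h5 rfl p
      have etop := coeff_det2_top (N := 7) (D := truncV 6 (Dt 0)) (E := truncV 6 (Dt 1))
        (fun m hm => by
          have := low_VF.1 (tauVF_low q N (hG.low 0)).1 m hm
          simp [truncV, Dt, this.1])
        (fun m hm => by
          have := low_VF.1 (tauVF_low q N (hG.low 1)).1 m hm
          simp [truncV, Dt, this.1])
      have z7 : ∀ i, PowerSeries.coeff 7 (truncV 6 (Dt i)).2 = 0 := fun i => by simp [truncV]
      rw [z7, z7, mul_zero, mul_zero, sub_zero, zero_add] at etop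
      have hM9 : (M0 p).coeff 0 = 0 := by rw [hM0, ← etop]; exact hD9
      simp [hR0, hM9]
  -- the determinant correction
  obtain ⟨Bu, hBu, Bv, hBv, hsplit⟩ := split_xy (d := (n : ℤ) - 3) (f := iwK * g) (by
    have := mul_mem_G iwK_mem_G hg
    rwa [show (-1 + ((n : ℤ) - 2)) = (n : ℤ) - 3 by ring] at this)
  set Bc : Fin 2 → K := ![-Bv, Bu] with hBc
  have hBcG : ∀ i, Bc i ∈ G ((n : ℤ) - 4) := by
    intro i
    fin_cases i
    · simpa [hBc, show (n : ℤ) - 3 - 1 = (n : ℤ) - 4 by ring] using (G _).neg_mem hBv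
    · simpa [hBc, show (n : ℤ) - 3 - 1 = (n : ℤ) - 4 by ring] using hBu
  set E1 := fun i => D i + vmon (n + 1) (h i) 0 with hE1
  set E2 := fun i => E1 i + vmon (n + 2) (kap * Bc i) (Bc i) with hE2
  have hE2glob : ∀ i, GlobV (E2 i) := fun i => by
    refine globV_add (globV_add (hG.glob i) (globV_vmon ?_ (G _).zero_mem)) (globV_vmon ?_ ?_)
    · simpa using hh i
    · simp
    · have := hBcG i
      rwa [show ((n : ℤ) - 4) = ((n + 2 : ℕ) : ℤ) - 6 by push_cast; ring] at this
  have hsame : ∀ i, ∀ m ≤ n, PowerSeries.coeff m (E2 i).1 = PowerSeries.coeff m (D i).1 ∧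
      PowerSeries.coeff m (E2 i).2 = PowerSeries.coeff m (D i).2 := fun i m hm => by
    simp [hE2, hE1, vmon, PowerSeries.coeff_monomial, show m ≠ n + 1 by omega,
      show m ≠ n + 2 by omega]
  have hreg1 : ∀ i, ∀ m ≤ n + 1, Reg (PowerSeries.coeff m (tauVF q N (E2 i)).1) ∧
      Reg (PowerSeries.coeff m (tauVF q N (E2 i)).2) := by
    intro i m hm
    have a1 := tauVF_add_vmon q N (n + 2) (E1 i) (kap * Bc i) (Bc i) (m := m) (by omega)
    have a2 := tauVF_add_vmon q N (n + 1) (D i) (h i) 0 (m := m) hm
    rw [if_neg (by omega), if_neg (by omega), add_zero, add_zero] at a1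
    show Reg (PowerSeries.coeff m (tauVF q N (E1 i + _)).1) ∧ _
    rw [a1.1, a1.2]
    show Reg (PowerSeries.coeff m (tauVF q N (D i + _)).1) ∧ _
    rw [a2.1, a2.2]
    refine ⟨(hG.reg i m hm).1.add ?_, ?_⟩
    · split
      · exact hhr i
      · exact reg_zero
    · simpa using (hG.reg i m hm).2
  -- determinant of the corrected fields
  have hdet : Low (n + 5) (det2 (E2 0) (E2 1) - det2 (D 0) (D 1)
      - PowerSeries.monomial (n + 4) g) := by
    have hP1 : ∀ i, (E2 i).1 = (D i).1 + (PowerSeries.monomial (n + 1) (h i)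
        + PowerSeries.monomial (n + 2) (kap * Bc i)) := fun i => by
      simp [hE2, hE1, vmon, add_assoc]
    have hP2 : ∀ i, (E2 i).2 = (D i).2 + PowerSeries.monomial (n + 2) (Bc i) := fun i => by
      simp [hE2, hE1, vmon]
    have hPa : ∀ i, Low (n + 1) (PowerSeries.monomial (n + 1) (h i)
        + PowerSeries.monomial (n + 2) (kap * Bc i)) := fun i =>
      (low_monomial _ _).add ((low_monomial _ _).mono (by omega))
    have hPb : ∀ i, Low (n + 2) (PowerSeries.monomial (n + 2) (Bc i)) := fun i => low_monomial _ _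
    have hDb : ∀ i, Low 4 (D i).2 := fun i => low_S_iff.2 (hG.lead_horizontal i)
    have hEb : Low 4 (E2 1).2 := by rw [hP2]; exact (hDb 1).add ((hPb 1).mono (by omega))
    have hDa : ∀ i, Low 2 (D i).1 := fun i => (low_prod_iff.1 (hG.low i)).1
    have hEa : Low 2 (E2 1).1 := by rw [hP1]; exact (hDa 1).add ((hPa 1).mono (by omega))
    have e : det2 (E2 0) (E2 1) - det2 (D 0) (D 1) - PowerSeries.monomial (n + 4) g
        = (PowerSeries.monomial (n + 1) (h 0) + PowerSeries.monomial (n + 2) (kap * Bc 0))
            * (E2 1).2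
          - (PowerSeries.monomial (n + 1) (h 1) + PowerSeries.monomial (n + 2) (kap * Bc 1))
            * (D 0).2
          + ((D 0).1 * PowerSeries.monomial (n + 2) (Bc 1)
            - (E2 1).1 * PowerSeries.monomial (n + 2) (Bc 0)
            - PowerSeries.monomial (n + 4) g) := by
      simp only [det2, hP1, hP2]; ring
    rw [e]
    refine (((low_mul (hPa 0) hEb).mono (by omega)).sub
      ((low_mul (hPa 1) (hDb 0)).mono (by omega))).add (low_S_iff.2 fun m hm => ?_)
    have l1 := low_mul (hDa 0) (hPb 1)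
    have l2 := low_mul hEa (hPb 0)
    rcases Nat.lt_or_ge m (n + 4) with hm' | hm'
    · rw [map_sub, map_sub, low_S_iff.1 l1 m (by omega), low_S_iff.1 l2 m (by omega),
        PowerSeries.coeff_monomial, if_neg (by omega)]
      simp
    · obtain rfl : m = n + 4 := by omega
      rw [map_sub, map_sub, PowerSeries.coeff_monomial, if_pos rfl,
        show n + 4 = 2 + (n + 2) by omega, coeff_mul_low (hDa 0) (hPb 1),
        coeff_mul_low hEa (hPb 0), (hsame 1 2 (by omega)).1, hG.lead_x, hG.lead_y,
        PowerSeries.coeff_monomial, PowerSeries.coeff_monomial, if_pos rfl, if_pos rfl]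
      simp only [hBc, Matrix.cons_val_zero, Matrix.cons_val_one]
      have e2 : wK * (iwK * g) = g := by rw [← mul_assoc, wK_mul_iwK, one_mul]
      rw [← e2, hsplit]; ring
  -- the gauged top coefficient is regular
  have htop : PowerSeries.coeff (n + 4) (det2 (tauVF q N (E2 0)) (tauVF q N (E2 1))) = R := by
    rw [← tauT_det]
    have h1 := low_S_iff.1 (tauT_low q N hdet).1 (n + 4) (by omega)
    have h2 := low_S_iff.1 (tauT_low q N (low_monomial (n + 4) g)).2 (n + 4) (by omega)
    simp only [map_sub, sub_eq_zero, PowerSeries.coeff_monomial, if_pos] at h1 h2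
    rw [hR, hu, ← h2, ← h1]; ring
  set b := fun i => PowerSeries.coeff (n + 2) (tauVF q N (E2 i)).2 with hb
  have hbreg : Reg (xK * b 1 - yK * b 0) := by
    have hlow : ∀ i, Low 2 (E2 i) := fun i => low_VF.2 fun m hm =>
      ⟨by rw [(hsame i m (by omega)).1]; exact hG.lead_low i m hm,
        by rw [(hsame i m (by omega)).2]; exact hG.lead_horizontal i m (by omega)⟩
    have hTa : ∀ i, ∀ m < 2, PowerSeries.coeff m (tauVF q N (E2 i)).1 = 0 := fun i m hm =>
      (low_VF.1 (tauVF_low q N (hlow i)).1 m hm).1
    have hE : ∀ i, ∀ m ≤ n + 1,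
        PowerSeries.coeff m (tauVF q N (E2 i)).1
          = PowerSeries.coeff m (tauVF q N (D i)).1 + (if m = n + 1 then h i else 0) ∧
        PowerSeries.coeff m (tauVF q N (E2 i)).2 = PowerSeries.coeff m (tauVF q N (D i)).2 := by
      intro i m hm
      have a1 := tauVF_add_vmon q N (n + 2) (E1 i) (kap * Bc i) (Bc i) (m := m) (by omega)
      have a2 := tauVF_add_vmon q N (n + 1) (D i) (h i) 0 (m := m) hm
      rw [if_neg (by omega), if_neg (by omega), add_zero, add_zero] at a1
      simp only [ite_self, add_zero] at a2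
      exact ⟨a1.1.trans a2.1, a1.2.trans a2.2⟩
    have h3 := fun i => hG.third (by omega) i
    have hlead : ∀ i, PowerSeries.coeff 2 (tauVF q N (E2 i)).1 = PowerSeries.coeff 2 (D i).1 := by
      intro i; rw [(hE i 2 (by omega)).1, if_neg (by omega), add_zero]; exact (h3 i).2.2
    have hsum : (∑ ij ∈ (Finset.HasAntidiagonal.antidiagonal (n + 2 + 2)).filter
          (fun ij => 3 ≤ ij.1),
        (PowerSeries.coeff ij.1 (tauVF q N (E2 0)).1 * PowerSeries.coeff ij.2 (tauVF q N (E2 1)).2
          - PowerSeries.coeff ij.1 (tauVF q N (E2 1)).1 *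
            PowerSeries.coeff ij.2 (tauVF q N (E2 0)).2))
        = M0 + q1K * wK * (xK * h 1 - yK * h 0) := by
      have hterm : ∀ ij ∈ (Finset.HasAntidiagonal.antidiagonal (n + 2 + 2)).filter
          (fun ij => 3 ≤ ij.1),
          (PowerSeries.coeff ij.1 (tauVF q N (E2 0)).1 *
              PowerSeries.coeff ij.2 (tauVF q N (E2 1)).2
            - PowerSeries.coeff ij.1 (tauVF q N (E2 1)).1 *
              PowerSeries.coeff ij.2 (tauVF q N (E2 0)).2)
          = (PowerSeries.coeff ij.1 (truncV (n + 1) (Dt 0)).1 *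
              PowerSeries.coeff ij.2 (truncV (n + 1) (Dt 1)).2
            - PowerSeries.coeff ij.1 (truncV (n + 1) (Dt 1)).1 *
              PowerSeries.coeff ij.2 (truncV (n + 1) (Dt 0)).2)
            + (if ij.1 = n + 1 then q1K * wK * (xK * h 1 - yK * h 0) else 0) := by
        intro ij hij
        simp only [Finset.mem_filter, Finset.HasAntidiagonal.mem_antidiagonal] at hij
        by_cases hi : ij.1 ≤ n + 1
        · rw [(hE 0 _ hi).1, (hE 1 _ hi).1, (hE 0 _ (by omega : ij.2 ≤ n + 1)).2,
            (hE 1 _ (by omega : ij.2 ≤ n + 1)).2]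
          simp only [truncV, PowerSeries.coeff_mk, hDt, if_pos hi,
            if_pos (show ij.2 ≤ n + 1 by omega)]
          by_cases he : ij.1 = n + 1
          · rw [if_pos he, if_pos he, if_pos he, show ij.2 = 3 by omega, (h3 0).2.1, (h3 1).2.1,
              hG.lead_x, hG.lead_y]
            ring
          · rw [if_neg he, if_neg he, if_neg he]; ring
        · have z : ∀ i, PowerSeries.coeff ij.2 (tauVF q N (E2 i)).2 = 0 := fun i => by
            rw [(hE i _ (by omega)).2]; exact (h3 i).1 _ (by omega)
          rw [z, z, if_neg (by omega)]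
          simp [truncV, if_neg hi]
      rw [Finset.sum_congr rfl hterm, Finset.sum_add_distrib, ← hM0, Finset.sum_ite, Finset.sum_const_zero,
        add_zero]
      congr 1
      rw [show ((Finset.HasAntidiagonal.antidiagonal (n + 2 + 2)).filter
          (fun ij => 3 ≤ ij.1)).filter (fun ij => ij.1 = n + 1) = {(n + 1, 3)} from by
        ext ⟨i, j⟩
        simp only [Finset.mem_filter, Finset.HasAntidiagonal.mem_antidiagonal, Finset.mem_singleton,
          Prod.mk.injEq]
        omega]
      simp
    have key : xK * b 1 - yK * b 0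
        = iwK * (R - M0 - q1K * wK * (xK * h 1 - yK * h 0)) := by
      have e := coeff_det2_top (N := n + 2) (hTa 0) (hTa 1)
      rw [hsum, show n + 2 + 2 = n + 4 by omega, htop, hlead, hlead, hG.lead_x, hG.lead_y] at e
      have hb' : ∀ i, PowerSeries.coeff (n + 2) (tauVF q N (E2 i)).2 = b i := fun i => rfl
      rw [hb', hb'] at e
      rw [e]
      have : iwK * wK = 1 := by rw [mul_comm, wK_mul_iwK]
      linear_combination (-(xK * b 1) + yK * b 0) * this
    rw [key]
    have hgv : Reg (q1K * wK) := by
      rw [q1K_mul_wK]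
      intro p k hk
      exact HahnSeries.coeff_single_of_ne (by omega)
    have hxy : Reg (xK * h 1 - yK * h 0) := (reg_xK.mul (hhr 1)).sub (reg_yK.mul (hhr 0))
    refine reg_iwK_mul ((hgr.sub hM0r).sub (hgv.mul hxy)) fun p => ?_
    have h0 : ((q1K * wK * (xK * h 1 - yK * h 0)) p).coeff 0
        = (1 - 6 * ps p ^ 2) * ((xK * h 1 - yK * h 0) p).coeff 0 := by
      rw [coeff_zero_mul hgv hxy, q1K_mul_wK]
      simp
    show ((R - M0) p).coeff 0 - ((q1K * wK * (xK * h 1 - yK * h 0)) p).coeff 0 = 0
    rw [h0, ← hval p]; ring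
  -- the new gauge
  set c : K := algebraMap ℂ K ((n : ℂ)⁻¹) with hc
  set qn : K := c * (b 0 * (xinv * iwK)) with hqn
  set q' := Function.update q n qn with hq'
  have hqN : tauVF q' N = tauVF q N :=
    tauVF_congr fun k hk => Function.update_of_ne (by omega) _ _
  have hbfix : ∀ i, ∀ m ≤ n + 2,
      PowerSeries.coeff m (tauVF q' n (E2 i)).2
        = PowerSeries.coeff m (tauVF q N (E2 i)).2
          - (if m = n + 2 then (n : K) * qn * PowerSeries.coeff 2 (D i).1 else 0) ∧
      (m ≤ n + 1 → PowerSeries.coeff m (tauVF q' n (E2 i)).1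
        = PowerSeries.coeff m (tauVF q N (E2 i)).1) := by
    intro i m hm
    have hY : Low 2 (tauVF q N (E2 i)) := (tauVF_low q N (low_VF.2 fun k hk =>
      ⟨by rw [(hsame i k (by omega)).1]; exact hG.lead_low i k hk,
        by rw [(hsame i k (by omega)).2]; exact hG.lead_horizontal i k (by omega)⟩)).1
    have estep : tauVF q' n (E2 i) = expT (lieL (gauge n qn)) (tauVF q N (E2 i)) := by
      have e : n = N + 1 := by omega
      rw [e]
      simp only [tauVF, LinearMap.comp_apply, hqN]
      rw [← e]
      simp [hq']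
    set Y := tauVF q N (E2 i) with hYdef
    rw [estep]
    have h1 := low_VF.1 (low_expT_sub_self (by omega) (raises_lie n qn) hY)
    refine ⟨?_, fun hm' => ?_⟩
    · rcases Nat.lt_or_ge m (n + 2) with hm' | hm'
      · have := (h1 m (by omega)).2
        rw [Prod.snd_sub, map_sub, sub_eq_zero] at this
        rw [this, if_neg (by omega), sub_zero]
      · obtain rfl : m = n + 2 := by omega
        have h2 := (low_VF.1 (low_expT_sub_linear (by omega) (raises_lie n qn) hY) (n + 2)
          (by omega)).2
        have hY3 : Low 3 Y.2 := low_S_iff.2 fun k hk => by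
          have h3 := hG.third (by omega) i
          have a1 := tauVF_add_vmon q N (n + 2) (E1 i) (kap * Bc i) (Bc i) (m := k) (by omega)
          have a2 := tauVF_add_vmon q N (n + 1) (D i) (h i) 0 (m := k) (by omega)
          rw [if_neg (by omega), if_neg (by omega), add_zero, add_zero] at a1
          simp only [ite_self, add_zero] at a2
          exact (a1.2.trans a2.2).trans (h3.1 k hk)
        have hY2 : PowerSeries.coeff 2 Y.1 = PowerSeries.coeff 2 (D i).1 := by
          have h3 := hG.third (by omega) i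
          have a1 := tauVF_add_vmon q N (n + 2) (E1 i) (kap * Bc i) (Bc i) (m := 2) (by omega)
          have a2 := tauVF_add_vmon q N (n + 1) (D i) (h i) 0 (m := 2) (by omega)
          rw [if_neg (by omega), if_neg (by omega), add_zero, add_zero] at a1
          rw [if_neg (by omega), if_neg (by omega), add_zero, add_zero] at a2
          exact (a1.1.trans a2.1).trans h3.2.2
        have hg2 : Low n (gauge n qn).2 := (low_prod_iff.1 (low_gauge n qn)).2
        have hlie : PowerSeries.coeff (n + 2) (lie (gauge n qn) Y).2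
            = -((n : K) * qn * PowerSeries.coeff 2 (D i).1) := by
          show PowerSeries.coeff (n + 2) (act (gauge n qn) Y.2 - act Y (gauge n qn).2) = _
          rw [map_sub, low_S_iff.1 (low_act (low_gauge n qn) hY3) (n + 2) (by omega), act,
            map_add, low_S_iff.1 (low_mul hY3 (low_dS hg2)) (n + 2) (by omega),
            show n + 2 = 2 + n by omega,
            coeff_mul_low (low_prod_iff.1 hY).1 (low_thetaS hg2), coeff_thetaS, hY2]
          simp [gauge]
          ring
        rw [Prod.snd_sub, Prod.snd_sub, map_sub, map_sub] at h2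
        change _ - _ - PowerSeries.coeff (n + 2) (lie (gauge n qn) Y).2 = 0 at h2
        rw [hlie] at h2
        rw [if_pos rfl]
        linear_combination h2
    · have := (h1 m (by omega)).1
      rw [Prod.fst_sub, map_sub, sub_eq_zero] at this
      exact this
  -- vertical tails
  have hA : ∀ i, ∃ a ∈ G ((n : ℤ) + 2),
      Reg (a + PowerSeries.coeff (n + 2) (tauVF q' n (E2 i)).1) :=
    fun i => tails (by omega) _
  choose av hav havr using hA
  set E3 := fun i => E2 i + vmon (n + 2) (av i) 0 with hE3
  have hsame3 : ∀ i, ∀ m ≤ n, PowerSeries.coeff m (E3 i).1 = PowerSeries.coeff m (D i).1 ∧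
      PowerSeries.coeff m (E3 i).2 = PowerSeries.coeff m (D i).2 := fun i m hm => by
    simp [hE3, vmon, PowerSeries.coeff_monomial, show m ≠ n + 2 by omega, hsame i m hm]
  refine ⟨q', E3, ?_, fun k hk => Function.update_of_ne hk _ _, hsame3⟩
  refine ⟨?_, ?_, ?_, ?_, ?_, ?_, ?_, ?_⟩
  · rw [← hG.q_one]; exact Function.update_of_ne (by omega) _ _
  · exact fun i => globV_add (hE2glob i) (globV_vmon (by simpa using hav i) (G _).zero_mem)
  · intro i m hm; rw [(hsame3 i m (by omega)).1]; exact hG.lead_low i m hm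
  · intro i m hm; rw [(hsame3 i m (by omega)).2]; exact hG.lead_horizontal i m hm
  · rw [(hsame3 0 2 (by omega)).1]; exact hG.lead_x
  · rw [(hsame3 1 2 (by omega)).1]; exact hG.lead_y
  · intro i m hm
    rw [Nat.add_sub_cancel]
    have a := tauVF_add_vmon q' n (n + 2) (E2 i) (av i) 0 (m := m) (by omega)
    show Reg (PowerSeries.coeff m (tauVF q' n (E2 i + _)).1) ∧ _
    rw [a.1, a.2]
    rcases Nat.lt_or_ge m (n + 2) with hm' | hm'
    · have hf := hbfix i m (by omega)
      rw [if_neg (by omega), if_neg (by omega), hf.1, if_neg (by omega), hf.2 (by omega)]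
      simpa using hreg1 i m (by omega)
    · obtain rfl : m = n + 2 := by omega
      simp only [if_pos, add_zero]
      refine ⟨by rw [add_comm]; exact havr i, ?_⟩
      rw [(hbfix i _ le_rfl).1, if_pos rfl]
      show Reg (b i - (n : K) * qn * PowerSeries.coeff 2 (D i).1)
      have hnc : (n : K) * c = 1 := by
        rw [hc, ← map_natCast (algebraMap ℂ K), ← map_mul,
          mul_inv_cancel₀ (Nat.cast_ne_zero.2 (by omega)), map_one]
      have hxx := xK_mul_xinv
      have hww : iwK * wK = 1 := by rw [mul_comm, wK_mul_iwK]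
      have hi : b i - (n : K) * qn * PowerSeries.coeff 2 (D i).1
          = if i = 0 then 0 else xinv * (xK * b 1 - yK * b 0) := by
        rw [hqn]
        fin_cases i
        · simp only [Fin.zero_eta, if_true, hG.lead_x]
          linear_combination (-(b 0) * xinv * xK * iwK * wK) * hnc
            + (-(b 0) * xinv * xK) * hww + (-(b 0)) * hxx
        · simp only [Fin.mk_one, Fin.isValue, one_ne_zero, if_false, hG.lead_y]
          linear_combination (-(b 0) * xinv * yK * iwK * wK) * hnc
            + (-(b 0) * xinv * yK) * hww + (-(b 1)) * hxx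
      rw [hi]
      split
      · exact reg_zero
      · exact reg_xinv.mul hbreg
  · intro m hm
    have hA3 : PowerSeries.coeff m (det2 (E3 0) (E3 1)) = PowerSeries.coeff m (det2 (E2 0) (E2 1)) := by
      have e : det2 (E3 0) (E3 1) = det2 (E2 0) (E2 1)
          + (PowerSeries.monomial (n + 2) (av 0) * (E2 1).2
            - PowerSeries.monomial (n + 2) (av 1) * (E2 0).2) := by
        simp only [hE3, det2, vmon, Prod.fst_add, Prod.snd_add, map_zero, add_zero]; ring
      have hb4 : ∀ i, Low 4 (E2 i).2 := fun i => low_S_iff.2 fun k hk => by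
        rw [(hsame i k (by omega)).2]; exact hG.lead_horizontal i k hk
      rw [e, map_add, map_sub, low_S_iff.1 (low_mul (low_monomial _ _) (hb4 1)) m (by omega),
        low_S_iff.1 (low_mul (low_monomial _ _) (hb4 0)) m (by omega)]
      simp
    have h := low_S_iff.1 hdet m (by omega)
    rw [map_sub, map_sub, PowerSeries.coeff_monomial] at h
    rw [hA3]
    rcases Nat.lt_or_ge m (n + 4) with hm' | hm'
    · rw [if_neg (by omega), sub_zero, sub_eq_zero] at h
      rw [h]; exact hG.det m (by omega)
    · obtain rfl : m = n + 4 := by omega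
      rw [if_pos rfl, (hg11 (by omega)).1] at h
      rw [if_neg (by omega)]
      linear_combination h

/-- The truncation of a family of fields stabilises. -/
theorem truncV_congr {N : ℕ} {D E : VF}
    (h : ∀ m ≤ N, PowerSeries.coeff m D.1 = PowerSeries.coeff m E.1 ∧
      PowerSeries.coeff m D.2 = PowerSeries.coeff m E.2) : Low (N + 1) (D - E) :=
  low_VF.2 fun m hm => by
    rw [Prod.fst_sub, Prod.snd_sub, map_sub, map_sub, (h m (by omega)).1, (h m (by omega)).2]
    simp

theorem exists_model (C : Cert) : Nonempty Model := by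
  classical
  let St : ℕ → Type := fun n => {x : (ℕ → K) × (Fin 2 → VF) //
    Good n x.1 x.2 ∧ (n = 5 → ∀ p, ((PowerSeries.coeff 9
      (det2 (truncV 6 (tauVF x.1 4 (x.2 0))) (truncV 6 (tauVF x.1 4 (x.2 1))))) p).coeff 0 = 0)}
  have h0 : Good 5 C.q C.D :=
    ⟨C.q_one, C.glob, C.lead_low, C.lead_horizontal, C.lead_x, C.lead_y, C.reg,
      fun m hm => C.det m (by omega)⟩
  have hstep : ∀ (k : ℕ) (s : St (5 + k)), ∃ s' : St (5 + (k + 1)),
      (∀ j, j ≠ 5 + k → s'.1.1 j = s.1.1 j) ∧
      ∀ i, ∀ m ≤ 5 + k, PowerSeries.coeff m (s'.1.2 i).1 = PowerSeries.coeff m (s.1.2 i).1 ∧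
        PowerSeries.coeff m (s'.1.2 i).2 = PowerSeries.coeff m (s.1.2 i).2 := fun k s => by
    obtain ⟨q', D', h1, h2, h3⟩ := step_exists (by omega) s.2.1 s.2.2
    exact ⟨⟨(q', D'), h1, fun h => absurd h (by omega)⟩, h2, h3⟩
  choose next hq hD using hstep
  let st : (k : ℕ) → St (5 + k) := fun k => Nat.rec (motive := fun k => St (5 + k))
    ⟨(C.q, C.D), h0, fun _ => C.cross_five⟩ next k
  have hst : ∀ k, st (k + 1) = next k (st k) := fun k => rfl
  have sq : ∀ {k l : ℕ}, k ≤ l → ∀ j < 5 + k, (st l).1.1 j = (st k).1.1 j := by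
    intro k l hkl j hj
    induction l, hkl using Nat.le_induction with
    | base => rfl
    | succ l hl ih => rw [hst, hq l (st l) j (by omega), ih]
  have sD : ∀ {k l : ℕ}, k ≤ l → ∀ i, ∀ m ≤ 5 + k,
      PowerSeries.coeff m ((st l).1.2 i).1 = PowerSeries.coeff m ((st k).1.2 i).1 ∧
      PowerSeries.coeff m ((st l).1.2 i).2 = PowerSeries.coeff m ((st k).1.2 i).2 := by
    intro k l hkl i m hm
    induction l, hkl using Nat.le_induction with
    | base => exact ⟨rfl, rfl⟩
    | succ l hl ih =>
      rw [hst]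
      exact ⟨((hD l (st l) i m (by omega)).1).trans ih.1,
        ((hD l (st l) i m (by omega)).2).trans ih.2⟩
  let q : ℕ → K := fun j => (st j).1.1 j
  let D : Fin 2 → VF := fun i => (PowerSeries.mk fun m => PowerSeries.coeff m ((st m).1.2 i).1,
    PowerSeries.mk fun m => PowerSeries.coeff m ((st m).1.2 i).2)
  have hqeq : ∀ {k j : ℕ}, j < 5 + k → q j = (st k).1.1 j := by
    intro k j hj
    rcases le_total j k with h | h
    · exact (sq h j (by omega)).symm
    · exact sq h j hj
  have hDeq : ∀ {k : ℕ} (i : Fin 2), ∀ m ≤ 5 + k,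
      PowerSeries.coeff m (D i).1 = PowerSeries.coeff m ((st k).1.2 i).1 ∧
      PowerSeries.coeff m (D i).2 = PowerSeries.coeff m ((st k).1.2 i).2 := by
    intro k i m hm
    simp only [D, PowerSeries.coeff_mk]
    rcases le_total m k with h | h
    · exact ⟨((sD h i m (by omega)).1).symm, ((sD h i m (by omega)).2).symm⟩
    · exact sD h i m hm
  let T : S →ₗ[ℂ] S :=
    { toFun := fun f => PowerSeries.mk fun m => PowerSeries.coeff m (tauS q m f)
      map_add' := fun f g => PowerSeries.ext fun m => by simp
      map_smul' := fun c f => PowerSeries.ext fun m => by simp }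
  let TV : VF → VF := fun E => (PowerSeries.mk fun m => PowerSeries.coeff m (tauVF q m E).1,
    PowerSeries.mk fun m => PowerSeries.coeff m (tauVF q m E).2)
  have hT : ∀ (N : ℕ) (f : S), Low (N + 1) (T f - tauS q N f) := fun N f =>
    low_S_iff.2 fun m hm => by
      have := low_S_iff.1 (tauS_stable q f (show m ≤ N by omega)) m (by omega)
      rw [map_sub, sub_eq_zero] at this
      have e : PowerSeries.coeff m (T f) = PowerSeries.coeff m (tauS q m f) :=
        PowerSeries.coeff_mk m fun j => PowerSeries.coeff j (tauS q j f)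
      rw [map_sub, e, this, sub_self]
  have hTV : ∀ (N : ℕ) (E : VF), Low (N + 1) (TV E - tauVF q N E) := fun N E =>
    low_VF.2 fun m hm => by
      have := low_VF.1 (tauVF_stable q E (show m ≤ N by omega)) m (by omega)
      simp only [Prod.fst_sub, Prod.snd_sub, map_sub, sub_eq_zero] at this
      simp only [TV, Prod.fst_sub, Prod.snd_sub, map_sub, PowerSeries.coeff_mk, this.1, this.2,
        sub_self, and_self]
  have hTc : ∀ (N : ℕ) (f : S), PowerSeries.coeff N (T f) = PowerSeries.coeff N (tauS q N f) :=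
    fun N f => by simp [T]
  have hmul : ∀ f g, T (f * g) = T f * T g := fun f g => PowerSeries.ext fun m => by
    rw [hTc, tauS_mul]
    have h1 := low_mul (hT m f) (low_zero (T g))
    have h2 := low_mul (low_zero (tauS q m f)) (hT m g)
    have := low_S_iff.1 (h1.add (h2.mono (by omega))) m (by omega)
    have e : (T f - tauS q m f) * T g + tauS q m f * (T g - tauS q m g)
        = T f * T g - tauS q m f * tauS q m g := by ring
    rw [e, map_sub, sub_eq_zero] at this
    exact this.symm
  have hone : T 1 = 1 := PowerSeries.ext fun m => by rw [hTc, tauS_one]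
  have hlow : ∀ (n : ℕ) (f : S), Low n f → Low (n + 1) (T f - f) := fun n f hf => by
    have h := (hT n f).add (tauS_low q n hf).2
    rwa [sub_add_sub_cancel] at h
  have hinj : Function.Injective T := by
    intro f g hfg
    rw [← sub_eq_zero]
    have : ∀ n, Low n (f - g) := by
      intro n
      induction n with
      | zero => exact low_zero _
      | succ n ih =>
        have h := hlow n _ ih
        rw [map_sub, hfg, sub_self, zero_sub] at h
        exact low_S_iff.2 fun m hm => by
          have := low_S_iff.1 h m hm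
          rwa [map_neg, neg_eq_zero] at this
    exact PowerSeries.ext fun m => by
      simpa using low_S_iff.1 (this (m + 1)) m (by omega)
  have hsurj : Function.Surjective T := by
    intro g
    let seq : ℕ → S := fun n => Nat.rec (0 : S)
      (fun n f => f + PowerSeries.monomial n (PowerSeries.coeff n g - PowerSeries.coeff n (T f))) n
    have hseq : ∀ n, Low n (T (seq n) - g) := by
      intro n
      induction n with
      | zero => exact low_zero _
      | succ n ih =>
        set c := PowerSeries.coeff n g - PowerSeries.coeff n (T (seq n)) with hc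
        have h := hlow n _ (low_monomial n c)
        show Low (n + 1) (T (seq n + PowerSeries.monomial n c) - g)
        rw [map_add, show T (seq n) + T (PowerSeries.monomial n c) - g
          = (T (seq n) - g + PowerSeries.monomial n c)
            + (T (PowerSeries.monomial n c) - PowerSeries.monomial n c) by ring]
        refine Low.add (low_S_iff.2 fun m hm => ?_) h
        rcases Nat.lt_or_ge m n with hm' | hm'
        · rw [map_add, low_S_iff.1 ih m hm', PowerSeries.coeff_monomial, if_neg (by omega),
            add_zero]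
        · obtain rfl : m = n := by omega
          rw [map_add, map_sub, PowerSeries.coeff_monomial, if_pos rfl, hc]
          ring
    refine ⟨PowerSeries.mk fun m => PowerSeries.coeff m (seq (m + 1)), PowerSeries.ext fun m => ?_⟩
    have hst' : ∀ {a b : ℕ}, a ≤ b → ∀ k < a,
        PowerSeries.coeff k (seq b) = PowerSeries.coeff k (seq a) := by
      intro a b hab k hk
      induction b, hab using Nat.le_induction with
      | base => rfl
      | succ b hb ih =>
        show PowerSeries.coeff k (seq b + PowerSeries.monomial b _) = _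
        rw [map_add, PowerSeries.coeff_monomial, if_neg (by omega), add_zero, ih]
    set f := PowerSeries.mk fun k => PowerSeries.coeff k (seq (k + 1)) with hf
    have hl : Low (m + 1) (f - seq (m + 1)) := low_S_iff.2 fun k hk => by
      rw [map_sub, hf, PowerSeries.coeff_mk, hst' (show k + 1 ≤ m + 1 by omega) k (by omega),
        sub_self]
    have h1 := ((hlow _ _ hl).mono (Nat.le_succ (m + 1))).add hl
    rw [sub_add_cancel, map_sub] at h1
    have h2 := h1.add (hseq (m + 1))
    rw [sub_add_sub_cancel] at h2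
    have := low_S_iff.1 h2 m (by omega)
    rwa [map_sub, sub_eq_zero] at this
  have hTd : ∀ i, Low 2 (D i) := fun i => low_VF.2 fun m hm =>
    ⟨((hDeq (k := 0) i m (by omega)).1).trans ((st 0).2.1.lead_low i m hm),
      ((hDeq (k := 0) i m (by omega)).2).trans ((st 0).2.1.lead_horizontal i m (by omega))⟩
  refine ⟨{
    tau := AlgEquiv.ofBijective
      (AlgHom.ofLinearMap T hone hmul) ⟨hinj, hsurj⟩
    tauV := TV
    tau_act := fun E f => ?_
    tau_low := hlow
    D := D
    glob := fun i n => ?_
    reg := fun i => ?_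
    det_low := fun n hn => ?_
    det_six := ?_ }⟩
  · show T (act E f) = act (TV E) (T f)
    refine PowerSeries.ext fun m => ?_
    rw [hTc, tauS_act]
    have h1 := low_act (hTV m E) (low_zero (T f))
    have h2 := low_act (low_zero (tauVF q m E)) (hT m f)
    have := low_S_iff.1 (h1.add (h2.mono (by omega))) m (by omega)
    have e : act (TV E - tauVF q m E) (T f) + act (tauVF q m E) (T f - tauS q m f)
        = act (TV E) (T f) - act (tauVF q m E) (tauS q m f) := by
      have a1 := congrFun (congrArg DFunLike.coe (map_sub actB (TV E) (tauVF q m E))) (T f)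
      have a2 := map_sub (actB (tauVF q m E)) (T f) (tauS q m f)
      change act (TV E - tauVF q m E) (T f) = act (TV E) (T f) - act (tauVF q m E) (T f) at a1
      change act (tauVF q m E) (T f - tauS q m f)
        = act (tauVF q m E) (T f) - act (tauVF q m E) (tauS q m f) at a2
      rw [a1, a2]; ring
    rw [e, map_sub, sub_eq_zero] at this
    exact this.symm
  · rw [(hDeq (k := n) i n (by omega)).1, (hDeq (k := n) i n (by omega)).2]
    exact (st n).2.1.glob i n
  · have key : ∀ m, Reg (PowerSeries.coeff m (TV (D i)).1) ∧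
        Reg (PowerSeries.coeff m (TV (D i)).2) := by
      intro m
      have h := (st m).2.1.reg i m (by omega)
      rw [show 5 + m - 1 = m + 4 by omega] at h
      have hqq : tauVF q (m + 4) = tauVF (st m).1.1 (m + 4) :=
        tauVF_congr fun j hj => hqeq (by omega)
      have hd : Low (m + 1) (D i - (st m).1.2 i) :=
        truncV_congr fun j hj => hDeq i j (by omega)
      have h1 := low_VF.1 (tauVF_low q (m + 4) hd).1 m (by omega)
      have h2 := low_VF.1 (hTV (m + 4) (D i)) m (by omega)
      simp only [map_sub, Prod.fst_sub, Prod.snd_sub, sub_eq_zero] at h1 h2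
      rw [h2.1, h2.2, h1.1, h1.2, hqq]
      exact h
    exact ⟨fun m => (key m).1, fun m => (key m).2⟩
  · have key : PowerSeries.coeff n (det2 (D 0) (D 1))
        = PowerSeries.coeff n (det2 ((st 0).1.2 0) ((st 0).1.2 1)) := by
      have e : det2 (D 0) (D 1) - det2 ((st 0).1.2 0) ((st 0).1.2 1)
          = det2 (D 0 - (st 0).1.2 0) (D 1) + det2 ((st 0).1.2 0) (D 1 - (st 0).1.2 1) := by
        simp only [det2, Prod.fst_sub, Prod.snd_sub]; ring
      have h1 := low_det2 (truncV_congr (N := 5) fun j hj => hDeq (k := 0) 0 j (by omega))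
        (low_zero (D 1))
      have h2 := low_det2 (low_zero ((st 0).1.2 0))
        (truncV_congr (N := 5) fun j hj => hDeq (k := 0) 1 j (by omega))
      have := low_S_iff.1 ((h1.mono (by omega : 6 ≤ _)).add (h2.mono (by omega : 6 ≤ _))) n hn
      rw [← e, map_sub, sub_eq_zero] at this
      exact this
    rw [key, (st 0).2.1.det n (by omega), if_neg (by omega)]
  · have key : PowerSeries.coeff 6 (det2 (D 0) (D 1))
        = PowerSeries.coeff 6 (det2 ((st 2).1.2 0) ((st 2).1.2 1)) := by
      have e : det2 (D 0) (D 1) - det2 ((st 2).1.2 0) ((st 2).1.2 1)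
          = det2 (D 0 - (st 2).1.2 0) (D 1) + det2 ((st 2).1.2 0) (D 1 - (st 2).1.2 1) := by
        simp only [det2, Prod.fst_sub, Prod.snd_sub]; ring
      have h1 := low_det2 (truncV_congr (N := 7) fun j hj => hDeq (k := 2) 0 j (by omega))
        (low_zero (D 1))
      have h2 := low_det2 (low_zero ((st 2).1.2 0))
        (truncV_congr (N := 7) fun j hj => hDeq (k := 2) 1 j (by omega))
      have := low_S_iff.1 ((h1.mono (by omega : 8 ≤ _)).add (h2.mono (by omega : 8 ≤ _))) 6 (by omega)
      rw [← e, map_sub, sub_eq_zero] at this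
      exact this
    rw [key, (st 2).2.1.det 6 (by omega), if_pos rfl]

end

end P266
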