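import Vale.Agent.P266.Normal
import Vale.Agent.P266.DerFree
import Vale.Agent.P266.Cert
import Vale.Agent.P266.Recursion
import Vale.Agent.P266.Alg.Defs

/-!
P266: the formal counterexample as a germ.
-/

namespace P266

noncomputable section

theorem Model.isGerm (M : Model) : Vale.Agent.P266.Alg.IsGerm M.ring where
  domain := inferInstance
  noetherian := M.isNoetherianRing
  complete := M.isAdicComplete
  closed := M.isIntegrallyClosed
  residue := M.residue_surjective
  dim := M.ringKrullDim

/-- A singular normal formal surface germ with free module of derivations. -/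
theorem exists_singular_germ :
    ∃ (R : Type) (_ : CommRing R) (_ : Algebra ℂ R) (_ : IsLocalRing R),
      Vale.Agent.P266.Alg.IsGerm R ∧ ¬ IsRegularLocalRing R ∧
      Nonempty (Module.Basis (Fin 2) R (Derivation ℂ R R)) := by
  obtain ⟨C⟩ := exists_cert
  obtain ⟨M⟩ := exists_model C
  exact ⟨M.ring, inferInstance, inferInstance, inferInstance, M.isGerm, M.not_regular, M.der_free⟩

end

end P266
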