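import Vale.Agent.P266.CertX

/-!
P266: monomials, gauges and the global fields.
-/

namespace P266

noncomputable section

theorem char_0_10 : ∀ p, pa p * ((1 : ℕ) : ℂ) = pa p * rowVal (ps p) [1, 0, 0, 0, 0] := by
  intro p
  have ha := pa_pow p
  have hb := pb_pow p
  simp only [rowVal, ps, one', Nat.cast_one, Int.cast_zero, Int.cast_one, Int.cast_ofNat]
  ring

theorem char_0_21 : ∀ p, (fun p => (fun p => pa p * pa p) p * pb p) p * ((1 : ℕ) : ℂ) = pa p * rowVal (ps p) [0, 1, 0, 0, 0] := by
  intro p
  have ha := pa_pow p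
  have hb := pb_pow p
  simp only [rowVal, ps, one', Nat.cast_one, Int.cast_zero, Int.cast_one, Int.cast_ofNat]
  ring

theorem char_0_32 : ∀ p, (fun p => (fun p => (fun p => pa p * pa p) p * pa p) p * (fun p => pb p * pb p) p) p * ((1 : ℕ) : ℂ) = pa p * rowVal (ps p) [0, 0, 1, 0, 0] := by
  intro p
  have ha := pa_pow p
  have hb := pb_pow p
  simp only [rowVal, ps, one', Nat.cast_one, Int.cast_zero, Int.cast_one, Int.cast_ofNat]
  ring

theorem char_0_43 : ∀ p, (fun p => (fun p => (fun p => (fun p => pa p * pa p) p * pa p) p * pa p) p * (fun p => (fun p => pb p * pb p) p * pb p) p) p * ((1 : ℕ) : ℂ) = pa p * rowVal (ps p) [0, 0, 0, 1, 0] := by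
  intro p
  have ha := pa_pow p
  have hb := pb_pow p
  simp only [rowVal, ps, one', Nat.cast_one, Int.cast_zero, Int.cast_one, Int.cast_ofNat]
  ring

theorem char_0_04 : ∀ p, (fun p => (fun p => (fun p => pb p * pb p) p * pb p) p * pb p) p * ((1 : ℕ) : ℂ) = pa p * rowVal (ps p) [0, 0, 0, 0, 1] := by
  intro p
  have ha := pa_pow p
  have hb := pb_pow p
  simp only [rowVal, ps, one', Nat.cast_one, Int.cast_zero, Int.cast_one, Int.cast_ofNat]
  linear_combination (-(pb p ^ 4)) * ha

theorem char_1_01 : ∀ p, pb p * ((1 : ℕ) : ℂ) = pb p * rowVal (ps p) [1, 0, 0, 0, 0] := by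
  intro p
  have ha := pa_pow p
  have hb := pb_pow p
  simp only [rowVal, ps, one', Nat.cast_one, Int.cast_zero, Int.cast_one, Int.cast_ofNat]
  ring

theorem char_1_12 : ∀ p, (fun p => pa p * (fun p => pb p * pb p) p) p * ((1 : ℕ) : ℂ) = pb p * rowVal (ps p) [0, 1, 0, 0, 0] := by
  intro p
  have ha := pa_pow p
  have hb := pb_pow p
  simp only [rowVal, ps, one', Nat.cast_one, Int.cast_zero, Int.cast_one, Int.cast_ofNat]
  ring

theorem char_1_23 : ∀ p, (fun p => (fun p => pa p * pa p) p * (fun p => (fun p => pb p * pb p) p * pb p) p) p * ((1 : ℕ) : ℂ) = pb p * rowVal (ps p) [0, 0, 1, 0, 0] := by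
  intro p
  have ha := pa_pow p
  have hb := pb_pow p
  simp only [rowVal, ps, one', Nat.cast_one, Int.cast_zero, Int.cast_one, Int.cast_ofNat]
  ring

theorem char_1_34 : ∀ p, (fun p => (fun p => (fun p => pa p * pa p) p * pa p) p * (fun p => (fun p => (fun p => pb p * pb p) p * pb p) p * pb p) p) p * ((1 : ℕ) : ℂ) = pb p * rowVal (ps p) [0, 0, 0, 1, 0] := by
  intro p
  have ha := pa_pow p
  have hb := pb_pow p
  simp only [rowVal, ps, one', Nat.cast_one, Int.cast_zero, Int.cast_one, Int.cast_ofNat]
  ring

theorem char_1_40 : ∀ p, (fun p => (fun p => (fun p => pa p * pa p) p * pa p) p * pa p) p * ((1 : ℕ) : ℂ) = pb p * rowVal (ps p) [0, 0, 0, 0, 90] := by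
  intro p
  have ha := pa_pow p
  have hb := pb_pow p
  simp only [rowVal, ps, one', Nat.cast_one, Int.cast_zero, Int.cast_one, Int.cast_ofNat]
  linear_combination (-(pa p ^ 4)) * hb

theorem char_j1 : ∀ p, (fun p => (fun p => (fun p => (fun p => pa p * pa p) p * pa p) p * pa p) p * (fun p => (fun p => (fun p => pb p * pb p) p * pb p) p * pb p) p) p * ((1 : ℕ) : ℂ) = one' p * rowVal (ps p) [0, 0, 0, 0, 1] := by
  intro p
  have ha := pa_pow p
  have hb := pb_pow p
  simp only [rowVal, ps, one', Nat.cast_one, Int.cast_zero, Int.cast_one, Int.cast_ofNat]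
  ring

theorem char_j2 : ∀ p, (fun p => (fun p => (fun p => (fun p => pa p * pa p) p * pa p) p * pa p) p * pa p) p * ((1 : ℕ) : ℂ) = one' p * rowVal (ps p) [1] := by
  intro p
  have ha := pa_pow p
  have hb := pb_pow p
  simp only [rowVal, ps, one', Nat.cast_one, Int.cast_zero, Int.cast_one, Int.cast_ofNat]
  linear_combination ha

theorem char_j3 : ∀ p, (fun p => (fun p => (fun p => (fun p => (fun p => (fun p => pa p * pa p) p * pa p) p * pa p) p * pa p) p * pa p) p * pb p) p * ((1 : ℕ) : ℂ) = one' p * rowVal (ps p) [0, 1] := by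
  intro p
  have ha := pa_pow p
  have hb := pb_pow p
  simp only [rowVal, ps, one', Nat.cast_one, Int.cast_zero, Int.cast_one, Int.cast_ofNat]
  linear_combination (pa p * pb p) * ha

theorem char_one : ∀ p, one' p * ((1 : ℕ) : ℂ) = (fun p => pa p * pb p) p * rowVal (ps p) [0, 0, 0, 0, 90] := by
  intro p
  have ha := pa_pow p
  have hb := pb_pow p
  simp only [rowVal, ps, one', Nat.cast_one, Int.cast_zero, Int.cast_one, Int.cast_ofNat]
  linear_combination (-(90 * pb p ^ 5)) * ha - hb

/-- Certificate node. -/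
def px2 : K := (xK * xK)

theorem r_px2 : Rep (fun p => pa p * pa p) (0) 125 20 (.lit L_px2) px2 :=
  ((((rep_xK).mul (M := 20) (rep_xK) (by norm_num) (by norm_num))).norm L_px2 Q_px2 125 23 20 (by norm_num) (by norm_num) (by decide +kernel)).cast
    (by norm_num) rfl rfl

/-- Certificate node. -/
def px3 : K := (px2 * xK)

theorem r_px3 : Rep (fun p => (fun p => pa p * pa p) p * pa p) (0) 125 20 (.lit L_px3) px3 :=
  ((((r_px2).mul (M := 20) (rep_xK) (by norm_num) (by norm_num))).norm L_px3 Q_px3 125 23 20 (by norm_num) (by norm_num) (by decide +kernel)).cast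
    (by norm_num) rfl rfl

/-- Certificate node. -/
def px4 : K := (px3 * xK)

theorem r_px4 : Rep (fun p => (fun p => (fun p => pa p * pa p) p * pa p) p * pa p) (0) 125 20 (.lit L_px4) px4 :=
  ((((r_px3).mul (M := 20) (rep_xK) (by norm_num) (by norm_num))).norm L_px4 Q_px4 125 23 20 (by norm_num) (by norm_num) (by decide +kernel)).cast
    (by norm_num) rfl rfl

/-- Certificate node. -/
def px5 : K := (px4 * xK)

theorem r_px5 : Rep (fun p => (fun p => (fun p => (fun p => pa p * pa p) p * pa p) p * pa p) p * pa p) (0) 1 20 (.lit L_px5) px5 :=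
  ((((r_px4).mul (M := 20) (rep_xK) (by norm_num) (by norm_num))).norm L_px5 Q_px5 1 17 20 (by norm_num) (by norm_num) (by decide +kernel)).cast
    (by norm_num) rfl rfl

/-- Certificate node. -/
def px6 : K := (px5 * xK)

theorem r_px6 : Rep (fun p => (fun p => (fun p => (fun p => (fun p => pa p * pa p) p * pa p) p * pa p) p * pa p) p * pa p) (0) 125 20 (.lit L_px6) px6 :=
  ((((r_px5).mul (M := 20) (rep_xK) (by norm_num) (by norm_num))).norm L_px6 Q_px6 125 17 20 (by norm_num) (by norm_num) (by decide +kernel)).cast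
    (by norm_num) rfl rfl

/-- Certificate node. -/
def py2 : K := (yK * yK)

theorem r_py2 : Rep (fun p => pb p * pb p) (0) 298023223876953125 20 (.lit L_py2) py2 :=
  ((((rep_yK).mul (M := 20) (rep_yK) (by norm_num) (by norm_num))).norm L_py2 Q_py2 298023223876953125 248 20 (by norm_num) (by norm_num) (by decide +kernel)).cast
    (by norm_num) rfl rfl

/-- Certificate node. -/
def py3 : K := (py2 * yK)

theorem r_py3 : Rep (fun p => (fun p => pb p * pb p) p * pb p) (0) 298023223876953125 20 (.lit L_py3) py3 :=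
  ((((r_py2).mul (M := 20) (rep_yK) (by norm_num) (by norm_num))).norm L_py3 Q_py3 298023223876953125 249 20 (by norm_num) (by norm_num) (by decide +kernel)).cast
    (by norm_num) rfl rfl

/-- Certificate node. -/
def py4 : K := (py3 * yK)

theorem r_py4 : Rep (fun p => (fun p => (fun p => pb p * pb p) p * pb p) p * pb p) (0) 298023223876953125 20 (.lit L_py4) py4 :=
  ((((r_py3).mul (M := 20) (rep_yK) (by norm_num) (by norm_num))).norm L_py4 Q_py4 298023223876953125 250 20 (by norm_num) (by norm_num) (by decide +kernel)).cast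
    (by norm_num) rfl rfl

/-- Certificate node. -/
def m0_10 : K := xK

theorem r_m0_10 : Rep pa (0) 125 20 (.lit L_m0_10) m0_10 :=
  ((((rep_xK).reChar (ν := pa) [1, 0, 0, 0, 0] 1 (by norm_num) char_0_10)).norm L_m0_10 Q_m0_10 125 16 20 (by norm_num) (by norm_num) (by decide +kernel)).cast
    (by norm_num) rfl rfl

theorem e_m0_10 : m0_10 = xK ^ 1 * yK ^ 0 := by
  simp only [m0_10, px2, px3, px4, py2, py3, py4]
  ring

/-- Certificate node. -/
def m0_21 : K := (px2 * yK)

theorem r_m0_21 : Rep pa (0) 298023223876953125 20 (.lit L_m0_21) m0_21 :=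
  ((((((r_px2).mul (M := 20) (rep_yK) (by norm_num) (by norm_num))).reChar (ν := pa) [0, 1, 0, 0, 0] 1 (by norm_num) char_0_21)).norm L_m0_21 Q_m0_21 298023223876953125 162 20 (by norm_num) (by norm_num) (by decide +kernel)).cast
    (by norm_num) rfl rfl

theorem e_m0_21 : m0_21 = xK ^ 2 * yK ^ 1 := by
  simp only [m0_21, px2, px3, px4, py2, py3, py4]
  ring

/-- Certificate node. -/
def m0_32 : K := (px3 * py2)

theorem r_m0_32 : Rep pa (0) 1490116119384765625 20 (.lit L_m0_32) m0_32 :=
  ((((((r_px3).mul (M := 20) (r_py2) (by norm_num) (by norm_num))).reChar (ν := pa) [0, 0, 1, 0, 0] 1 (by norm_num) char_0_32)).norm L_m0_32 Q_m0_32 1490116119384765625 165 20 (by norm_num) (by norm_num) (by decide +kernel)).cast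
    (by norm_num) rfl rfl

theorem e_m0_32 : m0_32 = xK ^ 3 * yK ^ 2 := by
  simp only [m0_32, px2, px3, px4, py2, py3, py4]
  ring

/-- Certificate node. -/
def m0_43 : K := (px4 * py3)

theorem r_m0_43 : Rep pa (0) 1490116119384765625 20 (.lit L_m0_43) m0_43 :=
  ((((((r_px4).mul (M := 20) (r_py3) (by norm_num) (by norm_num))).reChar (ν := pa) [0, 0, 0, 1, 0] 1 (by norm_num) char_0_43)).norm L_m0_43 Q_m0_43 1490116119384765625 166 20 (by norm_num) (by norm_num) (by decide +kernel)).cast
    (by norm_num) rfl rfl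

theorem e_m0_43 : m0_43 = xK ^ 4 * yK ^ 3 := by
  simp only [m0_43, px2, px3, px4, py2, py3, py4]
  ring

/-- Certificate node. -/
def m0_04 : K := py4

theorem r_m0_04 : Rep pa (0) 4470348358154296875 20 (.lit L_m0_04) m0_04 :=
  ((((r_py4).reChar (ν := pa) [0, 0, 0, 0, 1] 1 (by norm_num) char_0_04)).norm L_m0_04 Q_m0_04 4470348358154296875 161 20 (by norm_num) (by norm_num) (by decide +kernel)).cast
    (by norm_num) rfl rfl

theorem e_m0_04 : m0_04 = xK ^ 0 * yK ^ 4 := by
  simp only [m0_04, px2, px3, px4, py2, py3, py4]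
  ring

/-- Certificate node. -/
def m1_01 : K := yK

theorem r_m1_01 : Rep pb (0) 298023223876953125 20 (.lit L_m1_01) m1_01 :=
  ((((rep_yK).reChar (ν := pb) [1, 0, 0, 0, 0] 1 (by norm_num) char_1_01)).norm L_m1_01 Q_m1_01 298023223876953125 155 20 (by norm_num) (by norm_num) (by decide +kernel)).cast
    (by norm_num) rfl rfl

theorem e_m1_01 : m1_01 = xK ^ 0 * yK ^ 1 := by
  simp only [m1_01, px2, px3, px4, py2, py3, py4]
  ring

/-- Certificate node. -/
def m1_12 : K := (xK * py2)

theorem r_m1_12 : Rep pb (0) 1490116119384765625 20 (.lit L_m1_12) m1_12 :=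
  ((((((rep_xK).mul (M := 20) (r_py2) (by norm_num) (by norm_num))).reChar (ν := pb) [0, 1, 0, 0, 0] 1 (by norm_num) char_1_12)).norm L_m1_12 Q_m1_12 1490116119384765625 165 20 (by norm_num) (by norm_num) (by decide +kernel)).cast
    (by norm_num) rfl rfl

theorem e_m1_12 : m1_12 = xK ^ 1 * yK ^ 2 := by
  simp only [m1_12, px2, px3, px4, py2, py3, py4]
  ring

/-- Certificate node. -/
def m1_23 : K := (px2 * py3)

theorem r_m1_23 : Rep pb (0) 1490116119384765625 20 (.lit L_m1_23) m1_23 :=
  ((((((r_px2).mul (M := 20) (r_py3) (by norm_num) (by norm_num))).reChar (ν := pb) [0, 0, 1, 0, 0] 1 (by norm_num) char_1_23)).norm L_m1_23 Q_m1_23 1490116119384765625 166 20 (by norm_num) (by norm_num) (by decide +kernel)).cast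
    (by norm_num) rfl rfl

theorem e_m1_23 : m1_23 = xK ^ 2 * yK ^ 3 := by
  simp only [m1_23, px2, px3, px4, py2, py3, py4]
  ring

/-- Certificate node. -/
def m1_34 : K := (px3 * py4)

theorem r_m1_34 : Rep pb (0) 4470348358154296875 20 (.lit L_m1_34) m1_34 :=
  ((((((r_px3).mul (M := 20) (r_py4) (by norm_num) (by norm_num))).reChar (ν := pb) [0, 0, 0, 1, 0] 1 (by norm_num) char_1_34)).norm L_m1_34 Q_m1_34 4470348358154296875 168 20 (by norm_num) (by norm_num) (by decide +kernel)).cast
    (by norm_num) rfl rfl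

theorem e_m1_34 : m1_34 = xK ^ 3 * yK ^ 4 := by
  simp only [m1_34, px2, px3, px4, py2, py3, py4]
  ring

/-- Certificate node. -/
def m1_40 : K := px4

theorem r_m1_40 : Rep pb (0) 25 20 (.lit L_m1_40) m1_40 :=
  ((((r_px4).reChar (ν := pb) [0, 0, 0, 0, 90] 1 (by norm_num) char_1_40)).norm L_m1_40 Q_m1_40 25 21 20 (by norm_num) (by norm_num) (by decide +kernel)).cast
    (by norm_num) rfl rfl

theorem e_m1_40 : m1_40 = xK ^ 4 * yK ^ 0 := by
  simp only [m1_40, px2, px3, px4, py2, py3, py4]
  ring

/-- Certificate node. -/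
def j1 : K := (px4 * py4)

theorem r_j1 : Rep one' (0) 4470348358154296875 20 (.lit L_j1) j1 :=
  ((((((r_px4).mul (M := 20) (r_py4) (by norm_num) (by norm_num))).reChar (ν := one') [0, 0, 0, 0, 1] 1 (by norm_num) char_j1)).norm L_j1 Q_j1 4470348358154296875 168 20 (by norm_num) (by norm_num) (by decide +kernel)).cast
    (by norm_num) rfl rfl

/-- Certificate node. -/
def j2 : K := (wK * px5)

theorem r_j2 : Rep one' (1) 1 20 (.lit L_j2) j2 :=
  (((((rep_wK 40)).oneMul (((r_px5).reChar (ν := one') [1] 1 (by norm_num) char_j2)) 20 (by norm_num) (by norm_num))).norm L_j2 Q_j2 1 3 20 (by norm_num) (by norm_num) (by decide +kernel)).cast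
    (by norm_num) rfl rfl

/-- Certificate node. -/
def j3 : K := (wK * (px6 * yK))

theorem r_j3 : Rep one' (1) 298023223876953125 20 (.lit L_j3) j3 :=
  (((((rep_wK 40)).oneMul (((((r_px6).mul (M := 20) (rep_yK) (by norm_num) (by norm_num))).reChar (ν := one') [0, 1] 1 (by norm_num) char_j3)) 20 (by norm_num) (by norm_num))).norm L_j3 Q_j3 298023223876953125 162 20 (by norm_num) (by norm_num) (by decide +kernel)).cast
    (by norm_num) rfl rfl

/-- Certificate node. -/
def jacN : K := (((((2250 : ℕ) : K) * j1) - (((60 : ℕ) : K) * j2)) - (((300 : ℕ) : K) * j3))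

theorem r_jacN : Rep one' (0) 11920928955078125 20 (.lit L_jacN) jacN :=
  (((((((((((((rep_const 2250 40)).oneMul (r_j1) 20 (by norm_num) (by norm_num))).cast (lo' := (0)) (den' := 4470348358154296875) (N' := 20) (by norm_num) (by norm_num) (by norm_num))).sub ((((((((((rep_const 60 40)).oneMul (r_j2) 20 (by norm_num) (by norm_num))).shift 4470348358154296875 (by norm_num) (0) 1 (by norm_num))).mono (N' := 20) (by norm_num))).cast (lo' := (0)) (den' := 4470348358154296875) (N' := 20) (by norm_num) (by norm_num) (by norm_num))))).cast (lo' := (0)) (den' := 4470348358154296875) (N' := 20) (by norm_num) (by norm_num) (by norm_num))).sub ((((((((((rep_const 300 40)).oneMul (r_j3) 20 (by norm_num) (by norm_num))).shift 15 (by norm_num) (0) 1 (by norm_num))).mono (N' := 20) (by norm_num))).cast (lo' := (0)) (den' := 4470348358154296875) (N' := 20) (by norm_num) (by norm_num) (by norm_num))))).norm L_jacN Q_jacN 11920928955078125 163 20 (by norm_num) (by norm_num) (by decide +kernel)).cast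
    (by norm_num) rfl rfl

theorem rep_jac : Rep one' (0) 11920928955078125 20 (.lit L_jacN) jac := r_jacN.congr (by
  simp only [jacN, j1, j2, j3, px2, px3, px4, px5, px6, py2, py3, py4, jac]
  push_cast
  ring)

/-- Certificate node. -/
def kapN : K := (zc (-1) • (jac * iwK))

theorem r_kapN : Rep one' (-1) 11920928955078125 20 (.lit L_kapN) kapN :=
  ((((((rep_jac).oneMul ((rep_iwK 40)) 20 (by norm_num) (by norm_num))).ratMul (-1) 1 (by norm_num))).norm L_kapN Q_kapN 11920928955078125 153 20 (by norm_num) (by norm_num) (by decide +kernel)).cast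
    (by norm_num) rfl rfl

theorem rep_kap : Rep one' (-1) 11920928955078125 20 (.lit L_kapN) kap := r_kapN.congr (by
  rw [kapN, kap, zc_smul, show (((-1 : ℤ)) : K) = -1 from by funext p; simp]
  ring)

/-- Certificate node. -/
def phi1 : K := ((((1 : ℤ) : ℂ) / ((5 : ℕ) : ℂ)) • (jac * (ddw (litK (-1) 1 L_qc1))))

theorem r_phi1 : Rep one' (-2) 298023223876953125 20 (.lit L_phi1) phi1 :=
  ((((((rep_jac).oneMul ((((rep_litK (-1) 1 L_qc1 (by norm_num) 21)).ddw)) 20 (by norm_num) (by norm_num))).ratMul (1) 5 (by norm_num))).norm L_phi1 Q_phi1 298023223876953125 161 20 (by norm_num) (by norm_num) (by decide +kernel)).cast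
    (by norm_num) rfl rfl

/-- Certificate node. -/
def dq1 : K := (jac * (ddw (litK (-1) 1 L_qc1)))

theorem r_dq1 : Rep one' (-2) 59604644775390625 20 (.lit L_dq1) dq1 :=
  ((((rep_jac).oneMul ((((rep_litK (-1) 1 L_qc1 (by norm_num) 21)).ddw)) 20 (by norm_num) (by norm_num))).norm L_dq1 Q_dq1 59604644775390625 158 20 (by norm_num) (by norm_num) (by decide +kernel)).cast
    (by norm_num) rfl rfl

/-- Certificate node. -/
def dphi1 : K := (jac * (ddw phi1))

theorem r_dphi1 : Rep one' (-3) 476837158203125 20 (.lit L_dphi1) dphi1 :=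
  ((((rep_jac).oneMul (((r_phi1).ddw)) 20 (by norm_num) (by norm_num))).norm L_dphi1 Q_dphi1 476837158203125 253 20 (by norm_num) (by norm_num) (by decide +kernel)).cast
    (by norm_num) rfl rfl

/-- Certificate node. -/
def phi2 : K := ((((1 : ℤ) : ℂ) / ((4 : ℕ) : ℂ)) • (jac * (ddw (litK (-8) 390625 L_qc2))))

theorem r_phi2 : Rep one' (-9) 23841857910156250 20 (.lit L_phi2) phi2 :=
  ((((((rep_jac).oneMul ((((rep_litK (-8) 390625 L_qc2 (by norm_num) 28)).ddw)) 20 (by norm_num) (by norm_num))).ratMul (1) 4 (by norm_num))).norm L_phi2 Q_phi2 23841857910156250 188 20 (by norm_num) (by norm_num) (by decide +kernel)).cast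
    (by norm_num) rfl rfl

/-- Certificate node. -/
def dq2 : K := (jac * (ddw (litK (-8) 390625 L_qc2)))

theorem r_dq2 : Rep one' (-9) 11920928955078125 20 (.lit L_dq2) dq2 :=
  ((((rep_jac).oneMul ((((rep_litK (-8) 390625 L_qc2 (by norm_num) 28)).ddw)) 20 (by norm_num) (by norm_num))).norm L_dq2 Q_dq2 11920928955078125 187 20 (by norm_num) (by norm_num) (by decide +kernel)).cast
    (by norm_num) rfl rfl

/-- Certificate node. -/
def dphi2 : K := (jac * (ddw phi2))

theorem r_dphi2 : Rep one' (-10) 476837158203125 20 (.lit L_dphi2) dphi2 :=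
  ((((rep_jac).oneMul (((r_phi2).ddw)) 20 (by norm_num) (by norm_num))).norm L_dphi2 Q_dphi2 476837158203125 252 20 (by norm_num) (by norm_num) (by decide +kernel)).cast
    (by norm_num) rfl rfl

/-- Certificate node. -/
def phi3 : K := ((((1 : ℤ) : ℂ) / ((3 : ℕ) : ℂ)) • (jac * (ddw (litK (-10) 75012207031250000 L_qc3))))

theorem r_phi3 : Rep one' (-11) 54940581321716308593750000 20 (.lit L_phi3) phi3 :=
  ((((((rep_jac).oneMul ((((rep_litK (-10) 75012207031250000 L_qc3 (by norm_num) 30)).ddw)) 20 (by norm_num) (by norm_num))).ratMul (1) 3 (by norm_num))).norm L_phi3 Q_phi3 54940581321716308593750000 281 20 (by norm_num) (by norm_num) (by decide +kernel)).cast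
    (by norm_num) rfl rfl

/-- Certificate node. -/
def dq3 : K := (jac * (ddw (litK (-10) 75012207031250000 L_qc3)))

theorem r_dq3 : Rep one' (-11) 18313527107238769531250000 20 (.lit L_dq3) dq3 :=
  ((((rep_jac).oneMul ((((rep_litK (-10) 75012207031250000 L_qc3 (by norm_num) 30)).ddw)) 20 (by norm_num) (by norm_num))).norm L_dq3 Q_dq3 18313527107238769531250000 280 20 (by norm_num) (by norm_num) (by decide +kernel)).cast
    (by norm_num) rfl rfl

/-- Certificate node. -/
def dphi3 : K := (jac * (ddw phi3))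

theorem r_dphi3 : Rep one' (-12) 36627054214477539062500 20 (.lit L_dphi3) dphi3 :=
  ((((rep_jac).oneMul (((r_phi3).ddw)) 20 (by norm_num) (by norm_num))).norm L_dphi3 Q_dphi3 36627054214477539062500 325 20 (by norm_num) (by norm_num) (by decide +kernel)).cast
    (by norm_num) rfl rfl

/-- Certificate node. -/
def phi4 : K := ((((1 : ℤ) : ℂ) / ((2 : ℕ) : ℂ)) • (jac * (ddw (litK (-17) 236326910555362701416015625000000 L_qc4))))

theorem r_phi4 : Rep one' (-18) 1181634552776813507080078125000000 20 (.lit L_phi4) phi4 :=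
  ((((((rep_jac).oneMul ((((rep_litK (-17) 236326910555362701416015625000000 L_qc4 (by norm_num) 37)).ddw)) 20 (by norm_num) (by norm_num))).ratMul (1) 2 (by norm_num))).norm L_phi4 Q_phi4 1181634552776813507080078125000000 377 20 (by norm_num) (by norm_num) (by decide +kernel)).cast
    (by norm_num) rfl rfl

/-- Certificate node. -/
def dq4 : K := (jac * (ddw (litK (-17) 236326910555362701416015625000000 L_qc4)))

theorem r_dq4 : Rep one' (-18) 590817276388406753540039062500000 20 (.lit L_dq4) dq4 :=
  ((((rep_jac).oneMul ((((rep_litK (-17) 236326910555362701416015625000000 L_qc4 (by norm_num) 37)).ddw)) 20 (by norm_num) (by norm_num))).norm L_dq4 Q_dq4 590817276388406753540039062500000 376 20 (by norm_num) (by norm_num) (by decide +kernel)).cast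
    (by norm_num) rfl rfl

/-- Certificate node. -/
def dphi4 : K := (jac * (ddw phi4))

theorem r_dphi4 : Rep one' (-19) 7877563685178756713867187500000 20 (.lit L_dphi4) dphi4 :=
  ((((rep_jac).oneMul (((r_phi4).ddw)) 20 (by norm_num) (by norm_num))).norm L_dphi4 Q_dphi4 7877563685178756713867187500000 380 20 (by norm_num) (by norm_num) (by decide +kernel)).cast
    (by norm_num) rfl rfl

/-- Certificate node. -/
def A0_2 : K := ((litK (1) 1 L_wA02_10) * (xK ^ 1 * yK ^ 0))

theorem r_A0_2 : Rep pa (1) 125 20 (.lit L_A0_2) A0_2 :=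
  (((((((rep_litK (1) 1 L_wA02_10 (by norm_num) 40)).oneMul (r_m0_10) 20 (by norm_num) (by norm_num))).congr (g := ((litK (1) 1 L_wA02_10) * (xK ^ 1 * yK ^ 0))) (by rw [e_m0_10]))).norm L_A0_2 Q_A0_2 125 16 20 (by norm_num) (by norm_num) (by decide +kernel)).cast
    (by norm_num) rfl rfl

/-- Certificate node. -/
def D0_2 : K := (A0_2 + (kap * (0 : K)))

theorem r_D0_2 : Rep pa (-1) 125 20 (.lit L_D0_2) D0_2 :=
  ((((((((((r_A0_2).shift 95367431640625 (by norm_num) (-1) 2 (by norm_num))).mono (N' := 20) (by norm_num))).cast (lo' := (-1)) (den' := 11920928955078125) (N' := 20) (by norm_num) (by norm_num) (by norm_num))).add (((((rep_kap).oneMul ((rep_zero pa (0) 100)) 20 (by norm_num) (by norm_num))).cast (lo' := (-1)) (den' := 11920928955078125) (N' := 20) (by norm_num) (by norm_num) (by norm_num))))).norm L_D0_2 Q_D0_2 125 62 20 (by norm_num) (by norm_num) (by decide +kernel)).cast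
    (by norm_num) rfl rfl

theorem t_D0_2 : Rep pa (1) 125 18 (.lit T_D0_2) D0_2 :=
  ((r_D0_2.cast rfl rfl (by norm_num : 20 = 2 + 18)).trim 2 (by decide +kernel)).cast (by norm_num) rfl rfl |> fun h => (show L_D0_2.drop 2 = T_D0_2 by decide +kernel) ▸ h

/-- Certificate node. -/
def A0_3 : K := ((((litK (0) 1953125 L_wA03_10) * (xK ^ 1 * yK ^ 0)) + ((litK (-1) 15625 L_wA03_21) * (xK ^ 2 * yK ^ 1))) + ((litK (-1) 1 L_wA03_04) * (xK ^ 0 * yK ^ 4)))

theorem r_A0_3 : Rep pa (-1) 931322574615478515625 20 (.lit L_A0_3) A0_3 :=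
  (((((((((((((((((((((rep_litK (0) 1953125 L_wA03_10 (by norm_num) 40)).oneMul (r_m0_10) 20 (by norm_num) (by norm_num))).congr (g := ((litK (0) 1953125 L_wA03_10) * (xK ^ 1 * yK ^ 0))) (by rw [e_m0_10]))).shift 19073486328125 (by norm_num) (-1) 1 (by norm_num))).mono (N' := 20) (by norm_num))).cast (lo' := (-1)) (den' := 4656612873077392578125) (N' := 20) (by norm_num) (by norm_num) (by norm_num))).add ((((((((rep_litK (-1) 15625 L_wA03_21 (by norm_num) 40)).oneMul (r_m0_21) 20 (by norm_num) (by norm_num))).congr (g := ((litK (-1) 15625 L_wA03_21) * (xK ^ 2 * yK ^ 1))) (by rw [e_m0_21]))).cast (lo' := (-1)) (den' := 4656612873077392578125) (N' := 20) (by norm_num) (by norm_num) (by norm_num))))).shift 3 (by norm_num) (-1) 0 (by norm_num))).cast (lo' := (-1)) (den' := 13969838619232177734375) (N' := 20) (by norm_num) (by norm_num) (by norm_num))).add ((((((((((rep_litK (-1) 1 L_wA03_04 (by norm_num) 40)).oneMul (r_m0_04) 20 (by norm_num) (by norm_num))).congr (g := ((litK (-1) 1 L_wA03_04) * (xK ^ 0 * yK ^ 4))) (by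 rw [e_m0_04]))).shift 3125 (by norm_num) (-1) 0 (by norm_num))).cast (lo' := (-1)) (den' := 13969838619232177734375) (N' := 20) (by norm_num) (by norm_num) (by norm_num))))).norm L_A0_3 Q_A0_3 931322574615478515625 192 20 (by norm_num) (by norm_num) (by decide +kernel)).cast
    (by norm_num) rfl rfl

/-- Certificate node. -/
def D0_3 : K := (A0_3 + (kap * (0 : K)))

theorem r_D0_3 : Rep pa (-1) 931322574615478515625 20 (.lit L_D0_3) D0_3 :=
  ((((((r_A0_3).cast (lo' := (-1)) (den' := 931322574615478515625) (N' := 20) (by norm_num) (by norm_num) (by norm_num))).add (((((((rep_kap).oneMul ((rep_zero pa (0) 100)) 20 (by norm_num) (by norm_num))).shift 78125 (by norm_num) (-1) 0 (by norm_num))).cast (lo' := (-1)) (den' := 931322574615478515625) (N' := 20) (by norm_num) (by norm_num) (by norm_num))))).norm L_D0_3 Q_D0_3 931322574615478515625 187 20 (by norm_num) (by norm_num) (by decide +kernel)).cast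
    (by norm_num) rfl rfl

/-- Certificate node. -/
def A0_4 : K := ((((((litK (-7) 750122070312500 L_wA04_10) * (xK ^ 1 * yK ^ 0)) + ((litK (-6) 600097656250000 L_wA04_21) * (xK ^ 2 * yK ^ 1))) + ((litK (-6) 78125 L_wA04_32) * (xK ^ 3 * yK ^ 2))) + ((litK (-8) 1 L_wA04_43) * (xK ^ 4 * yK ^ 3))) + ((litK (-7) 150024414062500 L_wA04_04) * (xK ^ 0 * yK ^ 4)))

theorem r_A0_4 : Rep pa (-8) 18313527107238769531250000 20 (.lit L_A0_4) A0_4 :=
  (((((((((((((((((((((((((((((((rep_litK (-7) 750122070312500 L_wA04_10 (by norm_num) 40)).oneMul (r_m0_10) 20 (by norm_num) (by norm_num))).congr (g := ((litK (-7) 750122070312500 L_wA04_10) * (xK ^ 1 * yK ^ 0))) (by rw [e_m0_10]))).shift 1907348632812500 (by norm_num) (-7) 0 (by norm_num))).cast (lo' := (-7)) (den' := 178843038156628608703613281250000) (N' := 20) (by norm_num) (by norm_num) (by norm_num))).add ((((((((((((rep_litK (-6) 600097656250000 L_wA04_21 (by norm_num) 40)).oneMul (r_m0_21) 20 (by norm_num) (by norm_num))).congr (g := ((litK (-6) 600097656250000 L_wA04_21) *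 (xK ^ 2 * yK ^ 1))) (by rw [e_m0_21]))).shift 1 (by norm_num) (-7) 1 (by norm_num))).mono (N' := 20) (by norm_num))).cast (lo' := (-7)) (den' := 178843038156628608703613281250000) (N' := 20) (by norm_num) (by norm_num) (by norm_num))))).cast (lo' := (-7)) (den' := 178843038156628608703613281250000) (N' := 20) (by norm_num) (by norm_num) (by norm_num))).add ((((((((((((rep_litK (-6) 78125 L_wA04_32 (by norm_num) 40)).oneMul (r_m0_32) 20 (by norm_num) (by norm_num))).congr (g := ((litK (-6) 78125 L_wA04_32) * (xK ^ 3 * yK ^ 2))) (by rw [e_m0_32]))).shift 1536250000 (by norm_num) (-7) 1 (by norm_num))).mono (N' := 20) (by norm_num))).cast (lo' := (-7)) (den' := 178843038156628608703613281250000) (N' := 20) (by norm_num) (by norm_num) (by norm_num))))).shift 1 (by norm_num) (-8) 1 (by norm_num))).mono (N' := 20) (by norm_num))).cast (lo' := (-8)) (den' := 178843038156628608703613281250000) (N' := 20) (by norm_num) (by norm_num) (by norm_num))).add ((((((((((rep_litK (-8) 1 L_wA04_43 (by norm_num) 40)).oneMul (r_m0_43) 20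 (by norm_num) (by norm_num))).congr (g := ((litK (-8) 1 L_wA04_43) * (xK ^ 4 * yK ^ 3))) (by rw [e_m0_43]))).shift 120019531250000 (by norm_num) (-8) 0 (by norm_num))).cast (lo' := (-8)) (den' := 178843038156628608703613281250000) (N' := 20) (by norm_num) (by norm_num) (by norm_num))))).shift 15 (by norm_num) (-8) 0 (by norm_num))).cast (lo' := (-8)) (den' := 2682645572349429130554199218750000) (N' := 20) (by norm_num) (by norm_num) (by norm_num))).add ((((((((((((rep_litK (-7) 150024414062500 L_wA04_04 (by norm_num) 40)).oneMul (r_m0_04) 20 (by norm_num) (by norm_num))).congr (g := ((litK (-7) 150024414062500 L_wA04_04) * (xK ^ 0 * yK ^ 4))) (by rw [e_m0_04]))).shift 4 (by norm_num) (-8) 1 (by norm_num))).mono (N' := 20) (by norm_num))).cast (lo' := (-8)) (den' := 2682645572349429130554199218750000) (N' := 20) (by norm_num) (by norm_num) (by norm_num))))).norm L_A0_4 Q_A0_4 18313527107238769531250000 269 20 (by norm_num) (by norm_num) (by decide +kernel)).cast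
    (by norm_num) rfl rfl

/-- Certificate node. -/
def B0_4 : K := ((litK (-7) 1 L_wB04_04) * (xK ^ 0 * yK ^ 4))

theorem r_B0_4 : Rep pa (-7) 298023223876953125 20 (.lit L_B0_4) B0_4 :=
  (((((((rep_litK (-7) 1 L_wB04_04 (by norm_num) 40)).oneMul (r_m0_04) 20 (by norm_num) (by norm_num))).congr (g := ((litK (-7) 1 L_wB04_04) * (xK ^ 0 * yK ^ 4))) (by rw [e_m0_04]))).norm L_B0_4 Q_B0_4 298023223876953125 162 20 (by norm_num) (by norm_num) (by decide +kernel)).cast
    (by norm_num) rfl rfl

/-- Certificate node. -/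
def D0_4 : K := (A0_4 + (kap * B0_4))

theorem r_D0_4 : Rep pa (-8) 18313527107238769531250000 20 (.lit L_D0_4) D0_4 :=
  ((((((((r_A0_4).shift 3814697265625 (by norm_num) (-8) 0 (by norm_num))).cast (lo' := (-8)) (den' := 69860561779933050274848937988281250000) (N' := 20) (by norm_num) (by norm_num) (by norm_num))).add (((((((rep_kap).oneMul (r_B0_4) 20 (by norm_num) (by norm_num))).shift 19664 (by norm_num) (-8) 0 (by norm_num))).cast (lo' := (-8)) (den' := 69860561779933050274848937988281250000) (N' := 20) (by norm_num) (by norm_num) (by norm_num))))).norm L_D0_4 Q_D0_4 18313527107238769531250000 296 20 (by norm_num) (by norm_num) (by decide +kernel)).cast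
    (by norm_num) rfl rfl

/-- Certificate node. -/
def A0_5 : K := ((((((litK (-9) 1758098602294921875000 L_wA05_10) * (xK ^ 1 * yK ^ 0)) + ((litK (-9) 117206573486328125000 L_wA05_21) * (xK ^ 2 * yK ^ 1))) + ((litK (-10) 1172065734863281250 L_wA05_32) * (xK ^ 3 * yK ^ 2))) + ((litK (-9) 7501220703125 L_wA05_43) * (xK ^ 4 * yK ^ 3))) + ((litK (-10) 1969390921294689178466796875000 L_wA05_04) * (xK ^ 0 * yK ^ 4)))

theorem r_A0_5 : Rep pa (-10) 288484998236526735126972198486328125000 20 (.lit L_A0_5) A0_5 :=
  (((((((((((((((((((((((((((((((rep_litK (-9) 1758098602294921875000 L_wA05_10 (by norm_num) 40)).oneMul (r_m0_10) 20 (by norm_num) (by norm_num))).congr (g := ((litK (-9) 1758098602294921875000 L_wA05_10) * (xK ^ 1 * yK ^ 0))) (by rw [e_m0_10]))).shift 476837158203125 (by norm_num) (-9) 0 (by norm_num))).cast (lo' := (-9)) (den' := 104790842669899575412273406982421875000) (N' := 20) (by norm_num) (by norm_num) (by norm_num))).add ((((((((((rep_litK (-9) 117206573486328125000 L_wA05_21 (by norm_num) 40)).oneMul (r_m0_21)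 20 (by norm_num) (by norm_num))).congr (g := ((litK (-9) 117206573486328125000 L_wA05_21) * (xK ^ 2 * yK ^ 1))) (by rw [e_m0_21]))).shift 3 (by norm_num) (-9) 0 (by norm_num))).cast (lo' := (-9)) (den' := 104790842669899575412273406982421875000) (N' := 20) (by norm_num) (by norm_num) (by norm_num))))).shift 1 (by norm_num) (-10) 1 (by norm_num))).mono (N' := 20) (by norm_num))).cast (lo' := (-10)) (den' := 104790842669899575412273406982421875000) (N' := 20) (by norm_num) (by norm_num) (by norm_num))).add ((((((((((rep_litK (-10) 1172065734863281250 L_wA05_32 (by norm_num) 40)).oneMul (r_m0_32) 20 (by norm_num) (by norm_num))).congr (g := ((litK (-10) 1172065734863281250 L_wA05_32) * (xK ^ 3 * yK ^ 2))) (by rw [e_m0_32]))).shift 60 (by norm_num) (-10) 0 (by norm_num))).cast (lo' := (-10)) (den' := 104790842669899575412273406982421875000) (N' := 20) (by norm_num) (by norm_num) (by norm_num))))).cast (lo' := (-10)) (den' := 104790842669899575412273406982421875000) (N' := 20) (by norm_num) (by norm_num) (by norm_num))).add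 ((((((((((((rep_litK (-9) 7501220703125 L_wA05_43 (by norm_num) 40)).oneMul (r_m0_43) 20 (by norm_num) (by norm_num))).congr (g := ((litK (-9) 7501220703125 L_wA05_43) * (xK ^ 4 * yK ^ 3))) (by rw [e_m0_43]))).shift 9375000 (by norm_num) (-10) 1 (by norm_num))).mono (N' := 20) (by norm_num))).cast (lo' := (-10)) (den' := 104790842669899575412273406982421875000) (N' := 20) (by norm_num) (by norm_num) (by norm_num))))).shift 84013671875 (by norm_num) (-10) 0 (by norm_num))).cast (lo' := (-10)) (den' := 8803863471573691867888555862009525299072265625000) (N' := 20) (by norm_num) (by norm_num) (by norm_num))).add ((((((((rep_litK (-10) 1969390921294689178466796875000 L_wA05_04 (by norm_num) 40)).oneMul (r_m0_04) 20 (by norm_num) (by norm_num))).congr (g := ((litK (-10) 1969390921294689178466796875000 L_wA05_04) * (xK ^ 0 * yK ^ 4))) (by rw [e_m0_04]))).cast (lo' := (-10)) (den' := 8803863471573691867888555862009525299072265625000) (N' := 20) (by norm_num) (by norm_num) (by norm_num))))).norm L_A0_5 Q_A0_5 288484998236526735126972198486328125000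 387 20 (by norm_num) (by norm_num) (by decide +kernel)).cast
    (by norm_num) rfl rfl

/-- Certificate node. -/
def B0_5 : K := ((litK (-8) 390625 L_wB05_04) * (xK ^ 0 * yK ^ 4))

theorem r_B0_5 : Rep pa (-8) 116415321826934814453125 20 (.lit L_B0_5) B0_5 :=
  (((((((rep_litK (-8) 390625 L_wB05_04 (by norm_num) 40)).oneMul (r_m0_04) 20 (by norm_num) (by norm_num))).congr (g := ((litK (-8) 390625 L_wB05_04) * (xK ^ 0 * yK ^ 4))) (by rw [e_m0_04]))).norm L_B0_5 Q_B0_5 116415321826934814453125 217 20 (by norm_num) (by norm_num) (by decide +kernel)).cast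
    (by norm_num) rfl rfl

/-- Certificate node. -/
def D0_5 : K := (A0_5 + (kap * B0_5))

theorem r_D0_5 : Rep pa (-10) 288484998236526735126972198486328125000 20 (.lit L_D0_5) D0_5 :=
  ((((((((r_A0_5).shift 1220703125 (by norm_num) (-10) 0 (by norm_num))).cast (lo' := (-10)) (den' := 352154538862947674715542234480381011962890625000) (N' := 20) (by norm_num) (by norm_num) (by norm_num))).add (((((((((rep_kap).oneMul (r_B0_5) 20 (by norm_num) (by norm_num))).shift 253754088 (by norm_num) (-10) 1 (by norm_num))).mono (N' := 20) (by norm_num))).cast (lo' := (-10)) (den' := 352154538862947674715542234480381011962890625000) (N' := 20) (by norm_num) (by norm_num) (by norm_num))))).norm L_D0_5 Q_D0_5 288484998236526735126972198486328125000 388 20 (by norm_num) (by norm_num) (by decide +kernel)).cast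
    (by norm_num) rfl rfl

/-- Certificate node. -/
def A0_6 : K := ((((((litK (-16) 2461738651618361473083496093750000000 L_wA06_10) * (xK ^ 1 * yK ^ 0)) + ((litK (-17) 39387818425893783569335937500000 L_wA06_21) * (xK ^ 2 * yK ^ 1))) + ((litK (-16) 15755127370357513427734375000000 L_wA06_32) * (xK ^ 3 * yK ^ 2))) + ((litK (-17) 787756368517875671386718750000 L_wA06_43) * (xK ^ 4 * yK ^ 3))) + ((litK (-16) 615434662904590368270874023437500000 L_wA06_04) * (xK ^ 0 * yK ^ 4)))

theorem r_A0_6 : Rep pa (-17) 307717331452295184135437011718750000000 20 (.lit L_A0_6) A0_6 :=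
  (((((((((((((((((((((((((((((rep_litK (-16) 2461738651618361473083496093750000000 L_wA06_10 (by norm_num) 40)).oneMul (r_m0_10) 20 (by norm_num) (by norm_num))).congr (g := ((litK (-16) 2461738651618361473083496093750000000 L_wA06_10) * (xK ^ 1 * yK ^ 0))) (by rw [e_m0_10]))).shift 152587890625 (by norm_num) (-17) 1 (by norm_num))).mono (N' := 20) (by norm_num))).cast (lo' := (-17)) (den' := 46953938515059689962072297930717468261718750000000) (N' := 20) (by norm_num) (by norm_num) (by norm_num))).add ((((((((((rep_litK (-17) 39387818425893783569335937500000 L_wA06_21 (by norm_num) 40)).oneMul (r_m0_21) 20 (by norm_num) (by norm_num))).congr (g := ((litK (-17) 39387818425893783569335937500000 L_wA06_21) * (xK ^ 2 * yK ^ 1))) (by rw [e_m0_21]))).shift 4 (by norm_num) (-17) 0 (by norm_num))).cast (lo' := (-17)) (den' := 46953938515059689962072297930717468261718750000000) (N' := 20) (by norm_num) (by norm_num) (by norm_num))))).cast (lo' := (-17)) (den' := 46953938515059689962072297930717468261718750000000) (N' := 20)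 (by norm_num) (by norm_num) (by norm_num))).add ((((((((((((rep_litK (-16) 15755127370357513427734375000000 L_wA06_32 (by norm_num) 40)).oneMul (r_m0_32) 20 (by norm_num) (by norm_num))).congr (g := ((litK (-16) 15755127370357513427734375000000 L_wA06_32) * (xK ^ 3 * yK ^ 2))) (by rw [e_m0_32]))).shift 2 (by norm_num) (-17) 1 (by norm_num))).mono (N' := 20) (by norm_num))).cast (lo' := (-17)) (den' := 46953938515059689962072297930717468261718750000000) (N' := 20) (by norm_num) (by norm_num) (by norm_num))))).cast (lo' := (-17)) (den' := 46953938515059689962072297930717468261718750000000) (N' := 20) (by norm_num) (by norm_num) (by norm_num))).add ((((((((((rep_litK (-17) 787756368517875671386718750000 L_wA06_43 (by norm_num) 40)).oneMul (r_m0_43) 20 (by norm_num) (by norm_num))).congr (g := ((litK (-17) 787756368517875671386718750000 L_wA06_43) * (xK ^ 4 * yK ^ 3))) (by rw [e_m0_43]))).shift 40 (by norm_num) (-17) 0 (by norm_num))).cast (lo' := (-17)) (den' := 46953938515059689962072297930717468261718750000000) (N' :=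 20) (by norm_num) (by norm_num) (by norm_num))))).shift 234375 (by norm_num) (-17) 0 (by norm_num))).cast (lo' := (-17)) (den' := 11004829339467114834860694827511906623840332031250000000) (N' := 20) (by norm_num) (by norm_num) (by norm_num))).add ((((((((((((rep_litK (-16) 615434662904590368270874023437500000 L_wA06_04 (by norm_num) 40)).oneMul (r_m0_04) 20 (by norm_num) (by norm_num))).congr (g := ((litK (-16) 615434662904590368270874023437500000 L_wA06_04) * (xK ^ 0 * yK ^ 4))) (by rw [e_m0_04]))).shift 4 (by norm_num) (-17) 1 (by norm_num))).mono (N' := 20) (by norm_num))).cast (lo' := (-17)) (den' := 11004829339467114834860694827511906623840332031250000000) (N' := 20) (by norm_num) (by norm_num) (by norm_num))))).norm L_A0_6 Q_A0_6 307717331452295184135437011718750000000 420 20 (by norm_num) (by norm_num) (by decide +kernel)).cast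
    (by norm_num) rfl rfl

/-- Certificate node. -/
def B0_6 : K := ((litK (-16) 1875305175781250 L_wB06_04) * (xK ^ 0 * yK ^ 4))

theorem r_B0_6 : Rep pa (-16) 11445954442024230957031250 20 (.lit L_B0_6) B0_6 :=
  (((((((rep_litK (-16) 1875305175781250 L_wB06_04 (by norm_num) 40)).oneMul (r_m0_04) 20 (by norm_num) (by norm_num))).congr (g := ((litK (-16) 1875305175781250 L_wB06_04) * (xK ^ 0 * yK ^ 4))) (by rw [e_m0_04]))).norm L_B0_6 Q_B0_6 11445954442024230957031250 273 20 (by norm_num) (by norm_num) (by decide +kernel)).cast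
    (by norm_num) rfl rfl

/-- Certificate node. -/
def D0_6 : K := (A0_6 + (kap * B0_6))

theorem r_D0_6 : Rep pa (-17) 307717331452295184135437011718750000000 20 (.lit L_D0_6) D0_6 :=
  ((((((((r_A0_6).shift 244140625 (by norm_num) (-17) 0 (by norm_num))).cast (lo' := (-17)) (den' := 75126301624095503939315676689147949218750000000) (N' := 20) (by norm_num) (by norm_num) (by norm_num))).add (((((((rep_kap).oneMul (r_B0_6) 20 (by norm_num) (by norm_num))).shift 550592 (by norm_num) (-17) 0 (by norm_num))).cast (lo' := (-17)) (den' := 75126301624095503939315676689147949218750000000) (N' := 20) (by norm_num) (by norm_num) (by norm_num))))).norm L_D0_6 Q_D0_6 307717331452295184135437011718750000000 389 20 (by norm_num) (by norm_num) (by decide +kernel)).cast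
    (by norm_num) rfl rfl

/-- Certificate node. -/
def A1_2 : K := ((litK (1) 1 L_wA12_01) * (xK ^ 0 * yK ^ 1))

theorem r_A1_2 : Rep pb (1) 298023223876953125 20 (.lit L_A1_2) A1_2 :=
  (((((((rep_litK (1) 1 L_wA12_01 (by norm_num) 40)).oneMul (r_m1_01) 20 (by norm_num) (by norm_num))).congr (g := ((litK (1) 1 L_wA12_01) * (xK ^ 0 * yK ^ 1))) (by rw [e_m1_01]))).norm L_A1_2 Q_A1_2 298023223876953125 155 20 (by norm_num) (by norm_num) (by decide +kernel)).cast
    (by norm_num) rfl rfl

/-- Certificate node. -/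
def D1_2 : K := (A1_2 + (kap * (0 : K)))

theorem r_D1_2 : Rep pb (-1) 11920928955078125 20 (.lit L_D1_2) D1_2 :=
  ((((((((((r_A1_2).shift 1 (by norm_num) (-1) 2 (by norm_num))).mono (N' := 20) (by norm_num))).cast (lo' := (-1)) (den' := 298023223876953125) (N' := 20) (by norm_num) (by norm_num) (by norm_num))).add (((((((rep_kap).oneMul ((rep_zero pb (0) 100)) 20 (by norm_num) (by norm_num))).shift 25 (by norm_num) (-1) 0 (by norm_num))).cast (lo' := (-1)) (den' := 298023223876953125) (N' := 20) (by norm_num) (by norm_num) (by norm_num))))).norm L_D1_2 Q_D1_2 11920928955078125 149 20 (by norm_num) (by norm_num) (by decide +kernel)).cast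
    (by norm_num) rfl rfl

theorem t_D1_2 : Rep pb (1) 11920928955078125 18 (.lit T_D1_2) D1_2 :=
  ((r_D1_2.cast rfl rfl (by norm_num : 20 = 2 + 18)).trim 2 (by decide +kernel)).cast (by norm_num) rfl rfl |> fun h => (show L_D1_2.drop 2 = T_D1_2 by decide +kernel) ▸ h

/-- Certificate node. -/
def A1_3 : K := ((((litK (0) 1953125 L_wA13_01) * (xK ^ 0 * yK ^ 1)) + ((litK (-1) 15625 L_wA13_12) * (xK ^ 1 * yK ^ 2))) + ((litK (-1) 1 L_wA13_40) * (xK ^ 4 * yK ^ 0)))

theorem r_A1_3 : Rep pb (-1) 23283064365386962890625 20 (.lit L_A1_3) A1_3 :=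
  (((((((((((((((((((rep_litK (0) 1953125 L_wA13_01 (by norm_num) 40)).oneMul (r_m1_01) 20 (by norm_num) (by norm_num))).congr (g := ((litK (0) 1953125 L_wA13_01) * (xK ^ 0 * yK ^ 1))) (by rw [e_m1_01]))).shift 1 (by norm_num) (-1) 1 (by norm_num))).mono (N' := 20) (by norm_num))).cast (lo' := (-1)) (den' := 582076609134674072265625) (N' := 20) (by norm_num) (by norm_num) (by norm_num))).add ((((((((((rep_litK (-1) 15625 L_wA13_12 (by norm_num) 40)).oneMul (r_m1_12) 20 (by norm_num) (by norm_num))).congr (g := ((litK (-1) 15625 L_wA13_12) * (xK ^ 1 * yK ^ 2))) (by rw [e_m1_12]))).shift 25 (by norm_num) (-1) 0 (by norm_num))).cast (lo' := (-1)) (den' := 582076609134674072265625) (N' := 20) (by norm_num) (by norm_num) (by norm_num))))).cast (lo' := (-1)) (den' := 582076609134674072265625) (N' := 20) (by norm_num) (by norm_num) (by norm_num))).add ((((((((((rep_litK (-1) 1 L_wA13_40 (by norm_num) 40)).oneMul (r_m1_40) 20 (by norm_num) (by norm_num))).congr (g := ((litK (-1) 1 L_wA13_40) * (xK ^ 4 * yK ^ 0))) (by rw [e_m1_40]))).shift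 23283064365386962890625 (by norm_num) (-1) 0 (by norm_num))).cast (lo' := (-1)) (den' := 582076609134674072265625) (N' := 20) (by norm_num) (by norm_num) (by norm_num))))).norm L_A1_3 Q_A1_3 23283064365386962890625 209 20 (by norm_num) (by norm_num) (by decide +kernel)).cast
    (by norm_num) rfl rfl

/-- Certificate node. -/
def D1_3 : K := (A1_3 + (kap * (0 : K)))

theorem r_D1_3 : Rep pb (-1) 23283064365386962890625 20 (.lit L_D1_3) D1_3 :=
  ((((((r_A1_3).cast (lo' := (-1)) (den' := 23283064365386962890625) (N' := 20) (by norm_num) (by norm_num) (by norm_num))).add (((((((rep_kap).oneMul ((rep_zero pb (0) 100)) 20 (by norm_num) (by norm_num))).shift 1953125 (by norm_num) (-1) 0 (by norm_num))).cast (lo' := (-1)) (den' := 23283064365386962890625) (N' := 20) (by norm_num) (by norm_num) (by norm_num))))).norm L_D1_3 Q_D1_3 23283064365386962890625 201 20 (by norm_num) (by norm_num) (by decide +kernel)).cast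
    (by norm_num) rfl rfl

/-- Certificate node. -/
def A1_4 : K := ((((((litK (-7) 750122070312500 L_wA14_01) * (xK ^ 0 * yK ^ 1)) + ((litK (-6) 600097656250000 L_wA14_12) * (xK ^ 1 * yK ^ 2))) + ((litK (-6) 78125 L_wA14_23) * (xK ^ 2 * yK ^ 3))) + ((litK (-8) 1 L_wA14_34) * (xK ^ 3 * yK ^ 4))) + ((litK (-7) 1500244140625000 L_wA14_40) * (xK ^ 4 * yK ^ 0)))

theorem r_A1_4 : Rep pb (-8) 91567635536193847656250000 20 (.lit L_A1_4) A1_4 :=
  (((((((((((((((((((((((((((((rep_litK (-7) 750122070312500 L_wA14_01 (by norm_num) 40)).oneMul (r_m1_01) 20 (by norm_num) (by norm_num))).congr (g := ((litK (-7) 750122070312500 L_wA14_01) * (xK ^ 0 * yK ^ 1))) (by rw [e_m1_01]))).shift 4 (by norm_num) (-7) 0 (by norm_num))).cast (lo' := (-7)) (den' := 894215190783143043518066406250000) (N' := 20) (by norm_num) (by norm_num) (by norm_num))).add ((((((((((((rep_litK (-6) 600097656250000 L_wA14_12 (by norm_num) 40)).oneMul (r_m1_12) 20 (by norm_num) (by norm_num))).congr (g := ((litK (-6) 600097656250000 L_wA14_12) * (xK ^ 1 * yK ^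 2))) (by rw [e_m1_12]))).shift 1 (by norm_num) (-7) 1 (by norm_num))).mono (N' := 20) (by norm_num))).cast (lo' := (-7)) (den' := 894215190783143043518066406250000) (N' := 20) (by norm_num) (by norm_num) (by norm_num))))).cast (lo' := (-7)) (den' := 894215190783143043518066406250000) (N' := 20) (by norm_num) (by norm_num) (by norm_num))).add ((((((((((((rep_litK (-6) 78125 L_wA14_23 (by norm_num) 40)).oneMul (r_m1_23) 20 (by norm_num) (by norm_num))).congr (g := ((litK (-6) 78125 L_wA14_23) * (xK ^ 2 * yK ^ 3))) (by rw [e_m1_23]))).shift 7681250000 (by norm_num) (-7) 1 (by norm_num))).mono (N' := 20) (by norm_num))).cast (lo' := (-7)) (den' := 894215190783143043518066406250000) (N' := 20) (by norm_num) (by norm_num) (by norm_num))))).shift 3 (by norm_num) (-8) 1 (by norm_num))).mono (N' := 20) (by norm_num))).cast (lo' := (-8)) (den' := 2682645572349429130554199218750000) (N' := 20) (by norm_num) (by norm_num) (by norm_num))).add ((((((((((rep_litK (-8) 1 L_wA14_34 (by norm_num) 40)).oneMul (r_m1_34) 20 (by norm_num)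 (by norm_num))).congr (g := ((litK (-8) 1 L_wA14_34) * (xK ^ 3 * yK ^ 4))) (by rw [e_m1_34]))).shift 600097656250000 (by norm_num) (-8) 0 (by norm_num))).cast (lo' := (-8)) (den' := 2682645572349429130554199218750000) (N' := 20) (by norm_num) (by norm_num) (by norm_num))))).cast (lo' := (-8)) (den' := 2682645572349429130554199218750000) (N' := 20) (by norm_num) (by norm_num) (by norm_num))).add ((((((((((((rep_litK (-7) 1500244140625000 L_wA14_40 (by norm_num) 40)).oneMul (r_m1_40) 20 (by norm_num) (by norm_num))).congr (g := ((litK (-7) 1500244140625000 L_wA14_40) * (xK ^ 4 * yK ^ 0))) (by rw [e_m1_40]))).shift 71525573730468750 (by norm_num) (-8) 1 (by norm_num))).mono (N' := 20) (by norm_num))).cast (lo' := (-8)) (den' := 2682645572349429130554199218750000) (N' := 20) (by norm_num) (by norm_num) (by norm_num))))).norm L_A1_4 Q_A1_4 91567635536193847656250000 272 20 (by norm_num) (by norm_num) (by decide +kernel)).cast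
    (by norm_num) rfl rfl

/-- Certificate node. -/
def B1_4 : K := ((((litK (-6) 1 L_wB14_01) * (xK ^ 0 * yK ^ 1)) + ((litK (-6) 1 L_wB14_12) * (xK ^ 1 * yK ^ 2))) + ((litK (-7) 1 L_wB14_40) * (xK ^ 4 * yK ^ 0)))

theorem r_B1_4 : Rep pb (-7) 59604644775390625 20 (.lit L_B1_4) B1_4 :=
  (((((((((((((((((((((rep_litK (-6) 1 L_wB14_01 (by norm_num) 40)).oneMul (r_m1_01) 20 (by norm_num) (by norm_num))).congr (g := ((litK (-6) 1 L_wB14_01) * (xK ^ 0 * yK ^ 1))) (by rw [e_m1_01]))).shift 5 (by norm_num) (-6) 0 (by norm_num))).cast (lo' := (-6)) (den' := 1490116119384765625) (N' := 20) (by norm_num) (by norm_num) (by norm_num))).add ((((((((rep_litK (-6) 1 L_wB14_12 (by norm_num) 40)).oneMul (r_m1_12) 20 (by norm_num) (by norm_num))).congr (g := ((litK (-6) 1 L_wB14_12) * (xK ^ 1 * yK ^ 2))) (by rw [e_m1_12]))).cast (lo' := (-6)) (den' := 1490116119384765625) (N' := 20) (by norm_num) (by norm_num) (by norm_num))))).shift 1 (by norm_num) (-7) 1 (by norm_num))).mono (N' := 20) (by norm_num))).cast (lo' := (-7)) (den' := 1490116119384765625)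 (N' := 20) (by norm_num) (by norm_num) (by norm_num))).add ((((((((((rep_litK (-7) 1 L_wB14_40 (by norm_num) 40)).oneMul (r_m1_40) 20 (by norm_num) (by norm_num))).congr (g := ((litK (-7) 1 L_wB14_40) * (xK ^ 4 * yK ^ 0))) (by rw [e_m1_40]))).shift 59604644775390625 (by norm_num) (-7) 0 (by norm_num))).cast (lo' := (-7)) (den' := 1490116119384765625) (N' := 20) (by norm_num) (by norm_num) (by norm_num))))).norm L_B1_4 Q_B1_4 59604644775390625 159 20 (by norm_num) (by norm_num) (by decide +kernel)).cast
    (by norm_num) rfl rfl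

/-- Certificate node. -/
def D1_4 : K := (A1_4 + (kap * B1_4))

theorem r_D1_4 : Rep pb (-8) 91567635536193847656250000 20 (.lit L_D1_4) D1_4 :=
  ((((((((r_A1_4).shift 152587890625 (by norm_num) (-8) 0 (by norm_num))).cast (lo' := (-8)) (den' := 13972112355986610054969787597656250000) (N' := 20) (by norm_num) (by norm_num) (by norm_num))).add (((((((rep_kap).oneMul (r_B1_4) 20 (by norm_num) (by norm_num))).shift 19664 (by norm_num) (-8) 0 (by norm_num))).cast (lo' := (-8)) (den' := 13972112355986610054969787597656250000) (N' := 20) (by norm_num) (by norm_num) (by norm_num))))).norm L_D1_4 Q_D1_4 91567635536193847656250000 294 20 (by norm_num) (by norm_num) (by decide +kernel)).cast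
    (by norm_num) rfl rfl

/-- Certificate node. -/
def A1_5 : K := ((((((litK (-9) 450073242187500 L_wA15_01) * (xK ^ 0 * yK ^ 1)) + ((litK (-9) 187530517578125 L_wA15_12) * (xK ^ 1 * yK ^ 2))) + ((litK (-10) 375061035156250 L_wA15_23) * (xK ^ 2 * yK ^ 3))) + ((litK (-9) 7501220703125 L_wA15_34) * (xK ^ 3 * yK ^ 4))) + ((litK (-10) 562591552734375 L_wA15_40) * (xK ^ 4 * yK ^ 0)))

theorem r_A1_5 : Rep pb (-10) 13735145330429077148437500 20 (.lit L_A1_5) A1_5 :=
  (((((((((((((((((((((((((((((rep_litK (-9) 450073242187500 L_wA15_01 (by norm_num) 40)).oneMul (r_m1_01) 20 (by norm_num) (by norm_num))).congr (g := ((litK (-9) 450073242187500 L_wA15_01) * (xK ^ 0 * yK ^ 1))) (by rw [e_m1_01]))).shift 25 (by norm_num) (-9) 0 (by norm_num))).cast (lo' := (-9)) (den' := 3353306965436786413192749023437500) (N' := 20) (by norm_num) (by norm_num) (by norm_num))).add ((((((((((rep_litK (-9) 187530517578125 L_wA15_12 (by norm_num) 40)).oneMul (r_m1_12) 20 (by norm_num) (by norm_num))).congr (g := ((litK (-9) 187530517578125 L_wA15_12)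 * (xK ^ 1 * yK ^ 2))) (by rw [e_m1_12]))).shift 12 (by norm_num) (-9) 0 (by norm_num))).cast (lo' := (-9)) (den' := 3353306965436786413192749023437500) (N' := 20) (by norm_num) (by norm_num) (by norm_num))))).shift 1 (by norm_num) (-10) 1 (by norm_num))).mono (N' := 20) (by norm_num))).cast (lo' := (-10)) (den' := 3353306965436786413192749023437500) (N' := 20) (by norm_num) (by norm_num) (by norm_num))).add ((((((((((rep_litK (-10) 375061035156250 L_wA15_23 (by norm_num) 40)).oneMul (r_m1_23) 20 (by norm_num) (by norm_num))).congr (g := ((litK (-10) 375061035156250 L_wA15_23) * (xK ^ 2 * yK ^ 3))) (by rw [e_m1_23]))).shift 6 (by norm_num) (-10) 0 (by norm_num))).cast (lo' := (-10)) (den' := 3353306965436786413192749023437500) (N' := 20) (by norm_num) (by norm_num) (by norm_num))))).cast (lo' := (-10)) (den' := 3353306965436786413192749023437500) (N' := 20) (by norm_num) (by norm_num) (by norm_num))).add ((((((((((((rep_litK (-9) 7501220703125 L_wA15_34 (by norm_num) 40)).oneMul (r_m1_34) 20 (by norm_num) (by norm_num))).congr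 (g := ((litK (-9) 7501220703125 L_wA15_34) * (xK ^ 3 * yK ^ 4))) (by rw [e_m1_34]))).shift 100 (by norm_num) (-10) 1 (by norm_num))).mono (N' := 20) (by norm_num))).cast (lo' := (-10)) (den' := 3353306965436786413192749023437500) (N' := 20) (by norm_num) (by norm_num) (by norm_num))))).cast (lo' := (-10)) (den' := 3353306965436786413192749023437500) (N' := 20) (by norm_num) (by norm_num) (by norm_num))).add ((((((((((rep_litK (-10) 562591552734375 L_wA15_40 (by norm_num) 40)).oneMul (r_m1_40) 20 (by norm_num) (by norm_num))).congr (g := ((litK (-10) 562591552734375 L_wA15_40) * (xK ^ 4 * yK ^ 0))) (by rw [e_m1_40]))).shift 238418579101562500 (by norm_num) (-10) 0 (by norm_num))).cast (lo' := (-10)) (den' := 3353306965436786413192749023437500) (N' := 20) (by norm_num) (by norm_num) (by norm_num))))).norm L_A1_5 Q_A1_5 13735145330429077148437500 278 20 (by norm_num) (by norm_num) (by decide +kernel)).cast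
    (by norm_num) rfl rfl

/-- Certificate node. -/
def B1_5 : K := ((((((litK (-8) 1953125 L_wB15_01) * (xK ^ 0 * yK ^ 1)) + ((litK (-7) 390625 L_wB15_12) * (xK ^ 1 * yK ^ 2))) + ((litK (-7) 1 L_wB15_23) * (xK ^ 2 * yK ^ 3))) + ((litK (-8) 1 L_wB15_34) * (xK ^ 3 * yK ^ 4))) + ((litK (-8) 1953125 L_wB15_40) * (xK ^ 4 * yK ^ 0)))

theorem r_B1_5 : Rep pb (-8) 23283064365386962890625 20 (.lit L_B1_5) B1_5 :=
  (((((((((((((((((((((((((rep_litK (-8) 1953125 L_wB15_01 (by norm_num) 40)).oneMul (r_m1_01) 20 (by norm_num) (by norm_num))).congr (g := ((litK (-8) 1953125 L_wB15_01) * (xK ^ 0 * yK ^ 1))) (by rw [e_m1_01]))).cast (lo' := (-8)) (den' := 582076609134674072265625) (N' := 20) (by norm_num) (by norm_num) (by norm_num))).add ((((((((((((rep_litK (-7) 390625 L_wB15_12 (by norm_num) 40)).oneMul (r_m1_12) 20 (by norm_num) (by norm_num))).congr (g := ((litK (-7) 390625 L_wB15_12) * (xK ^ 1 * yK ^ 2))) (by rw [e_m1_12]))).shift 1 (by norm_num) (-8) 1 (by norm_num))).mono (N' := 20) (by norm_num))).cast (lo' := (-8)) (den'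 := 582076609134674072265625) (N' := 20) (by norm_num) (by norm_num) (by norm_num))))).cast (lo' := (-8)) (den' := 582076609134674072265625) (N' := 20) (by norm_num) (by norm_num) (by norm_num))).add ((((((((((((rep_litK (-7) 1 L_wB15_23 (by norm_num) 40)).oneMul (r_m1_23) 20 (by norm_num) (by norm_num))).congr (g := ((litK (-7) 1 L_wB15_23) * (xK ^ 2 * yK ^ 3))) (by rw [e_m1_23]))).shift 390625 (by norm_num) (-8) 1 (by norm_num))).mono (N' := 20) (by norm_num))).cast (lo' := (-8)) (den' := 582076609134674072265625) (N' := 20) (by norm_num) (by norm_num) (by norm_num))))).shift 3 (by norm_num) (-8) 0 (by norm_num))).cast (lo' := (-8)) (den' := 1746229827404022216796875) (N' := 20) (by norm_num) (by norm_num) (by norm_num))).add ((((((((((rep_litK (-8) 1 L_wB15_34 (by norm_num) 40)).oneMul (r_m1_34) 20 (by norm_num) (by norm_num))).congr (g := ((litK (-8) 1 L_wB15_34) * (xK ^ 3 * yK ^ 4))) (by rw [e_m1_34]))).shift 390625 (by norm_num) (-8) 0 (by norm_num))).cast (lo' := (-8)) (den' := 1746229827404022216796875) (N' :=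 20) (by norm_num) (by norm_num) (by norm_num))))).cast (lo' := (-8)) (den' := 1746229827404022216796875) (N' := 20) (by norm_num) (by norm_num) (by norm_num))).add ((((((((((rep_litK (-8) 1953125 L_wB15_40 (by norm_num) 40)).oneMul (r_m1_40) 20 (by norm_num) (by norm_num))).congr (g := ((litK (-8) 1953125 L_wB15_40) * (xK ^ 4 * yK ^ 0))) (by rw [e_m1_40]))).shift 35762786865234375 (by norm_num) (-8) 0 (by norm_num))).cast (lo' := (-8)) (den' := 1746229827404022216796875) (N' := 20) (by norm_num) (by norm_num) (by norm_num))))).norm L_B1_5 Q_B1_5 23283064365386962890625 216 20 (by norm_num) (by norm_num) (by decide +kernel)).cast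
    (by norm_num) rfl rfl

/-- Certificate node. -/
def D1_5 : K := (A1_5 + (kap * B1_5))

theorem r_D1_5 : Rep pb (-10) 13735145330429077148437500 20 (.lit L_D1_5) D1_5 :=
  ((((((((r_A1_5).shift 298023223876953125 (by norm_num) (-10) 0 (by norm_num))).cast (lo' := (-10)) (den' := 4093392291792952164541929960250854492187500) (N' := 20) (by norm_num) (by norm_num) (by norm_num))).add (((((((((rep_kap).oneMul (r_B1_5) 20 (by norm_num) (by norm_num))).shift 14748 (by norm_num) (-10) 1 (by norm_num))).mono (N' := 20) (by norm_num))).cast (lo' := (-10)) (den' := 4093392291792952164541929960250854492187500) (N' := 20) (by norm_num) (by norm_num) (by norm_num))))).norm L_D1_5 Q_D1_5 13735145330429077148437500 327 20 (by norm_num) (by norm_num) (by decide +kernel)).cast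
    (by norm_num) rfl rfl

/-- Certificate node. -/
def A1_6 : K := ((((((litK (-16) 4726538211107254028320312500000 L_wA16_01) * (xK ^ 0 * yK ^ 1)) + ((litK (-17) 586032867431640625000 L_wA16_12) * (xK ^ 1 * yK ^ 2))) + ((litK (-16) 1172065734863281250000 L_wA16_23) * (xK ^ 2 * yK ^ 3))) + ((litK (-17) 157551273703575134277343750000 L_wA16_34) * (xK ^ 3 * yK ^ 4))) + ((litK (-16) 14064788818359375000000 L_wA16_40) * (xK ^ 4 * yK ^ 0)))

theorem r_A1_6 : Rep pb (-17) 590817276388406753540039062500000 20 (.lit L_A1_6) A1_6 :=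
  (((((((((((((((((((((((((((((rep_litK (-16) 4726538211107254028320312500000 L_wA16_01 (by norm_num) 40)).oneMul (r_m1_01) 20 (by norm_num) (by norm_num))).congr (g := ((litK (-16) 4726538211107254028320312500000 L_wA16_01) * (xK ^ 0 * yK ^ 1))) (by rw [e_m1_01]))).shift 1 (by norm_num) (-17) 1 (by norm_num))).mono (N' := 20) (by norm_num))).cast (lo' := (-17)) (den' := 1408618155451790698862168937921524047851562500000) (N' := 20) (by norm_num) (by norm_num) (by norm_num))).add ((((((((((rep_litK (-17) 586032867431640625000 L_wA16_12 (by norm_num) 40)).oneMul (r_m1_12) 20 (by norm_num) (by norm_num))).congr (g := ((litK (-17) 586032867431640625000 L_wA16_12) * (xK ^ 1 * yK ^ 2))) (by rw [e_m1_12]))).shift 1613062500 (by norm_num) (-17) 0 (by norm_num))).cast (lo' := (-17)) (den' := 1408618155451790698862168937921524047851562500000) (N' := 20) (by norm_num) (by norm_num) (by norm_num))))).cast (lo' := (-17)) (den' := 1408618155451790698862168937921524047851562500000) (N' := 20) (by norm_num) (by norm_num) (by norm_num))).add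 ((((((((((((rep_litK (-16) 1172065734863281250000 L_wA16_23 (by norm_num) 40)).oneMul (r_m1_23) 20 (by norm_num) (by norm_num))).congr (g := ((litK (-16) 1172065734863281250000 L_wA16_23) * (xK ^ 2 * yK ^ 3))) (by rw [e_m1_23]))).shift 806531250 (by norm_num) (-17) 1 (by norm_num))).mono (N' := 20) (by norm_num))).cast (lo' := (-17)) (den' := 1408618155451790698862168937921524047851562500000) (N' := 20) (by norm_num) (by norm_num) (by norm_num))))).cast (lo' := (-17)) (den' := 1408618155451790698862168937921524047851562500000) (N' := 20) (by norm_num) (by norm_num) (by norm_num))).add ((((((((((rep_litK (-17) 157551273703575134277343750000 L_wA16_34 (by norm_num) 40)).oneMul (r_m1_34) 20 (by norm_num) (by norm_num))).congr (g := ((litK (-17) 157551273703575134277343750000 L_wA16_34) * (xK ^ 3 * yK ^ 4))) (by rw [e_m1_34]))).shift 2 (by norm_num) (-17) 0 (by norm_num))).cast (lo' := (-17)) (den' := 1408618155451790698862168937921524047851562500000) (N' := 20) (by norm_num) (by norm_num) (by norm_num))))).shift 2 (by norm_num)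 (-17) 0 (by norm_num))).cast (lo' := (-17)) (den' := 2817236310903581397724337875843048095703125000000) (N' := 20) (by norm_num) (by norm_num) (by norm_num))).add ((((((((((((rep_litK (-16) 14064788818359375000000 L_wA16_40 (by norm_num) 40)).oneMul (r_m1_40) 20 (by norm_num) (by norm_num))).congr (g := ((litK (-16) 14064788818359375000000 L_wA16_40) * (xK ^ 4 * yK ^ 0))) (by rw [e_m1_40]))).shift 8012168109416961669921875 (by norm_num) (-17) 1 (by norm_num))).mono (N' := 20) (by norm_num))).cast (lo' := (-17)) (den' := 2817236310903581397724337875843048095703125000000) (N' := 20) (by norm_num) (by norm_num) (by norm_num))))).norm L_A1_6 Q_A1_6 590817276388406753540039062500000 371 20 (by norm_num) (by norm_num) (by decide +kernel)).cast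
    (by norm_num) rfl rfl

/-- Certificate node. -/
def B1_6 : K := ((((((litK (-15) 75012207031250000 L_wB16_01) * (xK ^ 0 * yK ^ 1)) + ((litK (-15) 1875305175781250 L_wB16_12) * (xK ^ 1 * yK ^ 2))) + ((litK (-15) 15002441406250 L_wB16_23) * (xK ^ 2 * yK ^ 3))) + ((litK (-15) 150024414062500 L_wB16_34) * (xK ^ 3 * yK ^ 4))) + ((litK (-16) 18753051757812500 L_wB16_40) * (xK ^ 4 * yK ^ 0)))

theorem r_B1_6 : Rep pb (-16) 18313527107238769531250000 20 (.lit L_B1_6) B1_6 :=
  (((((((((((((((((((((((((((((rep_litK (-15) 75012207031250000 L_wB16_01 (by norm_num) 40)).oneMul (r_m1_01) 20 (by norm_num) (by norm_num))).congr (g := ((litK (-15) 75012207031250000 L_wB16_01) * (xK ^ 0 * yK ^ 1))) (by rw [e_m1_01]))).cast (lo' := (-15)) (den' := 22355379769578576087951660156250000) (N' := 20) (by norm_num) (by norm_num) (by norm_num))).add ((((((((((rep_litK (-15) 1875305175781250 L_wB16_12 (by norm_num) 40)).oneMul (r_m1_12) 20 (by norm_num) (by norm_num))).congr (g := ((litK (-15) 1875305175781250 L_wB16_12) * (xK ^ 1 * yK ^ 2)))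 (by rw [e_m1_12]))).shift 8 (by norm_num) (-15) 0 (by norm_num))).cast (lo' := (-15)) (den' := 22355379769578576087951660156250000) (N' := 20) (by norm_num) (by norm_num) (by norm_num))))).cast (lo' := (-15)) (den' := 22355379769578576087951660156250000) (N' := 20) (by norm_num) (by norm_num) (by norm_num))).add ((((((((((rep_litK (-15) 15002441406250 L_wB16_23 (by norm_num) 40)).oneMul (r_m1_23) 20 (by norm_num) (by norm_num))).congr (g := ((litK (-15) 15002441406250 L_wB16_23) * (xK ^ 2 * yK ^ 3))) (by rw [e_m1_23]))).shift 1000 (by norm_num) (-15) 0 (by norm_num))).cast (lo' := (-15)) (den' := 22355379769578576087951660156250000) (N' := 20) (by norm_num) (by norm_num) (by norm_num))))).shift 3 (by norm_num) (-15) 0 (by norm_num))).cast (lo' := (-15)) (den' := 67066139308735728263854980468750000) (N' := 20) (by norm_num) (by norm_num) (by norm_num))).add ((((((((((rep_litK (-15) 150024414062500 L_wB16_34 (by norm_num) 40)).oneMul (r_m1_34) 20 (by norm_num) (by norm_num))).congr (g := ((litK (-15) 150024414062500 L_wB16_34)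 * (xK ^ 3 * yK ^ 4))) (by rw [e_m1_34]))).shift 100 (by norm_num) (-15) 0 (by norm_num))).cast (lo' := (-15)) (den' := 67066139308735728263854980468750000) (N' := 20) (by norm_num) (by norm_num) (by norm_num))))).shift 1 (by norm_num) (-16) 1 (by norm_num))).mono (N' := 20) (by norm_num))).cast (lo' := (-16)) (den' := 67066139308735728263854980468750000) (N' := 20) (by norm_num) (by norm_num) (by norm_num))).add ((((((((((rep_litK (-16) 18753051757812500 L_wB16_40 (by norm_num) 40)).oneMul (r_m1_40) 20 (by norm_num) (by norm_num))).congr (g := ((litK (-16) 18753051757812500 L_wB16_40) * (xK ^ 4 * yK ^ 0))) (by rw [e_m1_40]))).shift 143051147460937500 (by norm_num) (-16) 0 (by norm_num))).cast (lo' := (-16)) (den' := 67066139308735728263854980468750000) (N' := 20) (by norm_num) (by norm_num) (by norm_num))))).norm L_B1_6 Q_B1_6 18313527107238769531250000 279 20 (by norm_num) (by norm_num) (by decide +kernel)).cast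
    (by norm_num) rfl rfl

/-- Certificate node. -/
def D1_6 : K := (A1_6 + (kap * B1_6))

theorem r_D1_6 : Rep pb (-17) 590817276388406753540039062500000 20 (.lit L_D1_6) D1_6 :=
  ((((((((r_A1_6).shift 19073486328125 (by norm_num) (-17) 0 (by norm_num))).cast (lo' := (-17)) (den' := 11268945243614325590897351503372192382812500000) (N' := 20) (by norm_num) (by norm_num) (by norm_num))).add (((((((rep_kap).oneMul (r_B1_6) 20 (by norm_num) (by norm_num))).shift 51618 (by norm_num) (-17) 0 (by norm_num))).cast (lo' := (-17)) (den' := 11268945243614325590897351503372192382812500000) (N' := 20) (by norm_num) (by norm_num) (by norm_num))))).norm L_D1_6 Q_D1_6 590817276388406753540039062500000 366 20 (by norm_num) (by norm_num) (by decide +kernel)).cast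
    (by norm_num) rfl rfl

end

end P266
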