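import Vale.Agent.P266.CertA

/-!
P266: levels of the first field.
-/

namespace P266

noncomputable section

/-- Certificate node. -/
def I0_1_1_3A : K := (lieA (1) phi1 (litK (-1) 1 L_qc1) dphi1 D0_2 (0 : K))

theorem r_I0_1_1_3A : Rep pa (-3) 2384185791015625 20 (.lit L_I0_1_1_3A) I0_1_1_3A :=
  ((((((((((((((((r_phi1).oneMul (t_D0_2) 18 (by norm_num) (by norm_num))).ratMul (1) 1 (by norm_num))).cast (lo' := (-1)) (den' := 37252902984619140625) (N' := 18) (by norm_num) (by norm_num) (by norm_num))).add ((((((((rep_litK (-1) 1 L_qc1 (by norm_num) 21)).oneMul (((rep_jac).oneMul (((t_D0_2).ddw)) 18 (by norm_num) (by norm_num))) 18 (by norm_num) (by norm_num))).shift 25 (by norm_num) (-1) 0 (by norm_num))).cast (lo' := (-1)) (den' := 37252902984619140625) (N' := 18) (by norm_num) (by norm_num) (by norm_num))))).shift 1 (by norm_num) (-3) 2 (by norm_num))).cast (lo' := (-3)) (den' := 37252902984619140625) (N' := 20) (by norm_num) (by norm_num) (by norm_num))).sub (((((((r_dphi1).oneMul ((rep_zero pa (0) 100)) 20 (by norm_num) (by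 norm_num))).shift 78125 (by norm_num) (-3) 0 (by norm_num))).cast (lo' := (-3)) (den' := 37252902984619140625) (N' := 20) (by norm_num) (by norm_num) (by norm_num))))).norm L_I0_1_1_3A Q_I0_1_1_3A 2384185791015625 166 20 (by norm_num) (by norm_num) (by decide +kernel)).cast
    (by norm_num) rfl rfl

theorem t_I0_1_1_3A : Rep pa (-1) 2384185791015625 18 (.lit T_I0_1_1_3A) I0_1_1_3A :=
  ((r_I0_1_1_3A.cast rfl rfl (by norm_num : 20 = 2 + 18)).trim 2 (by decide +kernel)).cast (by norm_num) rfl rfl |> fun h => (show L_I0_1_1_3A.drop 2 = T_I0_1_1_3A by decide +kernel) ▸ h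

/-- Certificate node. -/
def I0_1_1_3B : K := (lieB (2) (1) phi1 (litK (-1) 1 L_qc1) dq1 D0_2 (0 : K))

theorem r_I0_1_1_3B : Rep pa (-2) 125 20 (.lit L_I0_1_1_3B) I0_1_1_3B :=
  ((((((((((((((r_phi1).oneMul ((rep_zero pa (0) 100)) 20 (by norm_num) (by norm_num))).ratMul (2) 1 (by norm_num))).cast (lo' := (-2)) (den' := 298023223876953125) (N' := 20) (by norm_num) (by norm_num) (by norm_num))).add ((((((((rep_litK (-1) 1 L_qc1 (by norm_num) 21)).oneMul (((rep_jac).oneMul ((((rep_zero pa (0) 100)).ddw)) 20 (by norm_num) (by norm_num))) 20 (by norm_num) (by norm_num))).shift 25 (by norm_num) (-2) 0 (by norm_num))).cast (lo' := (-2)) (den' := 298023223876953125) (N' := 20) (by norm_num) (by norm_num) (by norm_num))))).cast (lo' := (-2)) (den' := 298023223876953125) (N' := 20) (by norm_num) (by norm_num) (by norm_num))).sub ((((((((((((((((rep_litK (-1) 1 L_qc1 (by norm_num) 21)).oneMul (t_D0_2) 18 (by norm_num) (by norm_num))).ratMul (1) 1 (by norm_num))).shift 476837158203125 (by norm_num) (-2) 2 (by norm_num))).cast (lo' := (-2))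 (den' := 59604644775390625) (N' := 20) (by norm_num) (by norm_num) (by norm_num))).add (((((r_dq1).oneMul ((rep_zero pa (0) 100)) 20 (by norm_num) (by norm_num))).cast (lo' := (-2)) (den' := 59604644775390625) (N' := 20) (by norm_num) (by norm_num) (by norm_num))))).shift 5 (by norm_num) (-2) 0 (by norm_num))).cast (lo' := (-2)) (den' := 298023223876953125) (N' := 20) (by norm_num) (by norm_num) (by norm_num))))).norm L_I0_1_1_3B Q_I0_1_1_3B 125 70 20 (by norm_num) (by norm_num) (by decide +kernel)).cast
    (by norm_num) rfl rfl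

theorem t_I0_1_1_3B : Rep pa (0) 125 18 (.lit T_I0_1_1_3B) I0_1_1_3B :=
  ((r_I0_1_1_3B.cast rfl rfl (by norm_num : 20 = 2 + 18)).trim 2 (by decide +kernel)).cast (by norm_num) rfl rfl |> fun h => (show L_I0_1_1_3B.drop 2 = T_I0_1_1_3B by decide +kernel) ▸ h

/-- Certificate node. -/
def I0_1_1_4A : K := (lieA (2) phi1 (litK (-1) 1 L_qc1) dphi1 D0_3 (0 : K))

theorem r_I0_1_1_4A : Rep pa (-3) 4656612873077392578125 20 (.lit L_I0_1_1_4A) I0_1_1_4A :=
  ((((((((((((((r_phi1).oneMul (r_D0_3) 20 (by norm_num) (by norm_num))).ratMul (2) 1 (by norm_num))).cast (lo' := (-3)) (den' := 277555756156289135105907917022705078125) (N' := 20) (by norm_num) (by norm_num) (by norm_num))).add ((((((((rep_litK (-1) 1 L_qc1 (by norm_num) 21)).oneMul (((rep_jac).oneMul (((r_D0_3).ddw)) 20 (by norm_num) (by norm_num))) 20 (by norm_num) (by norm_num))).shift 25 (by norm_num) (-3) 0 (by norm_num))).cast (lo' := (-3)) (den' := 277555756156289135105907917022705078125) (N' := 20) (by norm_num) (by norm_num) (by norm_num))))).cast (lo' := (-3)) (den' :=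 277555756156289135105907917022705078125) (N' := 20) (by norm_num) (by norm_num) (by norm_num))).sub (((((((r_dphi1).oneMul ((rep_zero pa (0) 100)) 20 (by norm_num) (by norm_num))).shift 582076609134674072265625 (by norm_num) (-3) 0 (by norm_num))).cast (lo' := (-3)) (den' := 277555756156289135105907917022705078125) (N' := 20) (by norm_num) (by norm_num) (by norm_num))))).norm L_I0_1_1_4A Q_I0_1_1_4A 4656612873077392578125 298 20 (by norm_num) (by norm_num) (by decide +kernel)).cast
    (by norm_num) rfl rfl

/-- Certificate node. -/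
def I0_1_1_4B : K := (lieB (3) (1) phi1 (litK (-1) 1 L_qc1) dq1 D0_3 (0 : K))

theorem r_I0_1_1_4B : Rep pa (-2) 4656612873077392578125 20 (.lit L_I0_1_1_4B) I0_1_1_4B :=
  ((((((((((((((((r_phi1).oneMul ((rep_zero pa (0) 100)) 20 (by norm_num) (by norm_num))).ratMul (3) 1 (by norm_num))).cast (lo' := (-2)) (den' := 298023223876953125) (N' := 20) (by norm_num) (by norm_num) (by norm_num))).add ((((((((rep_litK (-1) 1 L_qc1 (by norm_num) 21)).oneMul (((rep_jac).oneMul ((((rep_zero pa (0) 100)).ddw)) 20 (by norm_num) (by norm_num))) 20 (by norm_num) (by norm_num))).shift 25 (by norm_num) (-2) 0 (by norm_num))).cast (lo' := (-2)) (den' := 298023223876953125) (N' := 20) (by norm_num) (by norm_num) (by norm_num))))).shift 3125 (by norm_num) (-2) 0 (by norm_num))).cast (lo' := (-2)) (den' := 931322574615478515625) (N' := 20) (by norm_num) (by norm_num) (by norm_num))).sub ((((((((((((rep_litK (-1) 1 L_qc1 (by norm_num) 21)).oneMul (r_D0_3) 20 (by norm_num) (by norm_num))).ratMul (1) 1 (by norm_num))).cast (lo' := (-2)) (den' := 931322574615478515625)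 (N' := 20) (by norm_num) (by norm_num) (by norm_num))).add (((((((r_dq1).oneMul ((rep_zero pa (0) 100)) 20 (by norm_num) (by norm_num))).shift 15625 (by norm_num) (-2) 0 (by norm_num))).cast (lo' := (-2)) (den' := 931322574615478515625) (N' := 20) (by norm_num) (by norm_num) (by norm_num))))).cast (lo' := (-2)) (den' := 931322574615478515625) (N' := 20) (by norm_num) (by norm_num) (by norm_num))))).norm L_I0_1_1_4B Q_I0_1_1_4B 4656612873077392578125 192 20 (by norm_num) (by norm_num) (by decide +kernel)).cast
    (by norm_num) rfl rfl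

/-- Certificate node. -/
def I0_1_1_5A : K := (lieA (3) phi1 (litK (-1) 1 L_qc1) dphi1 D0_4 B0_4)

theorem r_I0_1_1_5A : Rep pa (-10) 18313527107238769531250000 20 (.lit L_I0_1_1_5A) I0_1_1_5A :=
  ((((((((((((((r_phi1).oneMul (r_D0_4) 20 (by norm_num) (by norm_num))).ratMul (3) 1 (by norm_num))).cast (lo' := (-10)) (den' := 5457856389057269552722573280334472656250000) (N' := 20) (by norm_num) (by norm_num) (by norm_num))).add ((((((((rep_litK (-1) 1 L_qc1 (by norm_num) 21)).oneMul (((rep_jac).oneMul (((r_D0_4).ddw)) 20 (by norm_num) (by norm_num))) 20 (by norm_num) (by norm_num))).shift 25 (by norm_num) (-10) 0 (by norm_num))).cast (lo' := (-10)) (den' := 5457856389057269552722573280334472656250000) (N' := 20) (by norm_num) (by norm_num) (by norm_num))))).cast (lo' := (-10)) (den' := 5457856389057269552722573280334472656250000) (N' := 20) (by norm_num) (by norm_num) (by norm_num))).sub (((((((r_dphi1).oneMul (r_B0_4) 20 (by norm_num) (by norm_num))).shift 38406250000 (by norm_num) (-10) 0 (by norm_num))).cast (lo' := (-10)) (den'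 := 5457856389057269552722573280334472656250000) (N' := 20) (by norm_num) (by norm_num) (by norm_num))))).norm L_I0_1_1_5A Q_I0_1_1_5A 18313527107238769531250000 335 20 (by norm_num) (by norm_num) (by decide +kernel)).cast
    (by norm_num) rfl rfl

/-- Certificate node. -/
def I0_1_1_5B : K := (lieB (4) (1) phi1 (litK (-1) 1 L_qc1) dq1 D0_4 B0_4)

theorem r_I0_1_1_5B : Rep pa (-9) 91567635536193847656250000 20 (.lit L_I0_1_1_5B) I0_1_1_5B :=
  ((((((((((((((((r_phi1).oneMul (r_B0_4) 20 (by norm_num) (by norm_num))).ratMul (4) 1 (by norm_num))).cast (lo' := (-9)) (den' := 88817841970012523233890533447265625) (N' := 20) (by norm_num) (by norm_num) (by norm_num))).add ((((((((rep_litK (-1) 1 L_qc1 (by norm_num) 21)).oneMul (((rep_jac).oneMul (((r_B0_4).ddw)) 20 (by norm_num) (by norm_num))) 20 (by norm_num) (by norm_num))).shift 25 (by norm_num) (-9) 0 (by norm_num))).cast (lo' := (-9)) (den' := 88817841970012523233890533447265625) (N' := 20) (by norm_num) (by norm_num) (by norm_num))))).shift 19664 (by norm_num) (-9) 0 (by norm_num))).cast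 (lo' := (-9)) (den' := 1746514044498326256871223449707031250000) (N' := 20) (by norm_num) (by norm_num) (by norm_num))).sub ((((((((((((((((rep_litK (-1) 1 L_qc1 (by norm_num) 21)).oneMul (r_D0_4) 20 (by norm_num) (by norm_num))).ratMul (1) 1 (by norm_num))).shift 19073486328125 (by norm_num) (-9) 0 (by norm_num))).cast (lo' := (-9)) (den' := 349302808899665251374244689941406250000) (N' := 20) (by norm_num) (by norm_num) (by norm_num))).add (((((((r_dq1).oneMul (r_B0_4) 20 (by norm_num) (by norm_num))).shift 19664 (by norm_num) (-9) 0 (by norm_num))).cast (lo' := (-9)) (den' := 349302808899665251374244689941406250000) (N' := 20) (by norm_num) (by norm_num) (by norm_num))))).shift 5 (by norm_num) (-9) 0 (by norm_num))).cast (lo' := (-9)) (den' := 1746514044498326256871223449707031250000) (N' := 20) (by norm_num) (by norm_num) (by norm_num))))).norm L_I0_1_1_5B Q_I0_1_1_5B 91567635536193847656250000 309 20 (by norm_num) (by norm_num) (by decide +kernel)).cast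
    (by norm_num) rfl rfl

/-- Certificate node. -/
def I0_1_1_6A : K := (lieA (4) phi1 (litK (-1) 1 L_qc1) dphi1 D0_5 B0_5)

theorem r_I0_1_1_6A : Rep pa (-12) 57696999647305347025394439697265625000 20 (.lit L_I0_1_1_6A) I0_1_1_6A :=
  ((((((((((((((r_phi1).oneMul (r_D0_5) 20 (by norm_num) (by norm_num))).ratMul (4) 1 (by norm_num))).cast (lo' := (-12)) (den' := 85975229214586834647349178339936770498752593994140625000) (N' := 20) (by norm_num) (by norm_num) (by norm_num))).add ((((((((rep_litK (-1) 1 L_qc1 (by norm_num) 21)).oneMul (((rep_jac).oneMul (((r_D0_5).ddw)) 20 (by norm_num) (by norm_num))) 20 (by norm_num) (by norm_num))).shift 25 (by norm_num) (-12) 0 (by norm_num))).cast (lo' := (-12)) (den' := 85975229214586834647349178339936770498752593994140625000) (N' := 20) (by norm_num) (by norm_num) (by norm_num))))).cast (lo' := (-12)) (den' := 85975229214586834647349178339936770498752593994140625000) (N' := 20) (by norm_num) (by norm_num) (by norm_num))).sub (((((((((r_dphi1).oneMul (r_B0_5) 20 (by norm_num) (by norm_num))).shift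 1548792041015625000 (by norm_num) (-12) 1 (by norm_num))).mono (N' := 20) (by norm_num))).cast (lo' := (-12)) (den' := 85975229214586834647349178339936770498752593994140625000) (N' := 20) (by norm_num) (by norm_num) (by norm_num))))).norm L_I0_1_1_6A Q_I0_1_1_6A 57696999647305347025394439697265625000 436 20 (by norm_num) (by norm_num) (by decide +kernel)).cast
    (by norm_num) rfl rfl

/-- Certificate node. -/
def I0_1_1_6B : K := (lieB (5) (1) phi1 (litK (-1) 1 L_qc1) dq1 D0_5 B0_5)

theorem r_I0_1_1_6B : Rep pa (-11) 288484998236526735126972198486328125000 20 (.lit L_I0_1_1_6B) I0_1_1_6B :=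
  ((((((((((((((((((r_phi1).oneMul (r_B0_5) 20 (by norm_num) (by norm_num))).ratMul (5) 1 (by norm_num))).cast (lo' := (-10)) (den' := 34694469519536141888238489627838134765625) (N' := 20) (by norm_num) (by norm_num) (by norm_num))).add ((((((((rep_litK (-1) 1 L_qc1 (by norm_num) 21)).oneMul (((rep_jac).oneMul (((r_B0_5).ddw)) 20 (by norm_num) (by norm_num))) 20 (by norm_num) (by norm_num))).shift 25 (by norm_num) (-10) 0 (by norm_num))).cast (lo' := (-10)) (den' := 34694469519536141888238489627838134765625) (N' := 20) (by norm_num) (by norm_num) (by norm_num))))).shift 253754088 (by norm_num) (-11) 1 (by norm_num))).mono (N' := 20) (by norm_num))).cast (lo' := (-11)) (den' := 8803863471573691867888555862009525299072265625000) (N' := 20) (by norm_num) (by norm_num) (by norm_num))).sub ((((((((((((((((rep_litK (-1) 1 L_qc1 (by norm_num) 21)).oneMul (r_D0_5) 20 (by norm_num) (by norm_num))).ratMul (1) 1 (by norm_num))).shift 6103515625 (by norm_num) (-11) 0 (by norm_num))).cast (lo' := (-11)) (den' := 1760772694314738373577711172401905059814453125000)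 (N' := 20) (by norm_num) (by norm_num) (by norm_num))).add (((((((((r_dq1).oneMul (r_B0_5) 20 (by norm_num) (by norm_num))).shift 253754088 (by norm_num) (-11) 1 (by norm_num))).mono (N' := 20) (by norm_num))).cast (lo' := (-11)) (den' := 1760772694314738373577711172401905059814453125000) (N' := 20) (by norm_num) (by norm_num) (by norm_num))))).shift 5 (by norm_num) (-11) 0 (by norm_num))).cast (lo' := (-11)) (den' := 8803863471573691867888555862009525299072265625000) (N' := 20) (by norm_num) (by norm_num) (by norm_num))))).norm L_I0_1_1_6B Q_I0_1_1_6B 288484998236526735126972198486328125000 399 20 (by norm_num) (by norm_num) (by decide +kernel)).cast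
    (by norm_num) rfl rfl

/-- Certificate node. -/
def I0_1_2_4A : K := (lieA (2) phi1 (litK (-1) 1 L_qc1) dphi1 I0_1_1_3A I0_1_1_3B)

theorem r_I0_1_2_4A : Rep pa (-3) 476837158203125 18 (.lit L_I0_1_2_4A) I0_1_2_4A :=
  ((((((((((((((r_phi1).oneMul (t_I0_1_1_3A) 18 (by norm_num) (by norm_num))).ratMul (2) 1 (by norm_num))).cast (lo' := (-3)) (den' := 710542735760100185871124267578125) (N' := 18) (by norm_num) (by norm_num) (by norm_num))).add ((((((((rep_litK (-1) 1 L_qc1 (by norm_num) 21)).oneMul (((rep_jac).oneMul (((t_I0_1_1_3A).ddw)) 18 (by norm_num) (by norm_num))) 18 (by norm_num) (by norm_num))).shift 25 (by norm_num) (-3) 0 (by norm_num))).cast (lo' := (-3)) (den' := 710542735760100185871124267578125) (N' := 18) (by norm_num) (by norm_num) (by norm_num))))).cast (lo' := (-3)) (den' := 710542735760100185871124267578125) (N' := 18) (by norm_num) (by norm_num) (by norm_num))).sub (((((((r_dphi1).oneMul (t_I0_1_1_3B) 18 (by norm_num) (by norm_num))).shift 11920928955078125 (by norm_num) (-3) 0 (by norm_num))).cast (lo' :=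 (-3)) (den' := 710542735760100185871124267578125) (N' := 18) (by norm_num) (by norm_num) (by norm_num))))).norm L_I0_1_2_4A Q_I0_1_2_4A 476837158203125 252 18 (by norm_num) (by norm_num) (by decide +kernel)).cast
    (by norm_num) rfl rfl

/-- Certificate node. -/
def I0_1_2_4B : K := (lieB (3) (1) phi1 (litK (-1) 1 L_qc1) dq1 I0_1_1_3A I0_1_1_3B)

theorem r_I0_1_2_4B : Rep pa (-2) 11920928955078125 18 (.lit L_I0_1_2_4B) I0_1_2_4B :=
  ((((((((((((((r_phi1).oneMul (t_I0_1_1_3B) 18 (by norm_num) (by norm_num))).ratMul (3) 1 (by norm_num))).cast (lo' := (-2)) (den' := 37252902984619140625) (N' := 18) (by norm_num) (by norm_num) (by norm_num))).add ((((((((rep_litK (-1) 1 L_qc1 (by norm_num) 21)).oneMul (((rep_jac).oneMul (((t_I0_1_1_3B).ddw)) 18 (by norm_num) (by norm_num))) 18 (by norm_num) (by norm_num))).shift 25 (by norm_num) (-2) 0 (by norm_num))).cast (lo' := (-2)) (den' := 37252902984619140625) (N' := 18) (by norm_num) (by norm_num) (by norm_num))))).cast (lo' := (-2)) (den' := 37252902984619140625) (N' := 18) (by norm_num)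 (by norm_num) (by norm_num))).sub ((((((((((((((((rep_litK (-1) 1 L_qc1 (by norm_num) 21)).oneMul (t_I0_1_1_3A) 18 (by norm_num) (by norm_num))).ratMul (1) 1 (by norm_num))).shift 3125 (by norm_num) (-2) 0 (by norm_num))).cast (lo' := (-2)) (den' := 7450580596923828125) (N' := 18) (by norm_num) (by norm_num) (by norm_num))).add (((((r_dq1).oneMul (t_I0_1_1_3B) 18 (by norm_num) (by norm_num))).cast (lo' := (-2)) (den' := 7450580596923828125) (N' := 18) (by norm_num) (by norm_num) (by norm_num))))).shift 5 (by norm_num) (-2) 0 (by norm_num))).cast (lo' := (-2)) (den' := 37252902984619140625) (N' := 18) (by norm_num) (by norm_num) (by norm_num))))).norm L_I0_1_2_4B Q_I0_1_2_4B 11920928955078125 171 18 (by norm_num) (by norm_num) (by decide +kernel)).cast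
    (by norm_num) rfl rfl

/-- Certificate node. -/
def I0_1_2_5A : K := (lieA (3) phi1 (litK (-1) 1 L_qc1) dphi1 I0_1_1_4A I0_1_1_4B)

theorem r_I0_1_2_5A : Rep pa (-5) 931322574615478515625 20 (.lit L_I0_1_2_5A) I0_1_2_5A :=
  ((((((((((((((r_phi1).oneMul (r_I0_1_1_4A) 20 (by norm_num) (by norm_num))).ratMul (3) 1 (by norm_num))).cast (lo' := (-5)) (den' := 1387778780781445675529539585113525390625) (N' := 20) (by norm_num) (by norm_num) (by norm_num))).add ((((((((rep_litK (-1) 1 L_qc1 (by norm_num) 21)).oneMul (((rep_jac).oneMul (((r_I0_1_1_4A).ddw)) 20 (by norm_num) (by norm_num))) 20 (by norm_num) (by norm_num))).shift 25 (by norm_num) (-5) 0 (by norm_num))).cast (lo' := (-5)) (den' := 1387778780781445675529539585113525390625) (N' := 20) (by norm_num) (by norm_num) (by norm_num))))).cast (lo' := (-5)) (den' := 1387778780781445675529539585113525390625) (N' := 20) (by norm_num) (by norm_num) (by norm_num))).sub (((((((r_dphi1).oneMul (r_I0_1_1_4B) 20 (by norm_num) (by norm_num))).shift 625 (by norm_num) (-5) 0 (by norm_num))).cast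 (lo' := (-5)) (den' := 1387778780781445675529539585113525390625) (N' := 20) (by norm_num) (by norm_num) (by norm_num))))).norm L_I0_1_2_5A Q_I0_1_2_5A 931322574615478515625 311 20 (by norm_num) (by norm_num) (by decide +kernel)).cast
    (by norm_num) rfl rfl

/-- Certificate node. -/
def I0_1_2_5B : K := (lieB (4) (1) phi1 (litK (-1) 1 L_qc1) dq1 I0_1_1_4A I0_1_1_4B)

theorem r_I0_1_2_5B : Rep pa (-4) 23283064365386962890625 20 (.lit L_I0_1_2_5B) I0_1_2_5B :=
  ((((((((((((((r_phi1).oneMul (r_I0_1_1_4B) 20 (by norm_num) (by norm_num))).ratMul (4) 1 (by norm_num))).cast (lo' := (-4)) (den' := 1387778780781445675529539585113525390625) (N' := 20) (by norm_num) (by norm_num) (by norm_num))).add ((((((((rep_litK (-1) 1 L_qc1 (by norm_num) 21)).oneMul (((rep_jac).oneMul (((r_I0_1_1_4B).ddw)) 20 (by norm_num) (by norm_num))) 20 (by norm_num) (by norm_num))).shift 25 (by norm_num) (-4) 0 (by norm_num))).cast (lo' := (-4)) (den' := 1387778780781445675529539585113525390625) (N' := 20) (by norm_num) (by norm_num) (by norm_num))))).cast (lo'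 := (-4)) (den' := 1387778780781445675529539585113525390625) (N' := 20) (by norm_num) (by norm_num) (by norm_num))).sub ((((((((((((((((rep_litK (-1) 1 L_qc1 (by norm_num) 21)).oneMul (r_I0_1_1_4A) 20 (by norm_num) (by norm_num))).ratMul (1) 1 (by norm_num))).shift 59604644775390625 (by norm_num) (-4) 0 (by norm_num))).cast (lo' := (-4)) (den' := 277555756156289135105907917022705078125) (N' := 20) (by norm_num) (by norm_num) (by norm_num))).add (((((r_dq1).oneMul (r_I0_1_1_4B) 20 (by norm_num) (by norm_num))).cast (lo' := (-4)) (den' := 277555756156289135105907917022705078125) (N' := 20) (by norm_num) (by norm_num) (by norm_num))))).shift 5 (by norm_num) (-4) 0 (by norm_num))).cast (lo' := (-4)) (den' := 1387778780781445675529539585113525390625) (N' := 20) (by norm_num) (by norm_num) (by norm_num))))).norm L_I0_1_2_5B Q_I0_1_2_5B 23283064365386962890625 304 20 (by norm_num) (by norm_num) (by decide +kernel)).cast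
    (by norm_num) rfl rfl

/-- Certificate node. -/
def I0_1_2_6A : K := (lieA (4) phi1 (litK (-1) 1 L_qc1) dphi1 I0_1_1_5A I0_1_1_5B)

theorem r_I0_1_2_6A : Rep pa (-12) 915676355361938476562500 20 (.lit L_I0_1_2_6A) I0_1_2_6A :=
  ((((((((((((((r_phi1).oneMul (r_I0_1_1_5A) 20 (by norm_num) (by norm_num))).ratMul (4) 1 (by norm_num))).cast (lo' := (-12)) (den' := 5457856389057269552722573280334472656250000) (N' := 20) (by norm_num) (by norm_num) (by norm_num))).add ((((((((rep_litK (-1) 1 L_qc1 (by norm_num) 21)).oneMul (((rep_jac).oneMul (((r_I0_1_1_5A).ddw)) 20 (by norm_num) (by norm_num))) 20 (by norm_num) (by norm_num))).shift 25 (by norm_num) (-12) 0 (by norm_num))).cast (lo' := (-12)) (den' := 5457856389057269552722573280334472656250000) (N' := 20) (by norm_num) (by norm_num) (by norm_num))))).cast (lo' := (-12)) (den' := 5457856389057269552722573280334472656250000) (N' := 20) (by norm_num) (by norm_num) (by norm_num))).sub (((((((r_dphi1).oneMul (r_I0_1_1_5B) 20 (by norm_num) (by norm_num))).shift 125 (by norm_num) (-12)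 0 (by norm_num))).cast (lo' := (-12)) (den' := 5457856389057269552722573280334472656250000) (N' := 20) (by norm_num) (by norm_num) (by norm_num))))).norm L_I0_1_2_6A Q_I0_1_2_6A 915676355361938476562500 337 20 (by norm_num) (by norm_num) (by decide +kernel)).cast
    (by norm_num) rfl rfl

/-- Certificate node. -/
def I0_1_2_6B : K := (lieB (5) (1) phi1 (litK (-1) 1 L_qc1) dq1 I0_1_1_5A I0_1_1_5B)

theorem r_I0_1_2_6B : Rep pa (-11) 9156763553619384765625000 20 (.lit L_I0_1_2_6B) I0_1_2_6B :=
  ((((((((((((((r_phi1).oneMul (r_I0_1_1_5B) 20 (by norm_num) (by norm_num))).ratMul (5) 1 (by norm_num))).cast (lo' := (-11)) (den' := 27289281945286347763612866401672363281250000) (N' := 20) (by norm_num) (by norm_num) (by norm_num))).add ((((((((rep_litK (-1) 1 L_qc1 (by norm_num) 21)).oneMul (((rep_jac).oneMul (((r_I0_1_1_5B).ddw)) 20 (by norm_num) (by norm_num))) 20 (by norm_num) (by norm_num))).shift 25 (by norm_num) (-11) 0 (by norm_num))).cast (lo' := (-11)) (den' := 27289281945286347763612866401672363281250000) (N' := 20) (by norm_num)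 (by norm_num) (by norm_num))))).cast (lo' := (-11)) (den' := 27289281945286347763612866401672363281250000) (N' := 20) (by norm_num) (by norm_num) (by norm_num))).sub ((((((((((((((((rep_litK (-1) 1 L_qc1 (by norm_num) 21)).oneMul (r_I0_1_1_5A) 20 (by norm_num) (by norm_num))).ratMul (1) 1 (by norm_num))).shift 298023223876953125 (by norm_num) (-11) 0 (by norm_num))).cast (lo' := (-11)) (den' := 5457856389057269552722573280334472656250000) (N' := 20) (by norm_num) (by norm_num) (by norm_num))).add (((((r_dq1).oneMul (r_I0_1_1_5B) 20 (by norm_num) (by norm_num))).cast (lo' := (-11)) (den' := 5457856389057269552722573280334472656250000) (N' := 20) (by norm_num) (by norm_num) (by norm_num))))).shift 5 (by norm_num) (-11) 0 (by norm_num))).cast (lo' := (-11)) (den' := 27289281945286347763612866401672363281250000) (N' := 20) (by norm_num) (by norm_num) (by norm_num))))).norm L_I0_1_2_6B Q_I0_1_2_6B 9156763553619384765625000 336 20 (by norm_num) (by norm_num) (by decide +kernel)).cast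
    (by norm_num) rfl rfl

/-- Certificate node. -/
def I0_1_3_5A : K := (lieA (3) phi1 (litK (-1) 1 L_qc1) dphi1 I0_1_2_4A I0_1_2_4B)

theorem r_I0_1_3_5A : Rep pa (-5) 476837158203125 18 (.lit L_I0_1_3_5A) I0_1_3_5A :=
  ((((((((((((((r_phi1).oneMul (r_I0_1_2_4A) 18 (by norm_num) (by norm_num))).ratMul (3) 1 (by norm_num))).cast (lo' := (-5)) (den' := 142108547152020037174224853515625) (N' := 18) (by norm_num) (by norm_num) (by norm_num))).add ((((((((rep_litK (-1) 1 L_qc1 (by norm_num) 21)).oneMul (((rep_jac).oneMul (((r_I0_1_2_4A).ddw)) 18 (by norm_num) (by norm_num))) 18 (by norm_num) (by norm_num))).shift 25 (by norm_num) (-5) 0 (by norm_num))).cast (lo' := (-5)) (den' := 142108547152020037174224853515625) (N' := 18) (by norm_num) (by norm_num) (by norm_num))))).cast (lo' := (-5)) (den' := 142108547152020037174224853515625) (N' := 18) (by norm_num) (by norm_num) (by norm_num))).sub (((((((r_dphi1).oneMul (r_I0_1_2_4B) 18 (by norm_num) (by norm_num))).shift 25 (by norm_num) (-5) 0 (by norm_num))).cast (lo' := (-5)) (den' :=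 142108547152020037174224853515625) (N' := 18) (by norm_num) (by norm_num) (by norm_num))))).norm L_I0_1_3_5A Q_I0_1_3_5A 476837158203125 256 18 (by norm_num) (by norm_num) (by decide +kernel)).cast
    (by norm_num) rfl rfl

/-- Certificate node. -/
def I0_1_3_5B : K := (lieB (4) (1) phi1 (litK (-1) 1 L_qc1) dq1 I0_1_2_4A I0_1_2_4B)

theorem r_I0_1_3_5B : Rep pa (-4) 2384185791015625 18 (.lit L_I0_1_3_5B) I0_1_3_5B :=
  ((((((((((((((r_phi1).oneMul (r_I0_1_2_4B) 18 (by norm_num) (by norm_num))).ratMul (4) 1 (by norm_num))).cast (lo' := (-4)) (den' := 3552713678800500929355621337890625) (N' := 18) (by norm_num) (by norm_num) (by norm_num))).add ((((((((rep_litK (-1) 1 L_qc1 (by norm_num) 21)).oneMul (((rep_jac).oneMul (((r_I0_1_2_4B).ddw)) 18 (by norm_num) (by norm_num))) 18 (by norm_num) (by norm_num))).shift 25 (by norm_num) (-4) 0 (by norm_num))).cast (lo' := (-4)) (den' := 3552713678800500929355621337890625) (N' := 18) (by norm_num) (by norm_num) (by norm_num))))).cast (lo' := (-4)) (den' := 3552713678800500929355621337890625)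 (N' := 18) (by norm_num) (by norm_num) (by norm_num))).sub ((((((((((((((((rep_litK (-1) 1 L_qc1 (by norm_num) 21)).oneMul (r_I0_1_2_4A) 18 (by norm_num) (by norm_num))).ratMul (1) 1 (by norm_num))).shift 1490116119384765625 (by norm_num) (-4) 0 (by norm_num))).cast (lo' := (-4)) (den' := 710542735760100185871124267578125) (N' := 18) (by norm_num) (by norm_num) (by norm_num))).add (((((r_dq1).oneMul (r_I0_1_2_4B) 18 (by norm_num) (by norm_num))).cast (lo' := (-4)) (den' := 710542735760100185871124267578125) (N' := 18) (by norm_num) (by norm_num) (by norm_num))))).shift 5 (by norm_num) (-4) 0 (by norm_num))).cast (lo' := (-4)) (den' := 3552713678800500929355621337890625) (N' := 18) (by norm_num) (by norm_num) (by norm_num))))).norm L_I0_1_3_5B Q_I0_1_3_5B 2384185791015625 258 18 (by norm_num) (by norm_num) (by decide +kernel)).cast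
    (by norm_num) rfl rfl

/-- Certificate node. -/
def I0_1_3_6A : K := (lieA (4) phi1 (litK (-1) 1 L_qc1) dphi1 I0_1_2_5A I0_1_2_5B)

theorem r_I0_1_3_6A : Rep pa (-7) 931322574615478515625 20 (.lit L_I0_1_3_6A) I0_1_3_6A :=
  ((((((((((((((r_phi1).oneMul (r_I0_1_2_5A) 20 (by norm_num) (by norm_num))).ratMul (4) 1 (by norm_num))).cast (lo' := (-7)) (den' := 277555756156289135105907917022705078125) (N' := 20) (by norm_num) (by norm_num) (by norm_num))).add ((((((((rep_litK (-1) 1 L_qc1 (by norm_num) 21)).oneMul (((rep_jac).oneMul (((r_I0_1_2_5A).ddw)) 20 (by norm_num) (by norm_num))) 20 (by norm_num) (by norm_num))).shift 25 (by norm_num) (-7) 0 (by norm_num))).cast (lo' := (-7)) (den' := 277555756156289135105907917022705078125) (N' := 20) (by norm_num) (by norm_num) (by norm_num))))).cast (lo' := (-7)) (den' := 277555756156289135105907917022705078125) (N' := 20) (by norm_num) (by norm_num) (by norm_num))).sub (((((((r_dphi1).oneMul (r_I0_1_2_5B) 20 (by norm_num) (by norm_num))).shift 25 (by norm_num) (-7) 0 (by norm_num))).cast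 (lo' := (-7)) (den' := 277555756156289135105907917022705078125) (N' := 20) (by norm_num) (by norm_num) (by norm_num))))).norm L_I0_1_3_6A Q_I0_1_3_6A 931322574615478515625 315 20 (by norm_num) (by norm_num) (by decide +kernel)).cast
    (by norm_num) rfl rfl

/-- Certificate node. -/
def I0_1_3_6B : K := (lieB (5) (1) phi1 (litK (-1) 1 L_qc1) dq1 I0_1_2_5A I0_1_2_5B)

theorem r_I0_1_3_6B : Rep pa (-6) 4656612873077392578125 20 (.lit L_I0_1_3_6B) I0_1_3_6B :=
  ((((((((((((((r_phi1).oneMul (r_I0_1_2_5B) 20 (by norm_num) (by norm_num))).ratMul (5) 1 (by norm_num))).cast (lo' := (-6)) (den' := 6938893903907228377647697925567626953125) (N' := 20) (by norm_num) (by norm_num) (by norm_num))).add ((((((((rep_litK (-1) 1 L_qc1 (by norm_num) 21)).oneMul (((rep_jac).oneMul (((r_I0_1_2_5B).ddw)) 20 (by norm_num) (by norm_num))) 20 (by norm_num) (by norm_num))).shift 25 (by norm_num) (-6) 0 (by norm_num))).cast (lo' := (-6)) (den' := 6938893903907228377647697925567626953125) (N' := 20) (by norm_num) (by norm_num) (by norm_num))))).cast (lo'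 := (-6)) (den' := 6938893903907228377647697925567626953125) (N' := 20) (by norm_num) (by norm_num) (by norm_num))).sub ((((((((((((((((rep_litK (-1) 1 L_qc1 (by norm_num) 21)).oneMul (r_I0_1_2_5A) 20 (by norm_num) (by norm_num))).ratMul (1) 1 (by norm_num))).shift 1490116119384765625 (by norm_num) (-6) 0 (by norm_num))).cast (lo' := (-6)) (den' := 1387778780781445675529539585113525390625) (N' := 20) (by norm_num) (by norm_num) (by norm_num))).add (((((r_dq1).oneMul (r_I0_1_2_5B) 20 (by norm_num) (by norm_num))).cast (lo' := (-6)) (den' := 1387778780781445675529539585113525390625) (N' := 20) (by norm_num) (by norm_num) (by norm_num))))).shift 5 (by norm_num) (-6) 0 (by norm_num))).cast (lo' := (-6)) (den' := 6938893903907228377647697925567626953125) (N' := 20) (by norm_num) (by norm_num) (by norm_num))))).norm L_I0_1_3_6B Q_I0_1_3_6B 4656612873077392578125 317 20 (by norm_num) (by norm_num) (by decide +kernel)).cast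
    (by norm_num) rfl rfl

/-- Certificate node. -/
def I0_1_4_6A : K := (lieA (4) phi1 (litK (-1) 1 L_qc1) dphi1 I0_1_3_5A I0_1_3_5B)

theorem r_I0_1_4_6A : Rep pa (-7) 95367431640625 18 (.lit L_I0_1_4_6A) I0_1_4_6A :=
  ((((((((((((((r_phi1).oneMul (r_I0_1_3_5A) 18 (by norm_num) (by norm_num))).ratMul (4) 1 (by norm_num))).cast (lo' := (-7)) (den' := 142108547152020037174224853515625) (N' := 18) (by norm_num) (by norm_num) (by norm_num))).add ((((((((rep_litK (-1) 1 L_qc1 (by norm_num) 21)).oneMul (((rep_jac).oneMul (((r_I0_1_3_5A).ddw)) 18 (by norm_num) (by norm_num))) 18 (by norm_num) (by norm_num))).shift 25 (by norm_num) (-7) 0 (by norm_num))).cast (lo' := (-7)) (den' := 142108547152020037174224853515625) (N' := 18) (by norm_num) (by norm_num) (by norm_num))))).cast (lo' := (-7)) (den' := 142108547152020037174224853515625) (N' := 18) (by norm_num) (by norm_num) (by norm_num))).sub (((((((r_dphi1).oneMul (r_I0_1_3_5B) 18 (by norm_num) (by norm_num))).shift 125 (by norm_num) (-7) 0 (by norm_num))).cast (lo' := (-7)) (den' :=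 142108547152020037174224853515625) (N' := 18) (by norm_num) (by norm_num) (by norm_num))))).norm L_I0_1_4_6A Q_I0_1_4_6A 95367431640625 260 18 (by norm_num) (by norm_num) (by decide +kernel)).cast
    (by norm_num) rfl rfl

/-- Certificate node. -/
def I0_1_4_6B : K := (lieB (5) (1) phi1 (litK (-1) 1 L_qc1) dq1 I0_1_3_5A I0_1_3_5B)

theorem r_I0_1_4_6B : Rep pa (-6) 476837158203125 18 (.lit L_I0_1_4_6B) I0_1_4_6B :=
  ((((((((((((((r_phi1).oneMul (r_I0_1_3_5B) 18 (by norm_num) (by norm_num))).ratMul (5) 1 (by norm_num))).cast (lo' := (-6)) (den' := 710542735760100185871124267578125) (N' := 18) (by norm_num) (by norm_num) (by norm_num))).add ((((((((rep_litK (-1) 1 L_qc1 (by norm_num) 21)).oneMul (((rep_jac).oneMul (((r_I0_1_3_5B).ddw)) 18 (by norm_num) (by norm_num))) 18 (by norm_num) (by norm_num))).shift 25 (by norm_num) (-6) 0 (by norm_num))).cast (lo' := (-6)) (den' := 710542735760100185871124267578125) (N' := 18) (by norm_num) (by norm_num) (by norm_num))))).cast (lo' := (-6)) (den' := 710542735760100185871124267578125) (N'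 := 18) (by norm_num) (by norm_num) (by norm_num))).sub ((((((((((((((((rep_litK (-1) 1 L_qc1 (by norm_num) 21)).oneMul (r_I0_1_3_5A) 18 (by norm_num) (by norm_num))).ratMul (1) 1 (by norm_num))).shift 298023223876953125 (by norm_num) (-6) 0 (by norm_num))).cast (lo' := (-6)) (den' := 142108547152020037174224853515625) (N' := 18) (by norm_num) (by norm_num) (by norm_num))).add (((((r_dq1).oneMul (r_I0_1_3_5B) 18 (by norm_num) (by norm_num))).cast (lo' := (-6)) (den' := 142108547152020037174224853515625) (N' := 18) (by norm_num) (by norm_num) (by norm_num))))).shift 5 (by norm_num) (-6) 0 (by norm_num))).cast (lo' := (-6)) (den' := 710542735760100185871124267578125) (N' := 18) (by norm_num) (by norm_num) (by norm_num))))).norm L_I0_1_4_6B Q_I0_1_4_6B 476837158203125 260 18 (by norm_num) (by norm_num) (by decide +kernel)).cast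
    (by norm_num) rfl rfl

/-- Certificate node. -/
def Z0_1_3A : K := (D0_3 + (zc (1) • I0_1_1_3A))

theorem r_Z0_1_3A : Rep pa (-1) 37252902984619140625 18 (.lit L_Z0_1_3A) Z0_1_3A :=
  ((((((((r_D0_3).mono (N' := 18) (by norm_num))).cast (lo' := (-1)) (den' := 931322574615478515625) (N' := 18) (by norm_num) (by norm_num) (by norm_num))).add (((((((t_I0_1_1_3A).ratMul (1) 1 (by norm_num))).shift 390625 (by norm_num) (-1) 0 (by norm_num))).cast (lo' := (-1)) (den' := 931322574615478515625) (N' := 18) (by norm_num) (by norm_num) (by norm_num))))).norm L_Z0_1_3A Q_Z0_1_3A 37252902984619140625 181 18 (by norm_num) (by norm_num) (by decide +kernel)).cast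
    (by norm_num) rfl rfl

theorem t_Z0_1_3A : Rep pa (0) 37252902984619140625 17 (.lit T_Z0_1_3A) Z0_1_3A :=
  ((r_Z0_1_3A.cast rfl rfl (by norm_num : 18 = 1 + 17)).trim 1 (by decide +kernel)).cast (by norm_num) rfl rfl |> fun h => (show L_Z0_1_3A.drop 1 = T_Z0_1_3A by decide +kernel) ▸ h

/-- Certificate node. -/
def Z0_1_3B : K := ((0 : K) + (zc (1) • I0_1_1_3B))

theorem r_Z0_1_3B : Rep pa (0) 125 18 (.lit L_Z0_1_3B) Z0_1_3B :=
  (((((((((((rep_zero pa (0) 100)).shift 125 (by norm_num) (0) 0 (by norm_num))).mono (N' := 18) (by norm_num))).cast (lo' := (0)) (den' := 125) (N' := 18) (by norm_num) (by norm_num) (by norm_num))).add (((((t_I0_1_1_3B).ratMul (1) 1 (by norm_num))).cast (lo' := (0)) (den' := 125) (N' := 18) (by norm_num) (by norm_num) (by norm_num))))).norm L_Z0_1_3B Q_Z0_1_3B 125 19 18 (by norm_num) (by norm_num) (by decide +kernel)).cast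
    (by norm_num) rfl rfl

/-- Certificate node. -/
def Z0_1_4A : K := ((D0_4 + (zc (1) • I0_1_1_4A)) + ((((1 : ℤ) : ℂ) / ((2 : ℕ) : ℂ)) • I0_1_2_4A))

theorem r_Z0_1_4A : Rep pa (-8) 18313527107238769531250000 20 (.lit L_Z0_1_4A) Z0_1_4A :=
  ((((((((((((r_D0_4).shift 5 (by norm_num) (-8) 0 (by norm_num))).cast (lo' := (-8)) (den' := 91567635536193847656250000) (N' := 20) (by norm_num) (by norm_num) (by norm_num))).add (((((((((r_I0_1_1_4A).ratMul (1) 1 (by norm_num))).shift 19664 (by norm_num) (-8) 5 (by norm_num))).mono (N' := 20) (by norm_num))).cast (lo' := (-8)) (den' := 91567635536193847656250000) (N' := 20) (by norm_num) (by norm_num) (by norm_num))))).cast (lo' := (-8)) (den' := 91567635536193847656250000) (N' := 20) (by norm_num) (by norm_num) (by norm_num))).add (((((((((r_I0_1_2_4A).ratMul (1) 2 (by norm_num))).shift 96015625000 (by norm_num) (-8) 5 (by norm_num))).mono (N' := 20) (by norm_num))).cast (lo' := (-8)) (den' := 91567635536193847656250000) (N' := 20) (by norm_num) (by norm_num) (by norm_num))))).norm L_Z0_1_4A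 Q_Z0_1_4A 18313527107238769531250000 230 20 (by norm_num) (by norm_num) (by decide +kernel)).cast
    (by norm_num) rfl rfl

/-- Certificate node. -/
def Z0_1_4B : K := ((B0_4 + (zc (1) • I0_1_1_4B)) + ((((1 : ℤ) : ℂ) / ((2 : ℕ) : ℂ)) • I0_1_2_4B))

theorem r_Z0_1_4B : Rep pa (-7) 298023223876953125 20 (.lit L_Z0_1_4B) Z0_1_4B :=
  ((((((((((((((r_B0_4).shift 15625 (by norm_num) (-7) 0 (by norm_num))).cast (lo' := (-7)) (den' := 4656612873077392578125) (N' := 20) (by norm_num) (by norm_num) (by norm_num))).add (((((((((r_I0_1_1_4B).ratMul (1) 1 (by norm_num))).shift 1 (by norm_num) (-7) 5 (by norm_num))).mono (N' := 20) (by norm_num))).cast (lo' := (-7)) (den' := 4656612873077392578125) (N' := 20) (by norm_num) (by norm_num) (by norm_num))))).shift 2 (by norm_num) (-7) 0 (by norm_num))).cast (lo' := (-7)) (den' := 9313225746154785156250) (N' := 20) (by norm_num) (by norm_num) (by norm_num))).add (((((((((r_I0_1_2_4B).ratMul (1) 2 (by norm_num))).shift 390625 (by norm_num) (-7) 5 (by norm_num))).mono (N' := 20) (by norm_num))).cast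 (lo' := (-7)) (den' := 9313225746154785156250) (N' := 20) (by norm_num) (by norm_num) (by norm_num))))).norm L_Z0_1_4B Q_Z0_1_4B 298023223876953125 179 20 (by norm_num) (by norm_num) (by decide +kernel)).cast
    (by norm_num) rfl rfl

/-- Certificate node. -/
def Z0_1_5A : K := (((D0_5 + (zc (1) • I0_1_1_5A)) + ((((1 : ℤ) : ℂ) / ((2 : ℕ) : ℂ)) • I0_1_2_5A)) + ((((1 : ℤ) : ℂ) / ((6 : ℕ) : ℂ)) • I0_1_3_5A))

theorem r_Z0_1_5A : Rep pa (-10) 576969996473053470253944396972656250000 20 (.lit L_Z0_1_5A) Z0_1_5A :=
  ((((((((((((((((r_D0_5).shift 2 (by norm_num) (-10) 0 (by norm_num))).cast (lo' := (-10)) (den' := 576969996473053470253944396972656250000) (N' := 20) (by norm_num) (by norm_num) (by norm_num))).add (((((((r_I0_1_1_5A).ratMul (1) 1 (by norm_num))).shift 31505126953125 (by norm_num) (-10) 0 (by norm_num))).cast (lo' := (-10)) (den' := 576969996473053470253944396972656250000) (N' := 20) (by norm_num) (by norm_num) (by norm_num))))).cast (lo' := (-10)) (den' := 576969996473053470253944396972656250000) (N' := 20) (by norm_num)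 (by norm_num) (by norm_num))).add (((((((((r_I0_1_2_5A).ratMul (1) 2 (by norm_num))).shift 309758408203125000 (by norm_num) (-10) 5 (by norm_num))).mono (N' := 20) (by norm_num))).cast (lo' := (-10)) (den' := 576969996473053470253944396972656250000) (N' := 20) (by norm_num) (by norm_num) (by norm_num))))).cast (lo' := (-10)) (den' := 576969996473053470253944396972656250000) (N' := 20) (by norm_num) (by norm_num) (by norm_num))).add (((((((((r_I0_1_3_5A).ratMul (1) 6 (by norm_num))).shift 201665630340576171875000 (by norm_num) (-10) 5 (by norm_num))).mono (N' := 20) (by norm_num))).cast (lo' := (-10)) (den' := 576969996473053470253944396972656250000) (N' := 20) (by norm_num) (by norm_num) (by norm_num))))).norm L_Z0_1_5A Q_Z0_1_5A 576969996473053470253944396972656250000 333 20 (by norm_num) (by norm_num) (by decide +kernel)).cast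
    (by norm_num) rfl rfl

/-- Certificate node. -/
def Z0_1_5B : K := (((B0_5 + (zc (1) • I0_1_1_5B)) + ((((1 : ℤ) : ℂ) / ((2 : ℕ) : ℂ)) • I0_1_2_5B)) + ((((1 : ℤ) : ℂ) / ((6 : ℕ) : ℂ)) • I0_1_3_5B))

theorem r_Z0_1_5B : Rep pa (-9) 457838177680969238281250000 20 (.lit L_Z0_1_5B) Z0_1_5B :=
  ((((((((((((((((((((r_B0_5).shift 19664 (by norm_num) (-9) 1 (by norm_num))).mono (N' := 20) (by norm_num))).cast (lo' := (-9)) (den' := 2289190888404846191406250000) (N' := 20) (by norm_num) (by norm_num) (by norm_num))).add (((((((r_I0_1_1_5B).ratMul (1) 1 (by norm_num))).shift 25 (by norm_num) (-9) 0 (by norm_num))).cast (lo' := (-9)) (den' := 2289190888404846191406250000) (N' := 20) (by norm_num) (by norm_num) (by norm_num))))).cast (lo' := (-9)) (den' := 2289190888404846191406250000) (N' := 20) (by norm_num) (by norm_num) (by norm_num))).add (((((((((r_I0_1_2_5B).ratMul (1) 2 (by norm_num))).shift 49160 (by norm_num) (-9) 5 (by norm_num))).mono (N' := 20) (by norm_num))).cast (lo' := (-9)) (den' := 2289190888404846191406250000) (N' :=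 20) (by norm_num) (by norm_num) (by norm_num))))).shift 3 (by norm_num) (-9) 0 (by norm_num))).cast (lo' := (-9)) (den' := 6867572665214538574218750000) (N' := 20) (by norm_num) (by norm_num) (by norm_num))).add (((((((((r_I0_1_3_5B).ratMul (1) 6 (by norm_num))).shift 480078125000 (by norm_num) (-9) 5 (by norm_num))).mono (N' := 20) (by norm_num))).cast (lo' := (-9)) (den' := 6867572665214538574218750000) (N' := 20) (by norm_num) (by norm_num) (by norm_num))))).norm L_Z0_1_5B Q_Z0_1_5B 457838177680969238281250000 242 20 (by norm_num) (by norm_num) (by decide +kernel)).cast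
    (by norm_num) rfl rfl

/-- Certificate node. -/
def Z0_1_6A : K := ((((D0_6 + (zc (1) • I0_1_1_6A)) + ((((1 : ℤ) : ℂ) / ((2 : ℕ) : ℂ)) • I0_1_2_6A)) + ((((1 : ℤ) : ℂ) / ((6 : ℕ) : ℂ)) • I0_1_3_6A)) + ((((1 : ℤ) : ℂ) / ((24 : ℕ) : ℂ)) • I0_1_4_6A))

theorem r_Z0_1_6A : Rep pa (-17) 923151994356885552406311035156250000000 20 (.lit L_Z0_1_6A) Z0_1_6A :=
  ((((((((((((((((((((r_D0_6).shift 3 (by norm_num) (-17) 0 (by norm_num))).cast (lo' := (-17)) (den' := 923151994356885552406311035156250000000) (N' := 20) (by norm_num) (by norm_num) (by norm_num))).add (((((((((r_I0_1_1_6A).ratMul (1) 1 (by norm_num))).shift 16 (by norm_num) (-17) 5 (by norm_num))).mono (N' := 20) (by norm_num))).cast (lo' := (-17)) (den' := 923151994356885552406311035156250000000) (N' := 20) (by norm_num) (by norm_num) (by norm_num))))).cast (lo' := (-17)) (den' := 923151994356885552406311035156250000000) (N' := 20) (by norm_num) (by norm_num) (by norm_num))).add (((((((((r_I0_1_2_6A).ratMul (1) 2 (by norm_num))).shift 504082031250000 (by norm_num) (-17) 5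 (by norm_num))).mono (N' := 20) (by norm_num))).cast (lo' := (-17)) (den' := 923151994356885552406311035156250000000) (N' := 20) (by norm_num) (by norm_num) (by norm_num))))).cast (lo' := (-17)) (den' := 923151994356885552406311035156250000000) (N' := 20) (by norm_num) (by norm_num) (by norm_num))).add (((((((((r_I0_1_3_6A).ratMul (1) 6 (by norm_num))).shift 165204484375000000 (by norm_num) (-17) 10 (by norm_num))).mono (N' := 20) (by norm_num))).cast (lo' := (-17)) (den' := 923151994356885552406311035156250000000) (N' := 20) (by norm_num) (by norm_num) (by norm_num))))).cast (lo' := (-17)) (den' := 923151994356885552406311035156250000000) (N' := 20) (by norm_num) (by norm_num) (by norm_num))).add (((((((((r_I0_1_4_6A).ratMul (1) 24 (by norm_num))).shift 403331260681152343750000 (by norm_num) (-17) 10 (by norm_num))).mono (N' := 20) (by norm_num))).cast (lo' := (-17)) (den' := 923151994356885552406311035156250000000) (N' := 20) (by norm_num) (by norm_num) (by norm_num))))).norm L_Z0_1_6A Q_Z0_1_6A 923151994356885552406311035156250000000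 341 20 (by norm_num) (by norm_num) (by decide +kernel)).cast
    (by norm_num) rfl rfl

/-- Certificate node. -/
def Z0_1_6B : K := ((((B0_6 + (zc (1) • I0_1_1_6B)) + ((((1 : ℤ) : ℂ) / ((2 : ℕ) : ℂ)) • I0_1_2_6B)) + ((((1 : ℤ) : ℂ) / ((6 : ℕ) : ℂ)) • I0_1_3_6B)) + ((((1 : ℤ) : ℂ) / ((24 : ℕ) : ℂ)) • I0_1_4_6B))

theorem r_Z0_1_6B : Rep pa (-16) 7385215954855084419250488281250000 20 (.lit L_Z0_1_6B) Z0_1_6B :=
  ((((((((((((((((((((((r_B0_6).shift 25204101562500 (by norm_num) (-16) 0 (by norm_num))).cast (lo' := (-16)) (den' := 288484998236526735126972198486328125000) (N' := 20) (by norm_num) (by norm_num) (by norm_num))).add (((((((((r_I0_1_1_6B).ratMul (1) 1 (by norm_num))).shift 1 (by norm_num) (-16) 5 (by norm_num))).mono (N' := 20) (by norm_num))).cast (lo' := (-16)) (den' := 288484998236526735126972198486328125000) (N' := 20) (by norm_num) (by norm_num) (by norm_num))))).shift 2 (by norm_num) (-16) 0 (by norm_num))).cast (lo' := (-16)) (den' := 576969996473053470253944396972656250000) (N' := 20) (by norm_num) (by norm_num)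 (by norm_num))).add (((((((((r_I0_1_2_6B).ratMul (1) 2 (by norm_num))).shift 31505126953125 (by norm_num) (-16) 5 (by norm_num))).mono (N' := 20) (by norm_num))).cast (lo' := (-16)) (den' := 576969996473053470253944396972656250000) (N' := 20) (by norm_num) (by norm_num) (by norm_num))))).cast (lo' := (-16)) (den' := 576969996473053470253944396972656250000) (N' := 20) (by norm_num) (by norm_num) (by norm_num))).add (((((((((r_I0_1_3_6B).ratMul (1) 6 (by norm_num))).shift 20650560546875000 (by norm_num) (-16) 10 (by norm_num))).mono (N' := 20) (by norm_num))).cast (lo' := (-16)) (den' := 576969996473053470253944396972656250000) (N' := 20) (by norm_num) (by norm_num) (by norm_num))))).cast (lo' := (-16)) (den' := 576969996473053470253944396972656250000) (N' := 20) (by norm_num) (by norm_num) (by norm_num))).add (((((((((r_I0_1_4_6B).ratMul (1) 24 (by norm_num))).shift 50416407585144042968750 (by norm_num) (-16) 10 (by norm_num))).mono (N' := 20) (by norm_num))).cast (lo' := (-16)) (den' := 576969996473053470253944396972656250000)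 (N' := 20) (by norm_num) (by norm_num) (by norm_num))))).norm L_Z0_1_6B Q_Z0_1_6B 7385215954855084419250488281250000 316 20 (by norm_num) (by norm_num) (by decide +kernel)).cast
    (by norm_num) rfl rfl

/-- Certificate node. -/
def I0_2_1_4A : K := (lieA (0) phi2 (litK (-8) 390625 L_qc2) dphi2 D0_2 (0 : K))

theorem r_I0_2_1_4A : Rep pa (-10) 476837158203125 20 (.lit L_I0_2_1_4A) I0_2_1_4A :=
  ((((((((((((((((((r_phi2).oneMul (t_D0_2) 18 (by norm_num) (by norm_num))).ratMul (0) 1 (by norm_num))).shift 390625 (by norm_num) (-8) 0 (by norm_num))).cast (lo' := (-8)) (den' := 1164153218269348144531250) (N' := 18) (by norm_num) (by norm_num) (by norm_num))).add ((((((((rep_litK (-8) 390625 L_qc2 (by norm_num) 28)).oneMul (((rep_jac).oneMul (((t_D0_2).ddw)) 18 (by norm_num) (by norm_num))) 18 (by norm_num) (by norm_num))).shift 2 (by norm_num) (-8) 0 (by norm_num))).cast (lo' := (-8)) (den' := 1164153218269348144531250) (N' := 18) (by norm_num) (by norm_num) (by norm_num))))).shift 1 (by norm_num) (-10) 2 (by norm_num))).cast (lo'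 := (-10)) (den' := 1164153218269348144531250) (N' := 20) (by norm_num) (by norm_num) (by norm_num))).sub (((((((r_dphi2).oneMul ((rep_zero pa (0) 100)) 20 (by norm_num) (by norm_num))).shift 2441406250 (by norm_num) (-10) 0 (by norm_num))).cast (lo' := (-10)) (den' := 1164153218269348144531250) (N' := 20) (by norm_num) (by norm_num) (by norm_num))))).norm L_I0_2_1_4A Q_I0_2_1_4A 476837158203125 192 20 (by norm_num) (by norm_num) (by decide +kernel)).cast
    (by norm_num) rfl rfl

theorem t_I0_2_1_4A : Rep pa (-8) 476837158203125 18 (.lit T_I0_2_1_4A) I0_2_1_4A :=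
  ((r_I0_2_1_4A.cast rfl rfl (by norm_num : 20 = 2 + 18)).trim 2 (by decide +kernel)).cast (by norm_num) rfl rfl |> fun h => (show L_I0_2_1_4A.drop 2 = T_I0_2_1_4A by decide +kernel) ▸ h

/-- Certificate node. -/
def I0_2_1_4B : K := (lieB (2) (2) phi2 (litK (-8) 390625 L_qc2) dq2 D0_2 (0 : K))

theorem r_I0_2_1_4B : Rep pa (-9) 9765625 20 (.lit L_I0_2_1_4B) I0_2_1_4B :=
  ((((((((((((((((r_phi2).oneMul ((rep_zero pa (0) 100)) 20 (by norm_num) (by norm_num))).ratMul (2) 1 (by norm_num))).shift 390625 (by norm_num) (-9) 0 (by norm_num))).cast (lo' := (-9)) (den' := 9313225746154785156250) (N' := 20) (by norm_num) (by norm_num) (by norm_num))).add ((((((((rep_litK (-8) 390625 L_qc2 (by norm_num) 28)).oneMul (((rep_jac).oneMul ((((rep_zero pa (0) 100)).ddw)) 20 (by norm_num) (by norm_num))) 20 (by norm_num) (by norm_num))).shift 2 (by norm_num) (-9) 0 (by norm_num))).cast (lo' := (-9)) (den' := 9313225746154785156250) (N' := 20) (by norm_num) (by norm_num) (by norm_num))))).cast (lo' := (-9)) (den' := 9313225746154785156250) (N' :=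 20) (by norm_num) (by norm_num) (by norm_num))).sub ((((((((((((((((rep_litK (-8) 390625 L_qc2 (by norm_num) 28)).oneMul (t_D0_2) 18 (by norm_num) (by norm_num))).ratMul (2) 1 (by norm_num))).shift 244140625 (by norm_num) (-9) 2 (by norm_num))).cast (lo' := (-9)) (den' := 11920928955078125) (N' := 20) (by norm_num) (by norm_num) (by norm_num))).add (((((r_dq2).oneMul ((rep_zero pa (0) 100)) 20 (by norm_num) (by norm_num))).cast (lo' := (-9)) (den' := 11920928955078125) (N' := 20) (by norm_num) (by norm_num) (by norm_num))))).shift 781250 (by norm_num) (-9) 0 (by norm_num))).cast (lo' := (-9)) (den' := 9313225746154785156250) (N' := 20) (by norm_num) (by norm_num) (by norm_num))))).norm L_I0_2_1_4B Q_I0_2_1_4B 9765625 115 20 (by norm_num) (by norm_num) (by decide +kernel)).cast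
    (by norm_num) rfl rfl

theorem t_I0_2_1_4B : Rep pa (-7) 9765625 18 (.lit T_I0_2_1_4B) I0_2_1_4B :=
  ((r_I0_2_1_4B.cast rfl rfl (by norm_num : 20 = 2 + 18)).trim 2 (by decide +kernel)).cast (by norm_num) rfl rfl |> fun h => (show L_I0_2_1_4B.drop 2 = T_I0_2_1_4B by decide +kernel) ▸ h

/-- Certificate node. -/
def I0_2_1_5A : K := (lieA (1) phi2 (litK (-8) 390625 L_qc2) dphi2 Z0_1_3A Z0_1_3B)

theorem r_I0_2_1_5A : Rep pa (-10) 14901161193847656250 18 (.lit L_I0_2_1_5A) I0_2_1_5A :=
  ((((((((((((((((((r_phi2).oneMul (t_Z0_1_3A) 17 (by norm_num) (by norm_num))).ratMul (1) 1 (by norm_num))).shift 390625 (by norm_num) (-9) 0 (by norm_num))).cast (lo' := (-9)) (den' := 346944695195361418882384896278381347656250) (N' := 17) (by norm_num) (by norm_num) (by norm_num))).add ((((((((rep_litK (-8) 390625 L_qc2 (by norm_num) 28)).oneMul (((rep_jac).oneMul (((t_Z0_1_3A).ddw)) 17 (by norm_num) (by norm_num))) 17 (by norm_num) (by norm_num))).shift 2 (by norm_num) (-9) 0 (by norm_num))).cast (lo' := (-9)) (den' := 346944695195361418882384896278381347656250)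 (N' := 17) (by norm_num) (by norm_num) (by norm_num))))).shift 1 (by norm_num) (-10) 1 (by norm_num))).cast (lo' := (-10)) (den' := 346944695195361418882384896278381347656250) (N' := 18) (by norm_num) (by norm_num) (by norm_num))).sub (((((((r_dphi2).oneMul (r_Z0_1_3B) 18 (by norm_num) (by norm_num))).shift 5820766091346740722656250 (by norm_num) (-10) 0 (by norm_num))).cast (lo' := (-10)) (den' := 346944695195361418882384896278381347656250) (N' := 18) (by norm_num) (by norm_num) (by norm_num))))).norm L_I0_2_1_5A Q_I0_2_1_5A 14901161193847656250 309 18 (by norm_num) (by norm_num) (by decide +kernel)).cast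
    (by norm_num) rfl rfl

/-- Certificate node. -/
def I0_2_1_5B : K := (lieB (3) (2) phi2 (litK (-8) 390625 L_qc2) dq2 Z0_1_3A Z0_1_3B)

theorem r_I0_2_1_5B : Rep pa (-9) 14901161193847656250 18 (.lit L_I0_2_1_5B) I0_2_1_5B :=
  ((((((((((((((((((r_phi2).oneMul (r_Z0_1_3B) 18 (by norm_num) (by norm_num))).ratMul (3) 1 (by norm_num))).shift 390625 (by norm_num) (-9) 0 (by norm_num))).cast (lo' := (-9)) (den' := 1164153218269348144531250) (N' := 18) (by norm_num) (by norm_num) (by norm_num))).add ((((((((rep_litK (-8) 390625 L_qc2 (by norm_num) 28)).oneMul (((rep_jac).oneMul (((r_Z0_1_3B).ddw)) 18 (by norm_num) (by norm_num))) 18 (by norm_num) (by norm_num))).shift 2 (by norm_num) (-9) 0 (by norm_num))).cast (lo' := (-9)) (den' := 1164153218269348144531250) (N' := 18) (by norm_num) (by norm_num) (by norm_num))))).shift 25 (by norm_num) (-9) 0 (by norm_num))).cast (lo' := (-9)) (den' := 29103830456733703613281250) (N' := 18) (by norm_num) (by norm_num) (by norm_num))).sub ((((((((((((((((rep_litK (-8) 390625 L_qc2 (by norm_num)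 28)).oneMul (t_Z0_1_3A) 17 (by norm_num) (by norm_num))).ratMul (2) 1 (by norm_num))).shift 1 (by norm_num) (-9) 1 (by norm_num))).cast (lo' := (-9)) (den' := 14551915228366851806640625) (N' := 18) (by norm_num) (by norm_num) (by norm_num))).add (((((((r_dq2).oneMul (r_Z0_1_3B) 18 (by norm_num) (by norm_num))).shift 9765625 (by norm_num) (-9) 0 (by norm_num))).cast (lo' := (-9)) (den' := 14551915228366851806640625) (N' := 18) (by norm_num) (by norm_num) (by norm_num))))).shift 2 (by norm_num) (-9) 0 (by norm_num))).cast (lo' := (-9)) (den' := 29103830456733703613281250) (N' := 18) (by norm_num) (by norm_num) (by norm_num))))).norm L_I0_2_1_5B Q_I0_2_1_5B 14901161193847656250 214 18 (by norm_num) (by norm_num) (by decide +kernel)).cast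
    (by norm_num) rfl rfl

/-- Certificate node. -/
def I0_2_1_6A : K := (lieA (2) phi2 (litK (-8) 390625 L_qc2) dphi2 Z0_1_4A Z0_1_4B)

theorem r_I0_2_1_6A : Rep pa (-17) 732541084289550781250000 20 (.lit L_I0_2_1_6A) I0_2_1_6A :=
  ((((((((((((((((r_phi2).oneMul (r_Z0_1_4A) 20 (by norm_num) (by norm_num))).ratMul (2) 1 (by norm_num))).shift 390625 (by norm_num) (-17) 0 (by norm_num))).cast (lo' := (-17)) (den' := 170558012158039673522580415010452270507812500000) (N' := 20) (by norm_num) (by norm_num) (by norm_num))).add ((((((((rep_litK (-8) 390625 L_qc2 (by norm_num) 28)).oneMul (((rep_jac).oneMul (((r_Z0_1_4A).ddw)) 20 (by norm_num) (by norm_num))) 20 (by norm_num) (by norm_num))).shift 2 (by norm_num) (-17) 0 (by norm_num))).cast (lo' := (-17)) (den' := 170558012158039673522580415010452270507812500000) (N' := 20) (by norm_num) (by norm_num) (by norm_num))))).cast (lo' := (-17)) (den' := 170558012158039673522580415010452270507812500000) (N' := 20) (by norm_num) (by norm_num) (by norm_num))).sub (((((((r_dphi2).oneMul (r_Z0_1_4B)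 20 (by norm_num) (by norm_num))).shift 1200195312500000 (by norm_num) (-17) 0 (by norm_num))).cast (lo' := (-17)) (den' := 170558012158039673522580415010452270507812500000) (N' := 20) (by norm_num) (by norm_num) (by norm_num))))).norm L_I0_2_1_6A Q_I0_2_1_6A 732541084289550781250000 358 20 (by norm_num) (by norm_num) (by decide +kernel)).cast
    (by norm_num) rfl rfl

/-- Certificate node. -/
def I0_2_1_6B : K := (lieB (4) (2) phi2 (litK (-8) 390625 L_qc2) dq2 Z0_1_4A Z0_1_4B)

theorem r_I0_2_1_6B : Rep pa (-16) 18313527107238769531250000 20 (.lit L_I0_2_1_6B) I0_2_1_6B :=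
  ((((((((((((((((((r_phi2).oneMul (r_Z0_1_4B) 20 (by norm_num) (by norm_num))).ratMul (4) 1 (by norm_num))).shift 390625 (by norm_num) (-16) 0 (by norm_num))).cast (lo' := (-16)) (den' := 2775557561562891351059079170227050781250) (N' := 20) (by norm_num) (by norm_num) (by norm_num))).add ((((((((rep_litK (-8) 390625 L_qc2 (by norm_num) 28)).oneMul (((rep_jac).oneMul (((r_Z0_1_4B).ddw)) 20 (by norm_num) (by norm_num))) 20 (by norm_num) (by norm_num))).shift 2 (by norm_num) (-16) 0 (by norm_num))).cast (lo' := (-16)) (den' := 2775557561562891351059079170227050781250) (N' := 20) (by norm_num) (by norm_num) (by norm_num))))).shift 9832 (by norm_num) (-16) 0 (by norm_num))).cast (lo' := (-16)) (den' := 27289281945286347763612866401672363281250000) (N' := 20) (by norm_num) (by norm_num) (by norm_num))).sub ((((((((((((((((rep_litK (-8) 390625 L_qc2 (by norm_num) 28)).oneMul (r_Z0_1_4A) 20 (by norm_num) (by norm_num))).ratMul (2) 1 (by norm_num))).shift 9765625 (by norm_num) (-16) 0 (by norm_num))).cast (lo' := (-16)) (den' := 69860561779933050274848937988281250000)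 (N' := 20) (by norm_num) (by norm_num) (by norm_num))).add (((((((r_dq2).oneMul (r_Z0_1_4B) 20 (by norm_num) (by norm_num))).shift 19664 (by norm_num) (-16) 0 (by norm_num))).cast (lo' := (-16)) (den' := 69860561779933050274848937988281250000) (N' := 20) (by norm_num) (by norm_num) (by norm_num))))).shift 390625 (by norm_num) (-16) 0 (by norm_num))).cast (lo' := (-16)) (den' := 27289281945286347763612866401672363281250000) (N' := 20) (by norm_num) (by norm_num) (by norm_num))))).norm L_I0_2_1_6B Q_I0_2_1_6B 18313527107238769531250000 334 20 (by norm_num) (by norm_num) (by decide +kernel)).cast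
    (by norm_num) rfl rfl

/-- Certificate node. -/
def I0_2_2_6A : K := (lieA (2) phi2 (litK (-8) 390625 L_qc2) dphi2 I0_2_1_4A I0_2_1_4B)

theorem r_I0_2_2_6A : Rep pa (-17) 7629394531250 18 (.lit L_I0_2_2_6A) I0_2_2_6A :=
  ((((((((((((((((r_phi2).oneMul (t_I0_2_1_4A) 18 (by norm_num) (by norm_num))).ratMul (2) 1 (by norm_num))).shift 390625 (by norm_num) (-17) 0 (by norm_num))).cast (lo' := (-17)) (den' := 4440892098500626161694526672363281250) (N' := 18) (by norm_num) (by norm_num) (by norm_num))).add ((((((((rep_litK (-8) 390625 L_qc2 (by norm_num) 28)).oneMul (((rep_jac).oneMul (((t_I0_2_1_4A).ddw)) 18 (by norm_num) (by norm_num))) 18 (by norm_num) (by norm_num))).shift 2 (by norm_num) (-17) 0 (by norm_num))).cast (lo' := (-17)) (den' := 4440892098500626161694526672363281250) (N' := 18) (by norm_num) (by norm_num) (by norm_num))))).cast (lo' := (-17)) (den' := 4440892098500626161694526672363281250) (N' := 18) (by norm_num) (by norm_num) (by norm_num))).sub (((((((r_dphi2).oneMul (t_I0_2_1_4B) 18 (by norm_num) (by norm_num))).shift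 953674316406250 (by norm_num) (-17) 0 (by norm_num))).cast (lo' := (-17)) (den' := 4440892098500626161694526672363281250) (N' := 18) (by norm_num) (by norm_num) (by norm_num))))).norm L_I0_2_2_6A Q_I0_2_2_6A 7629394531250 269 18 (by norm_num) (by norm_num) (by decide +kernel)).cast
    (by norm_num) rfl rfl

/-- Certificate node. -/
def I0_2_2_6B : K := (lieB (4) (2) phi2 (litK (-8) 390625 L_qc2) dq2 I0_2_1_4A I0_2_1_4B)

theorem r_I0_2_2_6B : Rep pa (-16) 95367431640625 18 (.lit L_I0_2_2_6B) I0_2_2_6B :=
  ((((((((((((((((r_phi2).oneMul (t_I0_2_1_4B) 18 (by norm_num) (by norm_num))).ratMul (4) 1 (by norm_num))).shift 390625 (by norm_num) (-16) 0 (by norm_num))).cast (lo' := (-16)) (den' := 90949470177292823791503906250) (N' := 18) (by norm_num) (by norm_num) (by norm_num))).add ((((((((rep_litK (-8) 390625 L_qc2 (by norm_num) 28)).oneMul (((rep_jac).oneMul (((t_I0_2_1_4B).ddw)) 18 (by norm_num) (by norm_num))) 18 (by norm_num) (by norm_num))).shift 2 (by norm_num) (-16) 0 (by norm_num))).cast (lo' := (-16)) (den' := 90949470177292823791503906250)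 (N' := 18) (by norm_num) (by norm_num) (by norm_num))))).cast (lo' := (-16)) (den' := 90949470177292823791503906250) (N' := 18) (by norm_num) (by norm_num) (by norm_num))).sub ((((((((((((((((rep_litK (-8) 390625 L_qc2 (by norm_num) 28)).oneMul (t_I0_2_1_4A) 18 (by norm_num) (by norm_num))).ratMul (2) 1 (by norm_num))).shift 625 (by norm_num) (-16) 0 (by norm_num))).cast (lo' := (-16)) (den' := 116415321826934814453125) (N' := 18) (by norm_num) (by norm_num) (by norm_num))).add (((((r_dq2).oneMul (t_I0_2_1_4B) 18 (by norm_num) (by norm_num))).cast (lo' := (-16)) (den' := 116415321826934814453125) (N' := 18) (by norm_num) (by norm_num) (by norm_num))))).shift 781250 (by norm_num) (-16) 0 (by norm_num))).cast (lo' := (-16)) (den' := 90949470177292823791503906250) (N' := 18) (by norm_num) (by norm_num) (by norm_num))))).norm L_I0_2_2_6B Q_I0_2_2_6B 95367431640625 222 18 (by norm_num) (by norm_num) (by decide +kernel)).cast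
    (by norm_num) rfl rfl

/-- Certificate node. -/
def Z0_2_4A : K := (Z0_1_4A + (zc (1) • I0_2_1_4A))

theorem r_Z0_2_4A : Rep pa (-8) 146508216857910156250000 18 (.lit L_Z0_2_4A) Z0_2_4A :=
  ((((((((r_Z0_1_4A).mono (N' := 18) (by norm_num))).cast (lo' := (-8)) (den' := 18313527107238769531250000) (N' := 18) (by norm_num) (by norm_num) (by norm_num))).add (((((((t_I0_2_1_4A).ratMul (1) 1 (by norm_num))).shift 38406250000 (by norm_num) (-8) 0 (by norm_num))).cast (lo' := (-8)) (den' := 18313527107238769531250000) (N' := 18) (by norm_num) (by norm_num) (by norm_num))))).norm L_Z0_2_4A Q_Z0_2_4A 146508216857910156250000 219 18 (by norm_num) (by norm_num) (by decide +kernel)).cast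
    (by norm_num) rfl rfl

theorem t_Z0_2_4A : Rep pa (0) 146508216857910156250000 10 (.lit T_Z0_2_4A) Z0_2_4A :=
  ((r_Z0_2_4A.cast rfl rfl (by norm_num : 18 = 8 + 10)).trim 8 (by decide +kernel)).cast (by norm_num) rfl rfl |> fun h => (show L_Z0_2_4A.drop 8 = T_Z0_2_4A by decide +kernel) ▸ h

/-- Certificate node. -/
def Z0_2_4B : K := (Z0_1_4B + (zc (1) • I0_2_1_4B))

theorem r_Z0_2_4B : Rep pa (-7) 11920928955078125 18 (.lit L_Z0_2_4B) Z0_2_4B :=
  ((((((((r_Z0_1_4B).mono (N' := 18) (by norm_num))).cast (lo' := (-7)) (den' := 298023223876953125) (N' := 18) (by norm_num) (by norm_num) (by norm_num))).add (((((((t_I0_2_1_4B).ratMul (1) 1 (by norm_num))).shift 30517578125 (by norm_num) (-7) 0 (by norm_num))).cast (lo' := (-7)) (den' := 298023223876953125) (N' := 18) (by norm_num) (by norm_num) (by norm_num))))).norm L_Z0_2_4B Q_Z0_2_4B 11920928955078125 153 18 (by norm_num) (by norm_num) (by decide +kernel)).cast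
    (by norm_num) rfl rfl

theorem t_Z0_2_4B : Rep pa (0) 11920928955078125 11 (.lit T_Z0_2_4B) Z0_2_4B :=
  ((r_Z0_2_4B.cast rfl rfl (by norm_num : 18 = 7 + 11)).trim 7 (by decide +kernel)).cast (by norm_num) rfl rfl |> fun h => (show L_Z0_2_4B.drop 7 = T_Z0_2_4B by decide +kernel) ▸ h

/-- Certificate node. -/
def Z0_2_5A : K := (Z0_1_5A + (zc (1) • I0_2_1_5A))

theorem r_Z0_2_5A : Rep pa (-10) 4615759971784427762031555175781250000 18 (.lit L_Z0_2_5A) Z0_2_5A :=
  ((((((((r_Z0_1_5A).mono (N' := 18) (by norm_num))).cast (lo' := (-10)) (den' := 576969996473053470253944396972656250000) (N' := 18) (by norm_num) (by norm_num) (by norm_num))).add (((((((r_I0_2_1_5A).ratMul (1) 1 (by norm_num))).shift 38719801025390625000 (by norm_num) (-10) 0 (by norm_num))).cast (lo' := (-10)) (den' := 576969996473053470253944396972656250000) (N' := 18) (by norm_num) (by norm_num) (by norm_num))))).norm L_Z0_2_5A Q_Z0_2_5A 4615759971784427762031555175781250000 325 18 (by norm_num) (by norm_num) (by decide +kernel)).cast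
    (by norm_num) rfl rfl

/-- Certificate node. -/
def Z0_2_5B : K := (Z0_1_5B + (zc (1) • I0_2_1_5B))

theorem r_Z0_2_5B : Rep pa (-9) 3662705421447753906250000 18 (.lit L_Z0_2_5B) Z0_2_5B :=
  ((((((((r_Z0_1_5B).mono (N' := 18) (by norm_num))).cast (lo' := (-9)) (den' := 457838177680969238281250000) (N' := 18) (by norm_num) (by norm_num) (by norm_num))).add (((((((r_I0_2_1_5B).ratMul (1) 1 (by norm_num))).shift 30725000 (by norm_num) (-9) 0 (by norm_num))).cast (lo' := (-9)) (den' := 457838177680969238281250000) (N' := 18) (by norm_num) (by norm_num) (by norm_num))))).norm L_Z0_2_5B Q_Z0_2_5B 3662705421447753906250000 228 18 (by norm_num) (by norm_num) (by decide +kernel)).cast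
    (by norm_num) rfl rfl

/-- Certificate node. -/
def Z0_2_6A : K := ((Z0_1_6A + (zc (1) • I0_2_1_6A)) + ((((1 : ℤ) : ℂ) / ((2 : ℕ) : ℂ)) • I0_2_2_6A))

theorem r_Z0_2_6A : Rep pa (-17) 7385215954855084419250488281250000000 18 (.lit L_Z0_2_6A) Z0_2_6A :=
  ((((((((((((r_Z0_1_6A).cast (lo' := (-17)) (den' := 923151994356885552406311035156250000000) (N' := 20) (by norm_num) (by norm_num) (by norm_num))).add (((((((r_I0_2_1_6A).ratMul (1) 1 (by norm_num))).shift 1260205078125000 (by norm_num) (-17) 0 (by norm_num))).cast (lo' := (-17)) (den' := 923151994356885552406311035156250000000) (N' := 20) (by norm_num) (by norm_num) (by norm_num))))).mono (N' := 18) (by norm_num))).cast (lo' := (-17)) (den' := 923151994356885552406311035156250000000) (N' := 18) (by norm_num) (by norm_num) (by norm_num))).add (((((((r_I0_2_2_6A).ratMul (1) 2 (by norm_num))).shift 60499689102172851562500000 (by norm_num) (-17) 0 (by norm_num))).cast (lo' := (-17)) (den' := 923151994356885552406311035156250000000) (N' := 18) (by norm_num) (by norm_num) (by norm_num))))).norm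 L_Z0_2_6A Q_Z0_2_6A 7385215954855084419250488281250000000 329 18 (by norm_num) (by norm_num) (by decide +kernel)).cast
    (by norm_num) rfl rfl

/-- Certificate node. -/
def Z0_2_6B : K := ((Z0_1_6B + (zc (1) • I0_2_1_6B)) + ((((1 : ℤ) : ℂ) / ((2 : ℕ) : ℂ)) • I0_2_2_6B))

theorem r_Z0_2_6B : Rep pa (-16) 295408638194203376770019531250000 18 (.lit L_Z0_2_6B) Z0_2_6B :=
  ((((((((((((r_Z0_1_6B).cast (lo' := (-16)) (den' := 7385215954855084419250488281250000) (N' := 20) (by norm_num) (by norm_num) (by norm_num))).add (((((((r_I0_2_1_6B).ratMul (1) 1 (by norm_num))).shift 403265625 (by norm_num) (-16) 0 (by norm_num))).cast (lo' := (-16)) (den' := 7385215954855084419250488281250000) (N' := 20) (by norm_num) (by norm_num) (by norm_num))))).mono (N' := 18) (by norm_num))).cast (lo' := (-16)) (den' := 7385215954855084419250488281250000) (N' := 18) (by norm_num) (by norm_num) (by norm_num))).add (((((((r_I0_2_2_6B).ratMul (1) 2 (by norm_num))).shift 38719801025390625000 (by norm_num) (-16) 0 (by norm_num))).cast (lo' := (-16)) (den' :=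 7385215954855084419250488281250000) (N' := 18) (by norm_num) (by norm_num) (by norm_num))))).norm L_Z0_2_6B Q_Z0_2_6B 295408638194203376770019531250000 288 18 (by norm_num) (by norm_num) (by decide +kernel)).cast
    (by norm_num) rfl rfl

/-- Certificate node. -/
def I0_3_1_5A : K := (lieA (-1) phi3 (litK (-10) 75012207031250000 L_qc3) dphi3 D0_2 (0 : K))

theorem r_I0_3_1_5A : Rep pa (-12) 439524650573730468750000 20 (.lit L_I0_3_1_5A) I0_3_1_5A :=
  ((((((((((((((((((r_phi3).oneMul (t_D0_2) 18 (by norm_num) (by norm_num))).ratMul (-1) 1 (by norm_num))).shift 48828125 (by norm_num) (-10) 0 (by norm_num))).cast (lo' := (-10)) (den' := 335330696543678641319274902343750000) (N' := 18) (by norm_num) (by norm_num) (by norm_num))).add ((((((((rep_litK (-10) 75012207031250000 L_qc3 (by norm_num) 30)).oneMul (((rep_jac).oneMul (((t_D0_2).ddw)) 18 (by norm_num) (by norm_num))) 18 (by norm_num) (by norm_num))).shift 3 (by norm_num) (-10) 0 (by norm_num))).cast (lo' := (-10)) (den' := 335330696543678641319274902343750000) (N' := 18) (by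 norm_num) (by norm_num) (by norm_num))))).shift 1 (by norm_num) (-12) 2 (by norm_num))).cast (lo' := (-12)) (den' := 335330696543678641319274902343750000) (N' := 20) (by norm_num) (by norm_num) (by norm_num))).sub (((((((r_dphi3).oneMul ((rep_zero pa (0) 100)) 20 (by norm_num) (by norm_num))).shift 9155273437500 (by norm_num) (-12) 0 (by norm_num))).cast (lo' := (-12)) (den' := 335330696543678641319274902343750000) (N' := 20) (by norm_num) (by norm_num) (by norm_num))))).norm L_I0_3_1_5A Q_I0_3_1_5A 439524650573730468750000 284 20 (by norm_num) (by norm_num) (by decide +kernel)).cast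
    (by norm_num) rfl rfl

theorem t_I0_3_1_5A : Rep pa (-10) 439524650573730468750000 18 (.lit T_I0_3_1_5A) I0_3_1_5A :=
  ((r_I0_3_1_5A.cast rfl rfl (by norm_num : 20 = 2 + 18)).trim 2 (by decide +kernel)).cast (by norm_num) rfl rfl |> fun h => (show L_I0_3_1_5A.drop 2 = T_I0_3_1_5A by decide +kernel) ▸ h

/-- Certificate node. -/
def I0_3_1_5B : K := (lieB (2) (3) phi3 (litK (-10) 75012207031250000 L_qc3) dq3 D0_2 (0 : K))

theorem r_I0_3_1_5B : Rep pa (-11) 375061035156250000 20 (.lit L_I0_3_1_5B) I0_3_1_5B :=
  ((((((((((((((((r_phi3).oneMul ((rep_zero pa (0) 100)) 20 (by norm_num) (by norm_num))).ratMul (2) 1 (by norm_num))).shift 48828125 (by norm_num) (-11) 0 (by norm_num))).cast (lo' := (-11)) (den' := 2682645572349429130554199218750000) (N' := 20) (by norm_num) (by norm_num) (by norm_num))).add ((((((((rep_litK (-10) 75012207031250000 L_qc3 (by norm_num) 30)).oneMul (((rep_jac).oneMul ((((rep_zero pa (0) 100)).ddw)) 20 (by norm_num) (by norm_num))) 20 (by norm_num) (by norm_num))).shift 3 (by norm_num) (-11) 0 (by norm_num))).cast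 (lo' := (-11)) (den' := 2682645572349429130554199218750000) (N' := 20) (by norm_num) (by norm_num) (by norm_num))))).cast (lo' := (-11)) (den' := 2682645572349429130554199218750000) (N' := 20) (by norm_num) (by norm_num) (by norm_num))).sub ((((((((((((((((rep_litK (-10) 75012207031250000 L_qc3 (by norm_num) 30)).oneMul (t_D0_2) 18 (by norm_num) (by norm_num))).ratMul (3) 1 (by norm_num))).shift 1953125 (by norm_num) (-11) 2 (by norm_num))).cast (lo' := (-11)) (den' := 18313527107238769531250000) (N' := 20) (by norm_num) (by norm_num) (by norm_num))).add (((((r_dq3).oneMul ((rep_zero pa (0) 100)) 20 (by norm_num) (by norm_num))).cast (lo' := (-11)) (den' := 18313527107238769531250000) (N' := 20) (by norm_num) (by norm_num) (by norm_num))))).shift 146484375 (by norm_num) (-11) 0 (by norm_num))).cast (lo' := (-11)) (den' := 2682645572349429130554199218750000) (N' := 20) (by norm_num) (by norm_num) (by norm_num))))).norm L_I0_3_1_5B Q_I0_3_1_5B 375061035156250000 213 20 (by norm_num) (by norm_num) (by decide +kernel)).cast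
    (by norm_num) rfl rfl

theorem t_I0_3_1_5B : Rep pa (-9) 375061035156250000 18 (.lit T_I0_3_1_5B) I0_3_1_5B :=
  ((r_I0_3_1_5B.cast rfl rfl (by norm_num : 20 = 2 + 18)).trim 2 (by decide +kernel)).cast (by norm_num) rfl rfl |> fun h => (show L_I0_3_1_5B.drop 2 = T_I0_3_1_5B by decide +kernel) ▸ h

/-- Certificate node. -/
def I0_3_1_6A : K := (lieA (0) phi3 (litK (-10) 75012207031250000 L_qc3) dphi3 Z0_1_3A Z0_1_3B)

theorem r_I0_3_1_6A : Rep pa (-12) 572297722101211547851562500 18 (.lit L_I0_3_1_6A) I0_3_1_6A :=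
  ((((((((((((((((((r_phi3).oneMul (t_Z0_1_3A) 17 (by norm_num) (by norm_num))).ratMul (0) 1 (by norm_num))).shift 48828125 (by norm_num) (-11) 0 (by norm_num))).cast (lo' := (-11)) (den' := 99936335248851371204636961920186877250671386718750000) (N' := 17) (by norm_num) (by norm_num) (by norm_num))).add ((((((((rep_litK (-10) 75012207031250000 L_qc3 (by norm_num) 30)).oneMul (((rep_jac).oneMul (((t_Z0_1_3A).ddw)) 17 (by norm_num) (by norm_num))) 17 (by norm_num) (by norm_num))).shift 3 (by norm_num) (-11) 0 (by norm_num))).cast (lo' := (-11)) (den' := 99936335248851371204636961920186877250671386718750000) (N' := 17) (by norm_num) (by norm_num) (by norm_num))))).shift 1 (by norm_num) (-12) 1 (by norm_num))).cast (lo' := (-12)) (den' := 99936335248851371204636961920186877250671386718750000) (N' := 18) (by norm_num) (by norm_num) (by norm_num))).sub (((((((r_dphi3).oneMul (r_Z0_1_3B) 18 (by norm_num) (by norm_num))).shift 21827872842550277709960937500 (by norm_num) (-12) 0 (by norm_num))).cast (lo' := (-12)) (den' := 99936335248851371204636961920186877250671386718750000)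 (N' := 18) (by norm_num) (by norm_num) (by norm_num))))).norm L_I0_3_1_6A Q_I0_3_1_6A 572297722101211547851562500 397 18 (by norm_num) (by norm_num) (by decide +kernel)).cast
    (by norm_num) rfl rfl

/-- Certificate node. -/
def I0_3_1_6B : K := (lieB (3) (3) phi3 (litK (-10) 75012207031250000 L_qc3) dq3 Z0_1_3A Z0_1_3B)

theorem r_I0_3_1_6B : Rep pa (-11) 2861488610506057739257812500 18 (.lit L_I0_3_1_6B) I0_3_1_6B :=
  ((((((((((((((((((r_phi3).oneMul (r_Z0_1_3B) 18 (by norm_num) (by norm_num))).ratMul (3) 1 (by norm_num))).shift 48828125 (by norm_num) (-11) 0 (by norm_num))).cast (lo' := (-11)) (den' := 335330696543678641319274902343750000) (N' := 18) (by norm_num) (by norm_num) (by norm_num))).add ((((((((rep_litK (-10) 75012207031250000 L_qc3 (by norm_num) 30)).oneMul (((rep_jac).oneMul (((r_Z0_1_3B).ddw)) 18 (by norm_num) (by norm_num))) 18 (by norm_num) (by norm_num))).shift 3 (by norm_num) (-11) 0 (by norm_num))).cast (lo' := (-11)) (den' := 335330696543678641319274902343750000) (N' := 18) (by norm_num) (by norm_num)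 (by norm_num))))).shift 25 (by norm_num) (-11) 0 (by norm_num))).cast (lo' := (-11)) (den' := 8383267413591966032981872558593750000) (N' := 18) (by norm_num) (by norm_num) (by norm_num))).sub ((((((((((((((((rep_litK (-10) 75012207031250000 L_qc3 (by norm_num) 30)).oneMul (t_Z0_1_3A) 17 (by norm_num) (by norm_num))).ratMul (3) 1 (by norm_num))).shift 1 (by norm_num) (-11) 1 (by norm_num))).cast (lo' := (-11)) (den' := 2794422471197322010993957519531250000) (N' := 18) (by norm_num) (by norm_num) (by norm_num))).add (((((((r_dq3).oneMul (r_Z0_1_3B) 18 (by norm_num) (by norm_num))).shift 1220703125 (by norm_num) (-11) 0 (by norm_num))).cast (lo' := (-11)) (den' := 2794422471197322010993957519531250000) (N' := 18) (by norm_num) (by norm_num) (by norm_num))))).shift 3 (by norm_num) (-11) 0 (by norm_num))).cast (lo' := (-11)) (den' := 8383267413591966032981872558593750000) (N' := 18) (by norm_num) (by norm_num) (by norm_num))))).norm L_I0_3_1_6B Q_I0_3_1_6B 2861488610506057739257812500 304 18 (by norm_num) (by norm_num) (by decide +kernel)).cast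
    (by norm_num) rfl rfl

theorem t_I0_3_1_6B : Rep pa (-10) 2861488610506057739257812500 17 (.lit T_I0_3_1_6B) I0_3_1_6B :=
  ((r_I0_3_1_6B.cast rfl rfl (by norm_num : 18 = 1 + 17)).trim 1 (by decide +kernel)).cast (by norm_num) rfl rfl |> fun h => (show L_I0_3_1_6B.drop 1 = T_I0_3_1_6B by decide +kernel) ▸ h

/-- Certificate node. -/
def Z0_3_5A : K := (Z0_2_5A + (zc (1) • I0_3_1_5A))

theorem r_Z0_3_5A : Rep pa (-10) 4615759971784427762031555175781250000 18 (.lit L_Z0_3_5A) Z0_3_5A :=
  ((((((r_Z0_2_5A).cast (lo' := (-10)) (den' := 4615759971784427762031555175781250000) (N' := 18) (by norm_num) (by norm_num) (by norm_num))).add (((((((t_I0_3_1_5A).ratMul (1) 1 (by norm_num))).shift 10501708984375 (by norm_num) (-10) 0 (by norm_num))).cast (lo' := (-10)) (den' := 4615759971784427762031555175781250000) (N' := 18) (by norm_num) (by norm_num) (by norm_num))))).norm L_Z0_3_5A Q_Z0_3_5A 4615759971784427762031555175781250000 315 18 (by norm_num) (by norm_num) (by decide +kernel)).cast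
    (by norm_num) rfl rfl

theorem t_Z0_3_5A : Rep pa (0) 4615759971784427762031555175781250000 8 (.lit T_Z0_3_5A) Z0_3_5A :=
  ((r_Z0_3_5A.cast rfl rfl (by norm_num : 18 = 10 + 8)).trim 10 (by decide +kernel)).cast (by norm_num) rfl rfl |> fun h => (show L_Z0_3_5A.drop 10 = T_Z0_3_5A by decide +kernel) ▸ h

/-- Certificate node. -/
def Z0_3_5B : K := (Z0_2_5B + (zc (1) • I0_3_1_5B))

theorem r_Z0_3_5B : Rep pa (-9) 3662705421447753906250000 18 (.lit L_Z0_3_5B) Z0_3_5B :=
  ((((((r_Z0_2_5B).cast (lo' := (-9)) (den' := 3662705421447753906250000) (N' := 18) (by norm_num) (by norm_num) (by norm_num))).add (((((((t_I0_3_1_5B).ratMul (1) 1 (by norm_num))).shift 9765625 (by norm_num) (-9) 0 (by norm_num))).cast (lo' := (-9)) (den' := 3662705421447753906250000) (N' := 18) (by norm_num) (by norm_num) (by norm_num))))).norm L_Z0_3_5B Q_Z0_3_5B 3662705421447753906250000 218 18 (by norm_num) (by norm_num) (by decide +kernel)).cast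
    (by norm_num) rfl rfl

theorem t_Z0_3_5B : Rep pa (1) 3662705421447753906250000 8 (.lit T_Z0_3_5B) Z0_3_5B :=
  ((r_Z0_3_5B.cast rfl rfl (by norm_num : 18 = 10 + 8)).trim 10 (by decide +kernel)).cast (by norm_num) rfl rfl |> fun h => (show L_Z0_3_5B.drop 10 = T_Z0_3_5B by decide +kernel) ▸ h

/-- Certificate node. -/
def Z0_3_6A : K := (Z0_2_6A + (zc (1) • I0_3_1_6A))

theorem r_Z0_3_6A : Rep pa (-17) 7385215954855084419250488281250000000 18 (.lit L_Z0_3_6A) Z0_3_6A :=
  ((((((r_Z0_2_6A).cast (lo' := (-17)) (den' := 7385215954855084419250488281250000000) (N' := 18) (by norm_num) (by norm_num) (by norm_num))).add (((((((((r_I0_3_1_6A).ratMul (1) 1 (by norm_num))).shift 12904500000 (by norm_num) (-17) 5 (by norm_num))).mono (N' := 18) (by norm_num))).cast (lo' := (-17)) (den' := 7385215954855084419250488281250000000) (N' := 18) (by norm_num) (by norm_num) (by norm_num))))).norm L_Z0_3_6A Q_Z0_3_6A 7385215954855084419250488281250000000 320 18 (by norm_num) (by norm_num) (by decide +kernel)).cast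
    (by norm_num) rfl rfl

/-- Certificate node. -/
def Z0_3_6B : K := (Z0_2_6B + (zc (1) • I0_3_1_6B))

theorem r_Z0_3_6B : Rep pa (-16) 295408638194203376770019531250000 18 (.lit L_Z0_3_6B) Z0_3_6B :=
  ((((((r_Z0_2_6B).cast (lo' := (-16)) (den' := 295408638194203376770019531250000) (N' := 18) (by norm_num) (by norm_num) (by norm_num))).add (((((((((t_I0_3_1_6B).ratMul (1) 1 (by norm_num))).shift 103236 (by norm_num) (-16) 6 (by norm_num))).mono (N' := 18) (by norm_num))).cast (lo' := (-16)) (den' := 295408638194203376770019531250000) (N' := 18) (by norm_num) (by norm_num) (by norm_num))))).norm L_Z0_3_6B Q_Z0_3_6B 295408638194203376770019531250000 281 18 (by norm_num) (by norm_num) (by decide +kernel)).cast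
    (by norm_num) rfl rfl

/-- Certificate node. -/
def I0_4_1_6A : K := (lieA (-2) phi4 (litK (-17) 236326910555362701416015625000000 L_qc4) dphi4 D0_2 (0 : K))

theorem r_I0_4_1_6A : Rep pa (-19) 23632691055536270141601562500000 20 (.lit L_I0_4_1_6A) I0_4_1_6A :=
  ((((((((((((((((((r_phi4).oneMul (t_D0_2) 18 (by norm_num) (by norm_num))).ratMul (-2) 1 (by norm_num))).shift 2384185791015625 (by norm_num) (-17) 0 (by norm_num))).cast (lo' := (-17)) (den' := 352154538862947674715542234480381011962890625000000) (N' := 18) (by norm_num) (by norm_num) (by norm_num))).add ((((((rep_litK (-17) 236326910555362701416015625000000 L_qc4 (by norm_num) 37)).oneMul (((rep_jac).oneMul (((t_D0_2).ddw)) 18 (by norm_num) (by norm_num))) 18 (by norm_num) (by norm_num))).cast (lo' := (-17)) (den' := 352154538862947674715542234480381011962890625000000) (N' := 18) (by norm_num) (by norm_num) (by norm_num))))).shift 1 (by norm_num) (-19) 2 (by norm_num))).cast (lo' := (-19)) (den' := 352154538862947674715542234480381011962890625000000) (N' := 20) (by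 norm_num) (by norm_num) (by norm_num))).sub (((((((r_dphi4).oneMul ((rep_zero pa (0) 100)) 20 (by norm_num) (by norm_num))).shift 44703483581542968750 (by norm_num) (-19) 0 (by norm_num))).cast (lo' := (-19)) (den' := 352154538862947674715542234480381011962890625000000) (N' := 20) (by norm_num) (by norm_num) (by norm_num))))).norm L_I0_4_1_6A Q_I0_4_1_6A 23632691055536270141601562500000 380 20 (by norm_num) (by norm_num) (by decide +kernel)).cast
    (by norm_num) rfl rfl

theorem t_I0_4_1_6A : Rep pa (-17) 23632691055536270141601562500000 18 (.lit T_I0_4_1_6A) I0_4_1_6A :=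
  ((r_I0_4_1_6A.cast rfl rfl (by norm_num : 20 = 2 + 18)).trim 2 (by decide +kernel)).cast (by norm_num) rfl rfl |> fun h => (show L_I0_4_1_6A.drop 2 = T_I0_4_1_6A by decide +kernel) ▸ h

/-- Certificate node. -/
def I0_4_1_6B : K := (lieB (2) (4) phi4 (litK (-17) 236326910555362701416015625000000 L_qc4) dq4 D0_2 (0 : K))

theorem r_I0_4_1_6B : Rep pa (-18) 59081727638840675354003906250000 20 (.lit L_I0_4_1_6B) I0_4_1_6B :=
  ((((((((((((((((r_phi4).oneMul ((rep_zero pa (0) 100)) 20 (by norm_num) (by norm_num))).ratMul (2) 1 (by norm_num))).shift 2384185791015625 (by norm_num) (-18) 0 (by norm_num))).cast (lo' := (-18)) (den' := 2817236310903581397724337875843048095703125000000) (N' := 20) (by norm_num) (by norm_num) (by norm_num))).add ((((((rep_litK (-17) 236326910555362701416015625000000 L_qc4 (by norm_num) 37)).oneMul (((rep_jac).oneMul ((((rep_zero pa (0) 100)).ddw)) 20 (by norm_num) (by norm_num))) 20 (by norm_num) (by norm_num))).cast (lo' := (-18)) (den' := 2817236310903581397724337875843048095703125000000) (N' := 20) (by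 norm_num) (by norm_num) (by norm_num))))).cast (lo' := (-18)) (den' := 2817236310903581397724337875843048095703125000000) (N' := 20) (by norm_num) (by norm_num) (by norm_num))).sub ((((((((((((((((rep_litK (-17) 236326910555362701416015625000000 L_qc4 (by norm_num) 37)).oneMul (t_D0_2) 18 (by norm_num) (by norm_num))).ratMul (4) 1 (by norm_num))).shift 1 (by norm_num) (-18) 2 (by norm_num))).cast (lo' := (-18)) (den' := 29540863819420337677001953125000000) (N' := 20) (by norm_num) (by norm_num) (by norm_num))).add (((((((r_dq4).oneMul ((rep_zero pa (0) 100)) 20 (by norm_num) (by norm_num))).shift 50 (by norm_num) (-18) 0 (by norm_num))).cast (lo' := (-18)) (den' := 29540863819420337677001953125000000) (N' := 20) (by norm_num) (by norm_num) (by norm_num))))).shift 95367431640625 (by norm_num) (-18) 0 (by norm_num))).cast (lo' := (-18)) (den' := 2817236310903581397724337875843048095703125000000) (N' := 20) (by norm_num) (by norm_num) (by norm_num))))).norm L_I0_4_1_6B Q_I0_4_1_6B 59081727638840675354003906250000 330 20 (by norm_num)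 (by norm_num) (by decide +kernel)).cast
    (by norm_num) rfl rfl

theorem t_I0_4_1_6B : Rep pa (-16) 59081727638840675354003906250000 18 (.lit T_I0_4_1_6B) I0_4_1_6B :=
  ((r_I0_4_1_6B.cast rfl rfl (by norm_num : 20 = 2 + 18)).trim 2 (by decide +kernel)).cast (by norm_num) rfl rfl |> fun h => (show L_I0_4_1_6B.drop 2 = T_I0_4_1_6B by decide +kernel) ▸ h

/-- Certificate node. -/
def Z0_4_6A : K := (Z0_3_6A + (zc (1) • I0_4_1_6A))

theorem r_Z0_4_6A : Rep pa (-17) 2461738651618361473083496093750000000 18 (.lit L_Z0_4_6A) Z0_4_6A :=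
  ((((((r_Z0_3_6A).cast (lo' := (-17)) (den' := 7385215954855084419250488281250000000) (N' := 18) (by norm_num) (by norm_num) (by norm_num))).add (((((((t_I0_4_1_6A).ratMul (1) 1 (by norm_num))).shift 312500 (by norm_num) (-17) 0 (by norm_num))).cast (lo' := (-17)) (den' := 7385215954855084419250488281250000000) (N' := 18) (by norm_num) (by norm_num) (by norm_num))))).norm L_Z0_4_6A Q_Z0_4_6A 2461738651618361473083496093750000000 318 18 (by norm_num) (by norm_num) (by decide +kernel)).cast
    (by norm_num) rfl rfl

theorem t_Z0_4_6A : Rep pa (0) 2461738651618361473083496093750000000 1 (.lit T_Z0_4_6A) Z0_4_6A :=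
  ((r_Z0_4_6A.cast rfl rfl (by norm_num : 18 = 17 + 1)).trim 17 (by decide +kernel)).cast (by norm_num) rfl rfl |> fun h => (show L_Z0_4_6A.drop 17 = T_Z0_4_6A by decide +kernel) ▸ h

/-- Certificate node. -/
def Z0_4_6B : K := (Z0_3_6B + (zc (1) • I0_4_1_6B))

theorem r_Z0_4_6B : Rep pa (-16) 147704319097101688385009765625000 18 (.lit L_Z0_4_6B) Z0_4_6B :=
  ((((((r_Z0_3_6B).cast (lo' := (-16)) (den' := 295408638194203376770019531250000) (N' := 18) (by norm_num) (by norm_num) (by norm_num))).add (((((((t_I0_4_1_6B).ratMul (1) 1 (by norm_num))).shift 5 (by norm_num) (-16) 0 (by norm_num))).cast (lo' := (-16)) (den' := 295408638194203376770019531250000) (N' := 18) (by norm_num) (by norm_num) (by norm_num))))).norm L_Z0_4_6B Q_Z0_4_6B 147704319097101688385009765625000 280 18 (by norm_num) (by norm_num) (by decide +kernel)).cast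
    (by norm_num) rfl rfl

theorem t_Z0_4_6B : Rep pa (1) 147704319097101688385009765625000 1 (.lit T_Z0_4_6B) Z0_4_6B :=
  ((r_Z0_4_6B.cast rfl rfl (by norm_num : 18 = 17 + 1)).trim 17 (by decide +kernel)).cast (by norm_num) rfl rfl |> fun h => (show L_Z0_4_6B.drop 17 = T_Z0_4_6B by decide +kernel) ▸ h

end

end P266
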