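import Vale.Agent.P266.CertA

/-!
P266: levels of the second field.
-/

namespace P266

noncomputable section

/-- Certificate node. -/
def I1_1_1_3A : K := (lieA (1) phi1 (litK (-1) 1 L_qc1) dphi1 D1_2 (0 : K))

theorem r_I1_1_1_3A : Rep pb (-3) 2384185791015625 20 (.lit L_I1_1_1_3A) I1_1_1_3A :=
  ((((((((((((((((r_phi1).oneMul (t_D1_2) 18 (by norm_num) (by norm_num))).ratMul (1) 1 (by norm_num))).cast (lo' := (-1)) (den' := 3552713678800500929355621337890625) (N' := 18) (by norm_num) (by norm_num) (by norm_num))).add ((((((((rep_litK (-1) 1 L_qc1 (by norm_num) 21)).oneMul (((rep_jac).oneMul (((t_D1_2).ddw)) 18 (by norm_num) (by norm_num))) 18 (by norm_num) (by norm_num))).shift 25 (by norm_num) (-1) 0 (by norm_num))).cast (lo' := (-1)) (den' := 3552713678800500929355621337890625) (N' := 18) (by norm_num) (by norm_num) (by norm_num))))).shift 1 (by norm_num) (-3) 2 (by norm_num))).cast (lo' := (-3)) (den' := 3552713678800500929355621337890625) (N' := 20) (by norm_num) (by norm_num) (by norm_num))).sub (((((((r_dphi1).oneMul ((rep_zero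 pb (0) 100)) 20 (by norm_num) (by norm_num))).shift 7450580596923828125 (by norm_num) (-3) 0 (by norm_num))).cast (lo' := (-3)) (den' := 3552713678800500929355621337890625) (N' := 20) (by norm_num) (by norm_num) (by norm_num))))).norm L_I1_1_1_3A Q_I1_1_1_3A 2384185791015625 248 20 (by norm_num) (by norm_num) (by decide +kernel)).cast
    (by norm_num) rfl rfl

theorem t_I1_1_1_3A : Rep pb (-1) 2384185791015625 18 (.lit T_I1_1_1_3A) I1_1_1_3A :=
  ((r_I1_1_1_3A.cast rfl rfl (by norm_num : 20 = 2 + 18)).trim 2 (by decide +kernel)).cast (by norm_num) rfl rfl |> fun h => (show L_I1_1_1_3A.drop 2 = T_I1_1_1_3A by decide +kernel) ▸ h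

/-- Certificate node. -/
def I1_1_1_3B : K := (lieB (2) (1) phi1 (litK (-1) 1 L_qc1) dq1 D1_2 (0 : K))

theorem r_I1_1_1_3B : Rep pb (-2) 11920928955078125 20 (.lit L_I1_1_1_3B) I1_1_1_3B :=
  ((((((((((((((r_phi1).oneMul ((rep_zero pb (0) 100)) 20 (by norm_num) (by norm_num))).ratMul (2) 1 (by norm_num))).cast (lo' := (-2)) (den' := 298023223876953125) (N' := 20) (by norm_num) (by norm_num) (by norm_num))).add ((((((((rep_litK (-1) 1 L_qc1 (by norm_num) 21)).oneMul (((rep_jac).oneMul ((((rep_zero pb (0) 100)).ddw)) 20 (by norm_num) (by norm_num))) 20 (by norm_num) (by norm_num))).shift 25 (by norm_num) (-2) 0 (by norm_num))).cast (lo' := (-2)) (den' := 298023223876953125) (N' := 20) (by norm_num) (by norm_num) (by norm_num))))).cast (lo' := (-2)) (den' := 298023223876953125) (N' := 20) (by norm_num) (by norm_num) (by norm_num))).sub ((((((((((((((((rep_litK (-1) 1 L_qc1 (by norm_num) 21)).oneMul (t_D1_2) 18 (by norm_num) (by norm_num))).ratMul (1) 1 (by norm_num))).shift 5 (by norm_num) (-2) 2 (by norm_num))).cast (lo' := (-2))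 (den' := 59604644775390625) (N' := 20) (by norm_num) (by norm_num) (by norm_num))).add (((((r_dq1).oneMul ((rep_zero pb (0) 100)) 20 (by norm_num) (by norm_num))).cast (lo' := (-2)) (den' := 59604644775390625) (N' := 20) (by norm_num) (by norm_num) (by norm_num))))).shift 5 (by norm_num) (-2) 0 (by norm_num))).cast (lo' := (-2)) (den' := 298023223876953125) (N' := 20) (by norm_num) (by norm_num) (by norm_num))))).norm L_I1_1_1_3B Q_I1_1_1_3B 11920928955078125 149 20 (by norm_num) (by norm_num) (by decide +kernel)).cast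
    (by norm_num) rfl rfl

theorem t_I1_1_1_3B : Rep pb (0) 11920928955078125 18 (.lit T_I1_1_1_3B) I1_1_1_3B :=
  ((r_I1_1_1_3B.cast rfl rfl (by norm_num : 20 = 2 + 18)).trim 2 (by decide +kernel)).cast (by norm_num) rfl rfl |> fun h => (show L_I1_1_1_3B.drop 2 = T_I1_1_1_3B by decide +kernel) ▸ h

/-- Certificate node. -/
def I1_1_1_4A : K := (lieA (2) phi1 (litK (-1) 1 L_qc1) dphi1 D1_3 (0 : K))

theorem r_I1_1_1_4A : Rep pb (-3) 4656612873077392578125 20 (.lit L_I1_1_1_4A) I1_1_1_4A :=
  ((((((((((((((r_phi1).oneMul (r_D1_3) 20 (by norm_num) (by norm_num))).ratMul (2) 1 (by norm_num))).cast (lo' := (-3)) (den' := 6938893903907228377647697925567626953125) (N' := 20) (by norm_num) (by norm_num) (by norm_num))).add ((((((((rep_litK (-1) 1 L_qc1 (by norm_num) 21)).oneMul (((rep_jac).oneMul (((r_D1_3).ddw)) 20 (by norm_num) (by norm_num))) 20 (by norm_num) (by norm_num))).shift 25 (by norm_num) (-3) 0 (by norm_num))).cast (lo' := (-3)) (den' := 6938893903907228377647697925567626953125) (N' := 20) (by norm_num) (by norm_num) (by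 norm_num))))).cast (lo' := (-3)) (den' := 6938893903907228377647697925567626953125) (N' := 20) (by norm_num) (by norm_num) (by norm_num))).sub (((((((r_dphi1).oneMul ((rep_zero pb (0) 100)) 20 (by norm_num) (by norm_num))).shift 14551915228366851806640625 (by norm_num) (-3) 0 (by norm_num))).cast (lo' := (-3)) (den' := 6938893903907228377647697925567626953125) (N' := 20) (by norm_num) (by norm_num) (by norm_num))))).norm L_I1_1_1_4A Q_I1_1_1_4A 4656612873077392578125 308 20 (by norm_num) (by norm_num) (by decide +kernel)).cast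
    (by norm_num) rfl rfl

/-- Certificate node. -/
def I1_1_1_4B : K := (lieB (3) (1) phi1 (litK (-1) 1 L_qc1) dq1 D1_3 (0 : K))

theorem r_I1_1_1_4B : Rep pb (-2) 23283064365386962890625 20 (.lit L_I1_1_1_4B) I1_1_1_4B :=
  ((((((((((((((((r_phi1).oneMul ((rep_zero pb (0) 100)) 20 (by norm_num) (by norm_num))).ratMul (3) 1 (by norm_num))).cast (lo' := (-2)) (den' := 298023223876953125) (N' := 20) (by norm_num) (by norm_num) (by norm_num))).add ((((((((rep_litK (-1) 1 L_qc1 (by norm_num) 21)).oneMul (((rep_jac).oneMul ((((rep_zero pb (0) 100)).ddw)) 20 (by norm_num) (by norm_num))) 20 (by norm_num) (by norm_num))).shift 25 (by norm_num) (-2) 0 (by norm_num))).cast (lo' := (-2)) (den' := 298023223876953125) (N' := 20) (by norm_num) (by norm_num) (by norm_num))))).shift 78125 (by norm_num) (-2) 0 (by norm_num))).cast (lo' := (-2)) (den' := 23283064365386962890625) (N' := 20) (by norm_num) (by norm_num) (by norm_num))).sub ((((((((((((rep_litK (-1) 1 L_qc1 (by norm_num) 21)).oneMul (r_D1_3) 20 (by norm_num) (by norm_num))).ratMul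 (1) 1 (by norm_num))).cast (lo' := (-2)) (den' := 23283064365386962890625) (N' := 20) (by norm_num) (by norm_num) (by norm_num))).add (((((((r_dq1).oneMul ((rep_zero pb (0) 100)) 20 (by norm_num) (by norm_num))).shift 390625 (by norm_num) (-2) 0 (by norm_num))).cast (lo' := (-2)) (den' := 23283064365386962890625) (N' := 20) (by norm_num) (by norm_num) (by norm_num))))).cast (lo' := (-2)) (den' := 23283064365386962890625) (N' := 20) (by norm_num) (by norm_num) (by norm_num))))).norm L_I1_1_1_4B Q_I1_1_1_4B 23283064365386962890625 204 20 (by norm_num) (by norm_num) (by decide +kernel)).cast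
    (by norm_num) rfl rfl

/-- Certificate node. -/
def I1_1_1_5A : K := (lieA (3) phi1 (litK (-1) 1 L_qc1) dphi1 D1_4 B1_4)

theorem r_I1_1_1_5A : Rep pb (-10) 18313527107238769531250000 20 (.lit L_I1_1_1_5A) I1_1_1_5A :=
  ((((((((((((((r_phi1).oneMul (r_D1_4) 20 (by norm_num) (by norm_num))).ratMul (3) 1 (by norm_num))).cast (lo' := (-10)) (den' := 27289281945286347763612866401672363281250000) (N' := 20) (by norm_num) (by norm_num) (by norm_num))).add ((((((((rep_litK (-1) 1 L_qc1 (by norm_num) 21)).oneMul (((rep_jac).oneMul (((r_D1_4).ddw)) 20 (by norm_num) (by norm_num))) 20 (by norm_num) (by norm_num))).shift 25 (by norm_num) (-10) 0 (by norm_num))).cast (lo' := (-10)) (den' := 27289281945286347763612866401672363281250000) (N' := 20) (by norm_num) (by norm_num) (by norm_num))))).cast (lo' := (-10)) (den' := 27289281945286347763612866401672363281250000) (N' := 20) (by norm_num) (by norm_num) (by norm_num))).sub (((((((r_dphi1).oneMul (r_B1_4) 20 (by norm_num) (by norm_num))).shift 960156250000 (by norm_num) (-10) 0 (by norm_num))).cast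 (lo' := (-10)) (den' := 27289281945286347763612866401672363281250000) (N' := 20) (by norm_num) (by norm_num) (by norm_num))))).norm L_I1_1_1_5A Q_I1_1_1_5A 18313527107238769531250000 335 20 (by norm_num) (by norm_num) (by decide +kernel)).cast
    (by norm_num) rfl rfl

/-- Certificate node. -/
def I1_1_1_5B : K := (lieB (4) (1) phi1 (litK (-1) 1 L_qc1) dq1 D1_4 B1_4)

theorem r_I1_1_1_5B : Rep pb (-9) 91567635536193847656250000 20 (.lit L_I1_1_1_5B) I1_1_1_5B :=
  ((((((((((((((((r_phi1).oneMul (r_B1_4) 20 (by norm_num) (by norm_num))).ratMul (4) 1 (by norm_num))).cast (lo' := (-9)) (den' := 17763568394002504646778106689453125) (N' := 20) (by norm_num) (by norm_num) (by norm_num))).add ((((((((rep_litK (-1) 1 L_qc1 (by norm_num) 21)).oneMul (((rep_jac).oneMul (((r_B1_4).ddw)) 20 (by norm_num) (by norm_num))) 20 (by norm_num) (by norm_num))).shift 25 (by norm_num) (-9) 0 (by norm_num))).cast (lo' := (-9)) (den' := 17763568394002504646778106689453125) (N' := 20) (by norm_num) (by norm_num) (by norm_num))))).shift 19664 (by norm_num)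 (-9) 0 (by norm_num))).cast (lo' := (-9)) (den' := 349302808899665251374244689941406250000) (N' := 20) (by norm_num) (by norm_num) (by norm_num))).sub ((((((((((((((((rep_litK (-1) 1 L_qc1 (by norm_num) 21)).oneMul (r_D1_4) 20 (by norm_num) (by norm_num))).ratMul (1) 1 (by norm_num))).shift 762939453125 (by norm_num) (-9) 0 (by norm_num))).cast (lo' := (-9)) (den' := 69860561779933050274848937988281250000) (N' := 20) (by norm_num) (by norm_num) (by norm_num))).add (((((((r_dq1).oneMul (r_B1_4) 20 (by norm_num) (by norm_num))).shift 19664 (by norm_num) (-9) 0 (by norm_num))).cast (lo' := (-9)) (den' := 69860561779933050274848937988281250000) (N' := 20) (by norm_num) (by norm_num) (by norm_num))))).shift 5 (by norm_num) (-9) 0 (by norm_num))).cast (lo' := (-9)) (den' := 349302808899665251374244689941406250000) (N' := 20) (by norm_num) (by norm_num) (by norm_num))))).norm L_I1_1_1_5B Q_I1_1_1_5B 91567635536193847656250000 305 20 (by norm_num) (by norm_num) (by decide +kernel)).cast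
    (by norm_num) rfl rfl

/-- Certificate node. -/
def I1_1_1_6A : K := (lieA (4) phi1 (litK (-1) 1 L_qc1) dphi1 D1_5 B1_5)

theorem r_I1_1_1_6A : Rep pb (-12) 457838177680969238281250 20 (.lit L_I1_1_1_6A) I1_1_1_6A :=
  ((((((((((((((r_phi1).oneMul (r_D1_5) 20 (by norm_num) (by norm_num))).ratMul (4) 1 (by norm_num))).cast (lo' := (-12)) (den' := 4093392291792952164541929960250854492187500) (N' := 20) (by norm_num) (by norm_num) (by norm_num))).add ((((((((rep_litK (-1) 1 L_qc1 (by norm_num) 21)).oneMul (((rep_jac).oneMul (((r_D1_5).ddw)) 20 (by norm_num) (by norm_num))) 20 (by norm_num) (by norm_num))).shift 25 (by norm_num) (-12) 0 (by norm_num))).cast (lo' := (-12)) (den' := 4093392291792952164541929960250854492187500) (N' := 20) (by norm_num) (by norm_num) (by norm_num))))).cast (lo' := (-12)) (den' := 4093392291792952164541929960250854492187500) (N' := 20) (by norm_num) (by norm_num) (by norm_num))).sub (((((((((r_dphi1).oneMul (r_B1_5) 20 (by norm_num) (by norm_num))).shift 368700 (by norm_num) (-12) 1 (by norm_num))).mono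 (N' := 20) (by norm_num))).cast (lo' := (-12)) (den' := 4093392291792952164541929960250854492187500) (N' := 20) (by norm_num) (by norm_num) (by norm_num))))).norm L_I1_1_1_6A Q_I1_1_1_6A 457838177680969238281250 335 20 (by norm_num) (by norm_num) (by decide +kernel)).cast
    (by norm_num) rfl rfl

/-- Certificate node. -/
def I1_1_1_6B : K := (lieB (5) (1) phi1 (litK (-1) 1 L_qc1) dq1 D1_5 B1_5)

theorem r_I1_1_1_6B : Rep pb (-11) 13735145330429077148437500 20 (.lit L_I1_1_1_6B) I1_1_1_6B :=
  ((((((((((((((((((r_phi1).oneMul (r_B1_5) 20 (by norm_num) (by norm_num))).ratMul (5) 1 (by norm_num))).cast (lo' := (-10)) (den' := 6938893903907228377647697925567626953125) (N' := 20) (by norm_num) (by norm_num) (by norm_num))).add ((((((((rep_litK (-1) 1 L_qc1 (by norm_num) 21)).oneMul (((rep_jac).oneMul (((r_B1_5).ddw)) 20 (by norm_num) (by norm_num))) 20 (by norm_num) (by norm_num))).shift 25 (by norm_num) (-10) 0 (by norm_num))).cast (lo' := (-10)) (den' := 6938893903907228377647697925567626953125) (N' := 20) (by norm_num) (by norm_num)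 (by norm_num))))).shift 14748 (by norm_num) (-11) 1 (by norm_num))).mono (N' := 20) (by norm_num))).cast (lo' := (-11)) (den' := 102334807294823804113548249006271362304687500) (N' := 20) (by norm_num) (by norm_num) (by norm_num))).sub ((((((((((((((((rep_litK (-1) 1 L_qc1 (by norm_num) 21)).oneMul (r_D1_5) 20 (by norm_num) (by norm_num))).ratMul (1) 1 (by norm_num))).shift 1490116119384765625 (by norm_num) (-11) 0 (by norm_num))).cast (lo' := (-11)) (den' := 20466961458964760822709649801254272460937500) (N' := 20) (by norm_num) (by norm_num) (by norm_num))).add (((((((((r_dq1).oneMul (r_B1_5) 20 (by norm_num) (by norm_num))).shift 14748 (by norm_num) (-11) 1 (by norm_num))).mono (N' := 20) (by norm_num))).cast (lo' := (-11)) (den' := 20466961458964760822709649801254272460937500) (N' := 20) (by norm_num) (by norm_num) (by norm_num))))).shift 5 (by norm_num) (-11) 0 (by norm_num))).cast (lo' := (-11)) (den' := 102334807294823804113548249006271362304687500) (N' := 20) (by norm_num) (by norm_num) (by norm_num))))).norm L_I1_1_1_6B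 Q_I1_1_1_6B 13735145330429077148437500 337 20 (by norm_num) (by norm_num) (by decide +kernel)).cast
    (by norm_num) rfl rfl

/-- Certificate node. -/
def I1_1_2_4A : K := (lieA (2) phi1 (litK (-1) 1 L_qc1) dphi1 I1_1_1_3A I1_1_1_3B)

theorem r_I1_1_2_4A : Rep pb (-3) 476837158203125 18 (.lit L_I1_1_2_4A) I1_1_2_4A :=
  ((((((((((((((r_phi1).oneMul (t_I1_1_1_3A) 18 (by norm_num) (by norm_num))).ratMul (2) 1 (by norm_num))).cast (lo' := (-3)) (den' := 710542735760100185871124267578125) (N' := 18) (by norm_num) (by norm_num) (by norm_num))).add ((((((((rep_litK (-1) 1 L_qc1 (by norm_num) 21)).oneMul (((rep_jac).oneMul (((t_I1_1_1_3A).ddw)) 18 (by norm_num) (by norm_num))) 18 (by norm_num) (by norm_num))).shift 25 (by norm_num) (-3) 0 (by norm_num))).cast (lo' := (-3)) (den' := 710542735760100185871124267578125) (N' := 18) (by norm_num) (by norm_num) (by norm_num))))).cast (lo' := (-3)) (den' := 710542735760100185871124267578125) (N' := 18) (by norm_num) (by norm_num) (by norm_num))).sub (((((((r_dphi1).oneMul (t_I1_1_1_3B) 18 (by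 norm_num) (by norm_num))).shift 125 (by norm_num) (-3) 0 (by norm_num))).cast (lo' := (-3)) (den' := 710542735760100185871124267578125) (N' := 18) (by norm_num) (by norm_num) (by norm_num))))).norm L_I1_1_2_4A Q_I1_1_2_4A 476837158203125 252 18 (by norm_num) (by norm_num) (by decide +kernel)).cast
    (by norm_num) rfl rfl

/-- Certificate node. -/
def I1_1_2_4B : K := (lieB (3) (1) phi1 (litK (-1) 1 L_qc1) dq1 I1_1_1_3A I1_1_1_3B)

theorem r_I1_1_2_4B : Rep pb (-2) 11920928955078125 18 (.lit L_I1_1_2_4B) I1_1_2_4B :=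
  ((((((((((((((r_phi1).oneMul (t_I1_1_1_3B) 18 (by norm_num) (by norm_num))).ratMul (3) 1 (by norm_num))).cast (lo' := (-2)) (den' := 3552713678800500929355621337890625) (N' := 18) (by norm_num) (by norm_num) (by norm_num))).add ((((((((rep_litK (-1) 1 L_qc1 (by norm_num) 21)).oneMul (((rep_jac).oneMul (((t_I1_1_1_3B).ddw)) 18 (by norm_num) (by norm_num))) 18 (by norm_num) (by norm_num))).shift 25 (by norm_num) (-2) 0 (by norm_num))).cast (lo' := (-2)) (den' := 3552713678800500929355621337890625) (N' := 18) (by norm_num) (by norm_num) (by norm_num))))).cast (lo' := (-2)) (den' := 3552713678800500929355621337890625) (N' := 18) (by norm_num) (by norm_num) (by norm_num))).sub ((((((((((((((((rep_litK (-1) 1 L_qc1 (by norm_num) 21)).oneMul (t_I1_1_1_3A) 18 (by norm_num) (by norm_num))).ratMul (1) 1 (by norm_num))).shift 298023223876953125 (by norm_num) (-2) 0 (by norm_num))).cast (lo' := (-2)) (den' := 710542735760100185871124267578125) (N' := 18) (by norm_num) (by norm_num) (by norm_num))).add (((((r_dq1).oneMul (t_I1_1_1_3B) 18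 (by norm_num) (by norm_num))).cast (lo' := (-2)) (den' := 710542735760100185871124267578125) (N' := 18) (by norm_num) (by norm_num) (by norm_num))))).shift 5 (by norm_num) (-2) 0 (by norm_num))).cast (lo' := (-2)) (den' := 3552713678800500929355621337890625) (N' := 18) (by norm_num) (by norm_num) (by norm_num))))).norm L_I1_1_2_4B Q_I1_1_2_4B 11920928955078125 252 18 (by norm_num) (by norm_num) (by decide +kernel)).cast
    (by norm_num) rfl rfl

/-- Certificate node. -/
def I1_1_2_5A : K := (lieA (3) phi1 (litK (-1) 1 L_qc1) dphi1 I1_1_1_4A I1_1_1_4B)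

theorem r_I1_1_2_5A : Rep pb (-5) 931322574615478515625 20 (.lit L_I1_1_2_5A) I1_1_2_5A :=
  ((((((((((((((r_phi1).oneMul (r_I1_1_1_4A) 20 (by norm_num) (by norm_num))).ratMul (3) 1 (by norm_num))).cast (lo' := (-5)) (den' := 1387778780781445675529539585113525390625) (N' := 20) (by norm_num) (by norm_num) (by norm_num))).add ((((((((rep_litK (-1) 1 L_qc1 (by norm_num) 21)).oneMul (((rep_jac).oneMul (((r_I1_1_1_4A).ddw)) 20 (by norm_num) (by norm_num))) 20 (by norm_num) (by norm_num))).shift 25 (by norm_num) (-5) 0 (by norm_num))).cast (lo' := (-5)) (den' := 1387778780781445675529539585113525390625) (N' := 20) (by norm_num) (by norm_num) (by norm_num))))).cast (lo' := (-5)) (den' := 1387778780781445675529539585113525390625) (N' := 20) (by norm_num) (by norm_num) (by norm_num))).sub (((((((r_dphi1).oneMul (r_I1_1_1_4B) 20 (by norm_num) (by norm_num))).shift 125 (by norm_num) (-5) 0 (by norm_num))).cast (lo' := (-5)) (den' := 1387778780781445675529539585113525390625) (N' := 20) (by norm_num) (by norm_num) (by norm_num))))).norm L_I1_1_2_5A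 Q_I1_1_2_5A 931322574615478515625 311 20 (by norm_num) (by norm_num) (by decide +kernel)).cast
    (by norm_num) rfl rfl

/-- Certificate node. -/
def I1_1_2_5B : K := (lieB (4) (1) phi1 (litK (-1) 1 L_qc1) dq1 I1_1_1_4A I1_1_1_4B)

theorem r_I1_1_2_5B : Rep pb (-4) 23283064365386962890625 20 (.lit L_I1_1_2_5B) I1_1_2_5B :=
  ((((((((((((((r_phi1).oneMul (r_I1_1_1_4B) 20 (by norm_num) (by norm_num))).ratMul (4) 1 (by norm_num))).cast (lo' := (-4)) (den' := 6938893903907228377647697925567626953125) (N' := 20) (by norm_num) (by norm_num) (by norm_num))).add ((((((((rep_litK (-1) 1 L_qc1 (by norm_num) 21)).oneMul (((rep_jac).oneMul (((r_I1_1_1_4B).ddw)) 20 (by norm_num) (by norm_num))) 20 (by norm_num) (by norm_num))).shift 25 (by norm_num) (-4) 0 (by norm_num))).cast (lo' := (-4)) (den' := 6938893903907228377647697925567626953125) (N' := 20) (by norm_num) (by norm_num) (by norm_num))))).cast (lo' := (-4)) (den' := 6938893903907228377647697925567626953125) (N' := 20) (by norm_num) (by norm_num) (by norm_num))).sub ((((((((((((((((rep_litK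 (-1) 1 L_qc1 (by norm_num) 21)).oneMul (r_I1_1_1_4A) 20 (by norm_num) (by norm_num))).ratMul (1) 1 (by norm_num))).shift 298023223876953125 (by norm_num) (-4) 0 (by norm_num))).cast (lo' := (-4)) (den' := 1387778780781445675529539585113525390625) (N' := 20) (by norm_num) (by norm_num) (by norm_num))).add (((((r_dq1).oneMul (r_I1_1_1_4B) 20 (by norm_num) (by norm_num))).cast (lo' := (-4)) (den' := 1387778780781445675529539585113525390625) (N' := 20) (by norm_num) (by norm_num) (by norm_num))))).shift 5 (by norm_num) (-4) 0 (by norm_num))).cast (lo' := (-4)) (den' := 6938893903907228377647697925567626953125) (N' := 20) (by norm_num) (by norm_num) (by norm_num))))).norm L_I1_1_2_5B Q_I1_1_2_5B 23283064365386962890625 311 20 (by norm_num) (by norm_num) (by decide +kernel)).cast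
    (by norm_num) rfl rfl

/-- Certificate node. -/
def I1_1_2_6A : K := (lieA (4) phi1 (litK (-1) 1 L_qc1) dphi1 I1_1_1_5A I1_1_1_5B)

theorem r_I1_1_2_6A : Rep pb (-12) 915676355361938476562500 20 (.lit L_I1_1_2_6A) I1_1_2_6A :=
  ((((((((((((((r_phi1).oneMul (r_I1_1_1_5A) 20 (by norm_num) (by norm_num))).ratMul (4) 1 (by norm_num))).cast (lo' := (-12)) (den' := 5457856389057269552722573280334472656250000) (N' := 20) (by norm_num) (by norm_num) (by norm_num))).add ((((((((rep_litK (-1) 1 L_qc1 (by norm_num) 21)).oneMul (((rep_jac).oneMul (((r_I1_1_1_5A).ddw)) 20 (by norm_num) (by norm_num))) 20 (by norm_num) (by norm_num))).shift 25 (by norm_num) (-12) 0 (by norm_num))).cast (lo' := (-12)) (den' := 5457856389057269552722573280334472656250000) (N' := 20) (by norm_num) (by norm_num) (by norm_num))))).cast (lo' := (-12)) (den' := 5457856389057269552722573280334472656250000) (N' := 20) (by norm_num) (by norm_num) (by norm_num))).sub (((((((r_dphi1).oneMul (r_I1_1_1_5B) 20 (by norm_num) (by norm_num))).shift 125 (by norm_num) (-12)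 0 (by norm_num))).cast (lo' := (-12)) (den' := 5457856389057269552722573280334472656250000) (N' := 20) (by norm_num) (by norm_num) (by norm_num))))).norm L_I1_1_2_6A Q_I1_1_2_6A 915676355361938476562500 337 20 (by norm_num) (by norm_num) (by decide +kernel)).cast
    (by norm_num) rfl rfl

/-- Certificate node. -/
def I1_1_2_6B : K := (lieB (5) (1) phi1 (litK (-1) 1 L_qc1) dq1 I1_1_1_5A I1_1_1_5B)

theorem r_I1_1_2_6B : Rep pb (-11) 9156763553619384765625000 20 (.lit L_I1_1_2_6B) I1_1_2_6B :=
  ((((((((((((((r_phi1).oneMul (r_I1_1_1_5B) 20 (by norm_num) (by norm_num))).ratMul (5) 1 (by norm_num))).cast (lo' := (-11)) (den' := 27289281945286347763612866401672363281250000) (N' := 20) (by norm_num) (by norm_num) (by norm_num))).add ((((((((rep_litK (-1) 1 L_qc1 (by norm_num) 21)).oneMul (((rep_jac).oneMul (((r_I1_1_1_5B).ddw)) 20 (by norm_num) (by norm_num))) 20 (by norm_num) (by norm_num))).shift 25 (by norm_num) (-11) 0 (by norm_num))).cast (lo' := (-11)) (den' := 27289281945286347763612866401672363281250000) (N' := 20) (by norm_num)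 (by norm_num) (by norm_num))))).cast (lo' := (-11)) (den' := 27289281945286347763612866401672363281250000) (N' := 20) (by norm_num) (by norm_num) (by norm_num))).sub ((((((((((((((((rep_litK (-1) 1 L_qc1 (by norm_num) 21)).oneMul (r_I1_1_1_5A) 20 (by norm_num) (by norm_num))).ratMul (1) 1 (by norm_num))).shift 298023223876953125 (by norm_num) (-11) 0 (by norm_num))).cast (lo' := (-11)) (den' := 5457856389057269552722573280334472656250000) (N' := 20) (by norm_num) (by norm_num) (by norm_num))).add (((((r_dq1).oneMul (r_I1_1_1_5B) 20 (by norm_num) (by norm_num))).cast (lo' := (-11)) (den' := 5457856389057269552722573280334472656250000) (N' := 20) (by norm_num) (by norm_num) (by norm_num))))).shift 5 (by norm_num) (-11) 0 (by norm_num))).cast (lo' := (-11)) (den' := 27289281945286347763612866401672363281250000) (N' := 20) (by norm_num) (by norm_num) (by norm_num))))).norm L_I1_1_2_6B Q_I1_1_2_6B 9156763553619384765625000 336 20 (by norm_num) (by norm_num) (by decide +kernel)).cast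
    (by norm_num) rfl rfl

/-- Certificate node. -/
def I1_1_3_5A : K := (lieA (3) phi1 (litK (-1) 1 L_qc1) dphi1 I1_1_2_4A I1_1_2_4B)

theorem r_I1_1_3_5A : Rep pb (-5) 95367431640625 18 (.lit L_I1_1_3_5A) I1_1_3_5A :=
  ((((((((((((((r_phi1).oneMul (r_I1_1_2_4A) 18 (by norm_num) (by norm_num))).ratMul (3) 1 (by norm_num))).cast (lo' := (-5)) (den' := 142108547152020037174224853515625) (N' := 18) (by norm_num) (by norm_num) (by norm_num))).add ((((((((rep_litK (-1) 1 L_qc1 (by norm_num) 21)).oneMul (((rep_jac).oneMul (((r_I1_1_2_4A).ddw)) 18 (by norm_num) (by norm_num))) 18 (by norm_num) (by norm_num))).shift 25 (by norm_num) (-5) 0 (by norm_num))).cast (lo' := (-5)) (den' := 142108547152020037174224853515625) (N' := 18) (by norm_num) (by norm_num) (by norm_num))))).cast (lo' := (-5)) (den' := 142108547152020037174224853515625) (N' := 18) (by norm_num) (by norm_num) (by norm_num))).sub (((((((r_dphi1).oneMul (r_I1_1_2_4B) 18 (by norm_num) (by norm_num))).shift 25 (by norm_num) (-5) 0 (by norm_num))).cast (lo' := (-5)) (den' :=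 142108547152020037174224853515625) (N' := 18) (by norm_num) (by norm_num) (by norm_num))))).norm L_I1_1_3_5A Q_I1_1_3_5A 95367431640625 254 18 (by norm_num) (by norm_num) (by decide +kernel)).cast
    (by norm_num) rfl rfl

/-- Certificate node. -/
def I1_1_3_5B : K := (lieB (4) (1) phi1 (litK (-1) 1 L_qc1) dq1 I1_1_2_4A I1_1_2_4B)

theorem r_I1_1_3_5B : Rep pb (-4) 2384185791015625 18 (.lit L_I1_1_3_5B) I1_1_3_5B :=
  ((((((((((((((r_phi1).oneMul (r_I1_1_2_4B) 18 (by norm_num) (by norm_num))).ratMul (4) 1 (by norm_num))).cast (lo' := (-4)) (den' := 3552713678800500929355621337890625) (N' := 18) (by norm_num) (by norm_num) (by norm_num))).add ((((((((rep_litK (-1) 1 L_qc1 (by norm_num) 21)).oneMul (((rep_jac).oneMul (((r_I1_1_2_4B).ddw)) 18 (by norm_num) (by norm_num))) 18 (by norm_num) (by norm_num))).shift 25 (by norm_num) (-4) 0 (by norm_num))).cast (lo' := (-4)) (den' := 3552713678800500929355621337890625) (N' := 18) (by norm_num) (by norm_num) (by norm_num))))).cast (lo' := (-4)) (den' := 3552713678800500929355621337890625)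 (N' := 18) (by norm_num) (by norm_num) (by norm_num))).sub ((((((((((((((((rep_litK (-1) 1 L_qc1 (by norm_num) 21)).oneMul (r_I1_1_2_4A) 18 (by norm_num) (by norm_num))).ratMul (1) 1 (by norm_num))).shift 1490116119384765625 (by norm_num) (-4) 0 (by norm_num))).cast (lo' := (-4)) (den' := 710542735760100185871124267578125) (N' := 18) (by norm_num) (by norm_num) (by norm_num))).add (((((r_dq1).oneMul (r_I1_1_2_4B) 18 (by norm_num) (by norm_num))).cast (lo' := (-4)) (den' := 710542735760100185871124267578125) (N' := 18) (by norm_num) (by norm_num) (by norm_num))))).shift 5 (by norm_num) (-4) 0 (by norm_num))).cast (lo' := (-4)) (den' := 3552713678800500929355621337890625) (N' := 18) (by norm_num) (by norm_num) (by norm_num))))).norm L_I1_1_3_5B Q_I1_1_3_5B 2384185791015625 258 18 (by norm_num) (by norm_num) (by decide +kernel)).cast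
    (by norm_num) rfl rfl

/-- Certificate node. -/
def I1_1_3_6A : K := (lieA (4) phi1 (litK (-1) 1 L_qc1) dphi1 I1_1_2_5A I1_1_2_5B)

theorem r_I1_1_3_6A : Rep pb (-7) 186264514923095703125 20 (.lit L_I1_1_3_6A) I1_1_3_6A :=
  ((((((((((((((r_phi1).oneMul (r_I1_1_2_5A) 20 (by norm_num) (by norm_num))).ratMul (4) 1 (by norm_num))).cast (lo' := (-7)) (den' := 277555756156289135105907917022705078125) (N' := 20) (by norm_num) (by norm_num) (by norm_num))).add ((((((((rep_litK (-1) 1 L_qc1 (by norm_num) 21)).oneMul (((rep_jac).oneMul (((r_I1_1_2_5A).ddw)) 20 (by norm_num) (by norm_num))) 20 (by norm_num) (by norm_num))).shift 25 (by norm_num) (-7) 0 (by norm_num))).cast (lo' := (-7)) (den' := 277555756156289135105907917022705078125) (N' := 20) (by norm_num) (by norm_num) (by norm_num))))).cast (lo' := (-7)) (den' := 277555756156289135105907917022705078125) (N' := 20) (by norm_num) (by norm_num) (by norm_num))).sub (((((((r_dphi1).oneMul (r_I1_1_2_5B) 20 (by norm_num) (by norm_num))).shift 25 (by norm_num) (-7) 0 (by norm_num))).cast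 (lo' := (-7)) (den' := 277555756156289135105907917022705078125) (N' := 20) (by norm_num) (by norm_num) (by norm_num))))).norm L_I1_1_3_6A Q_I1_1_3_6A 186264514923095703125 313 20 (by norm_num) (by norm_num) (by decide +kernel)).cast
    (by norm_num) rfl rfl

/-- Certificate node. -/
def I1_1_3_6B : K := (lieB (5) (1) phi1 (litK (-1) 1 L_qc1) dq1 I1_1_2_5A I1_1_2_5B)

theorem r_I1_1_3_6B : Rep pb (-6) 4656612873077392578125 20 (.lit L_I1_1_3_6B) I1_1_3_6B :=
  ((((((((((((((r_phi1).oneMul (r_I1_1_2_5B) 20 (by norm_num) (by norm_num))).ratMul (5) 1 (by norm_num))).cast (lo' := (-6)) (den' := 6938893903907228377647697925567626953125) (N' := 20) (by norm_num) (by norm_num) (by norm_num))).add ((((((((rep_litK (-1) 1 L_qc1 (by norm_num) 21)).oneMul (((rep_jac).oneMul (((r_I1_1_2_5B).ddw)) 20 (by norm_num) (by norm_num))) 20 (by norm_num) (by norm_num))).shift 25 (by norm_num) (-6) 0 (by norm_num))).cast (lo' := (-6)) (den' := 6938893903907228377647697925567626953125) (N' := 20) (by norm_num) (by norm_num) (by norm_num))))).cast (lo'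 := (-6)) (den' := 6938893903907228377647697925567626953125) (N' := 20) (by norm_num) (by norm_num) (by norm_num))).sub ((((((((((((((((rep_litK (-1) 1 L_qc1 (by norm_num) 21)).oneMul (r_I1_1_2_5A) 20 (by norm_num) (by norm_num))).ratMul (1) 1 (by norm_num))).shift 1490116119384765625 (by norm_num) (-6) 0 (by norm_num))).cast (lo' := (-6)) (den' := 1387778780781445675529539585113525390625) (N' := 20) (by norm_num) (by norm_num) (by norm_num))).add (((((r_dq1).oneMul (r_I1_1_2_5B) 20 (by norm_num) (by norm_num))).cast (lo' := (-6)) (den' := 1387778780781445675529539585113525390625) (N' := 20) (by norm_num) (by norm_num) (by norm_num))))).shift 5 (by norm_num) (-6) 0 (by norm_num))).cast (lo' := (-6)) (den' := 6938893903907228377647697925567626953125) (N' := 20) (by norm_num) (by norm_num) (by norm_num))))).norm L_I1_1_3_6B Q_I1_1_3_6B 4656612873077392578125 318 20 (by norm_num) (by norm_num) (by decide +kernel)).cast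
    (by norm_num) rfl rfl

/-- Certificate node. -/
def I1_1_4_6A : K := (lieA (4) phi1 (litK (-1) 1 L_qc1) dphi1 I1_1_3_5A I1_1_3_5B)

theorem r_I1_1_4_6A : Rep pb (-7) 95367431640625 18 (.lit L_I1_1_4_6A) I1_1_4_6A :=
  ((((((((((((((r_phi1).oneMul (r_I1_1_3_5A) 18 (by norm_num) (by norm_num))).ratMul (4) 1 (by norm_num))).cast (lo' := (-7)) (den' := 28421709430404007434844970703125) (N' := 18) (by norm_num) (by norm_num) (by norm_num))).add ((((((((rep_litK (-1) 1 L_qc1 (by norm_num) 21)).oneMul (((rep_jac).oneMul (((r_I1_1_3_5A).ddw)) 18 (by norm_num) (by norm_num))) 18 (by norm_num) (by norm_num))).shift 25 (by norm_num) (-7) 0 (by norm_num))).cast (lo' := (-7)) (den' := 28421709430404007434844970703125) (N' := 18) (by norm_num) (by norm_num) (by norm_num))))).cast (lo' := (-7)) (den' := 28421709430404007434844970703125) (N' := 18) (by norm_num) (by norm_num) (by norm_num))).sub (((((((r_dphi1).oneMul (r_I1_1_3_5B) 18 (by norm_num) (by norm_num))).shift 25 (by norm_num) (-7) 0 (by norm_num))).cast (lo' := (-7)) (den' := 28421709430404007434844970703125)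 (N' := 18) (by norm_num) (by norm_num) (by norm_num))))).norm L_I1_1_4_6A Q_I1_1_4_6A 95367431640625 257 18 (by norm_num) (by norm_num) (by decide +kernel)).cast
    (by norm_num) rfl rfl

/-- Certificate node. -/
def I1_1_4_6B : K := (lieB (5) (1) phi1 (litK (-1) 1 L_qc1) dq1 I1_1_3_5A I1_1_3_5B)

theorem r_I1_1_4_6B : Rep pb (-6) 476837158203125 18 (.lit L_I1_1_4_6B) I1_1_4_6B :=
  ((((((((((((((r_phi1).oneMul (r_I1_1_3_5B) 18 (by norm_num) (by norm_num))).ratMul (5) 1 (by norm_num))).cast (lo' := (-6)) (den' := 710542735760100185871124267578125) (N' := 18) (by norm_num) (by norm_num) (by norm_num))).add ((((((((rep_litK (-1) 1 L_qc1 (by norm_num) 21)).oneMul (((rep_jac).oneMul (((r_I1_1_3_5B).ddw)) 18 (by norm_num) (by norm_num))) 18 (by norm_num) (by norm_num))).shift 25 (by norm_num) (-6) 0 (by norm_num))).cast (lo' := (-6)) (den' := 710542735760100185871124267578125) (N' := 18) (by norm_num) (by norm_num) (by norm_num))))).cast (lo' := (-6)) (den' := 710542735760100185871124267578125) (N' := 18) (by norm_num) (by norm_num)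 (by norm_num))).sub ((((((((((((((((rep_litK (-1) 1 L_qc1 (by norm_num) 21)).oneMul (r_I1_1_3_5A) 18 (by norm_num) (by norm_num))).ratMul (1) 1 (by norm_num))).shift 1490116119384765625 (by norm_num) (-6) 0 (by norm_num))).cast (lo' := (-6)) (den' := 142108547152020037174224853515625) (N' := 18) (by norm_num) (by norm_num) (by norm_num))).add (((((r_dq1).oneMul (r_I1_1_3_5B) 18 (by norm_num) (by norm_num))).cast (lo' := (-6)) (den' := 142108547152020037174224853515625) (N' := 18) (by norm_num) (by norm_num) (by norm_num))))).shift 5 (by norm_num) (-6) 0 (by norm_num))).cast (lo' := (-6)) (den' := 710542735760100185871124267578125) (N' := 18) (by norm_num) (by norm_num) (by norm_num))))).norm L_I1_1_4_6B Q_I1_1_4_6B 476837158203125 261 18 (by norm_num) (by norm_num) (by decide +kernel)).cast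
    (by norm_num) rfl rfl

/-- Certificate node. -/
def Z1_1_3A : K := (D1_3 + (zc (1) • I1_1_1_3A))

theorem r_Z1_1_3A : Rep pb (-1) 931322574615478515625 18 (.lit L_Z1_1_3A) Z1_1_3A :=
  ((((((((r_D1_3).mono (N' := 18) (by norm_num))).cast (lo' := (-1)) (den' := 23283064365386962890625) (N' := 18) (by norm_num) (by norm_num) (by norm_num))).add (((((((t_I1_1_1_3A).ratMul (1) 1 (by norm_num))).shift 9765625 (by norm_num) (-1) 0 (by norm_num))).cast (lo' := (-1)) (den' := 23283064365386962890625) (N' := 18) (by norm_num) (by norm_num) (by norm_num))))).norm L_Z1_1_3A Q_Z1_1_3A 931322574615478515625 195 18 (by norm_num) (by norm_num) (by decide +kernel)).cast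
    (by norm_num) rfl rfl

theorem t_Z1_1_3A : Rep pb (0) 931322574615478515625 17 (.lit T_Z1_1_3A) Z1_1_3A :=
  ((r_Z1_1_3A.cast rfl rfl (by norm_num : 18 = 1 + 17)).trim 1 (by decide +kernel)).cast (by norm_num) rfl rfl |> fun h => (show L_Z1_1_3A.drop 1 = T_Z1_1_3A by decide +kernel) ▸ h

/-- Certificate node. -/
def Z1_1_3B : K := ((0 : K) + (zc (1) • I1_1_1_3B))

theorem r_Z1_1_3B : Rep pb (0) 11920928955078125 18 (.lit L_Z1_1_3B) Z1_1_3B :=
  (((((((((((rep_zero pb (0) 100)).shift 11920928955078125 (by norm_num) (0) 0 (by norm_num))).mono (N' := 18) (by norm_num))).cast (lo' := (0)) (den' := 11920928955078125) (N' := 18) (by norm_num) (by norm_num) (by norm_num))).add (((((t_I1_1_1_3B).ratMul (1) 1 (by norm_num))).cast (lo' := (0)) (den' := 11920928955078125) (N' := 18) (by norm_num) (by norm_num) (by norm_num))))).norm L_Z1_1_3B Q_Z1_1_3B 11920928955078125 143 18 (by norm_num) (by norm_num) (by decide +kernel)).cast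
    (by norm_num) rfl rfl

/-- Certificate node. -/
def Z1_1_4A : K := ((D1_4 + (zc (1) • I1_1_1_4A)) + ((((1 : ℤ) : ℂ) / ((2 : ℕ) : ℂ)) • I1_1_2_4A))

theorem r_Z1_1_4A : Rep pb (-8) 91567635536193847656250000 20 (.lit L_Z1_1_4A) Z1_1_4A :=
  ((((((((((r_D1_4).cast (lo' := (-8)) (den' := 91567635536193847656250000) (N' := 20) (by norm_num) (by norm_num) (by norm_num))).add (((((((((r_I1_1_1_4A).ratMul (1) 1 (by norm_num))).shift 19664 (by norm_num) (-8) 5 (by norm_num))).mono (N' := 20) (by norm_num))).cast (lo' := (-8)) (den' := 91567635536193847656250000) (N' := 20) (by norm_num) (by norm_num) (by norm_num))))).cast (lo' := (-8)) (den' := 91567635536193847656250000) (N' := 20) (by norm_num) (by norm_num) (by norm_num))).add (((((((((r_I1_1_2_4A).ratMul (1) 2 (by norm_num))).shift 96015625000 (by norm_num) (-8) 5 (by norm_num))).mono (N' := 20) (by norm_num))).cast (lo' := (-8)) (den' := 91567635536193847656250000) (N' := 20) (by norm_num) (by norm_num) (by norm_num))))).norm L_Z1_1_4A Q_Z1_1_4A 91567635536193847656250000 232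 20 (by norm_num) (by norm_num) (by decide +kernel)).cast
    (by norm_num) rfl rfl

/-- Certificate node. -/
def Z1_1_4B : K := ((B1_4 + (zc (1) • I1_1_1_4B)) + ((((1 : ℤ) : ℂ) / ((2 : ℕ) : ℂ)) • I1_1_2_4B))

theorem r_Z1_1_4B : Rep pb (-7) 298023223876953125 20 (.lit L_Z1_1_4B) Z1_1_4B :=
  ((((((((((((((r_B1_4).shift 390625 (by norm_num) (-7) 0 (by norm_num))).cast (lo' := (-7)) (den' := 23283064365386962890625) (N' := 20) (by norm_num) (by norm_num) (by norm_num))).add (((((((((r_I1_1_1_4B).ratMul (1) 1 (by norm_num))).shift 1 (by norm_num) (-7) 5 (by norm_num))).mono (N' := 20) (by norm_num))).cast (lo' := (-7)) (den' := 23283064365386962890625) (N' := 20) (by norm_num) (by norm_num) (by norm_num))))).shift 2 (by norm_num) (-7) 0 (by norm_num))).cast (lo' := (-7)) (den' := 46566128730773925781250) (N' := 20) (by norm_num) (by norm_num) (by norm_num))).add (((((((((r_I1_1_2_4B).ratMul (1) 2 (by norm_num))).shift 1953125 (by norm_num) (-7) 5 (by norm_num))).mono (N' := 20) (by norm_num))).cast (lo' := (-7)) (den' := 46566128730773925781250)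 (N' := 20) (by norm_num) (by norm_num) (by norm_num))))).norm L_Z1_1_4B Q_Z1_1_4B 298023223876953125 186 20 (by norm_num) (by norm_num) (by decide +kernel)).cast
    (by norm_num) rfl rfl

/-- Certificate node. -/
def Z1_1_5A : K := (((D1_5 + (zc (1) • I1_1_1_5A)) + ((((1 : ℤ) : ℂ) / ((2 : ℕ) : ℂ)) • I1_1_2_5A)) + ((((1 : ℤ) : ℂ) / ((6 : ℕ) : ℂ)) • I1_1_3_5A))

theorem r_Z1_1_5A : Rep pb (-10) 54940581321716308593750000 20 (.lit L_Z1_1_5A) Z1_1_5A :=
  ((((((((((((((((r_D1_5).shift 4 (by norm_num) (-10) 0 (by norm_num))).cast (lo' := (-10)) (den' := 54940581321716308593750000) (N' := 20) (by norm_num) (by norm_num) (by norm_num))).add (((((((r_I1_1_1_5A).ratMul (1) 1 (by norm_num))).shift 3 (by norm_num) (-10) 0 (by norm_num))).cast (lo' := (-10)) (den' := 54940581321716308593750000) (N' := 20) (by norm_num) (by norm_num) (by norm_num))))).cast (lo' := (-10)) (den' := 54940581321716308593750000) (N' := 20) (by norm_num) (by norm_num) (by norm_num))).add (((((((((r_I1_1_2_5A).ratMul (1) 2 (by norm_num))).shift 29496 (by norm_num)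 (-10) 5 (by norm_num))).mono (N' := 20) (by norm_num))).cast (lo' := (-10)) (den' := 54940581321716308593750000) (N' := 20) (by norm_num) (by norm_num) (by norm_num))))).cast (lo' := (-10)) (den' := 54940581321716308593750000) (N' := 20) (by norm_num) (by norm_num) (by norm_num))).add (((((((((r_I1_1_3_5A).ratMul (1) 6 (by norm_num))).shift 96015625000 (by norm_num) (-10) 5 (by norm_num))).mono (N' := 20) (by norm_num))).cast (lo' := (-10)) (den' := 54940581321716308593750000) (N' := 20) (by norm_num) (by norm_num) (by norm_num))))).norm L_Z1_1_5A Q_Z1_1_5A 54940581321716308593750000 237 20 (by norm_num) (by norm_num) (by decide +kernel)).cast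
    (by norm_num) rfl rfl

/-- Certificate node. -/
def Z1_1_5B : K := (((B1_5 + (zc (1) • I1_1_1_5B)) + ((((1 : ℤ) : ℂ) / ((2 : ℕ) : ℂ)) • I1_1_2_5B)) + ((((1 : ℤ) : ℂ) / ((6 : ℕ) : ℂ)) • I1_1_3_5B))

theorem r_Z1_1_5B : Rep pb (-9) 91567635536193847656250000 20 (.lit L_Z1_1_5B) Z1_1_5B :=
  ((((((((((((((((((((r_B1_5).shift 19664 (by norm_num) (-9) 1 (by norm_num))).mono (N' := 20) (by norm_num))).cast (lo' := (-9)) (den' := 457838177680969238281250000) (N' := 20) (by norm_num) (by norm_num) (by norm_num))).add (((((((r_I1_1_1_5B).ratMul (1) 1 (by norm_num))).shift 5 (by norm_num) (-9) 0 (by norm_num))).cast (lo' := (-9)) (den' := 457838177680969238281250000) (N' := 20) (by norm_num) (by norm_num) (by norm_num))))).cast (lo' := (-9)) (den' := 457838177680969238281250000) (N' := 20) (by norm_num) (by norm_num) (by norm_num))).add (((((((((r_I1_1_2_5B).ratMul (1) 2 (by norm_num))).shift 9832 (by norm_num) (-9) 5 (by norm_num))).mono (N' := 20) (by norm_num))).cast (lo' := (-9)) (den' := 457838177680969238281250000) (N' := 20) (by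 norm_num) (by norm_num) (by norm_num))))).shift 3 (by norm_num) (-9) 0 (by norm_num))).cast (lo' := (-9)) (den' := 1373514533042907714843750000) (N' := 20) (by norm_num) (by norm_num) (by norm_num))).add (((((((((r_I1_1_3_5B).ratMul (1) 6 (by norm_num))).shift 96015625000 (by norm_num) (-9) 5 (by norm_num))).mono (N' := 20) (by norm_num))).cast (lo' := (-9)) (den' := 1373514533042907714843750000) (N' := 20) (by norm_num) (by norm_num) (by norm_num))))).norm L_Z1_1_5B Q_Z1_1_5B 91567635536193847656250000 237 20 (by norm_num) (by norm_num) (by decide +kernel)).cast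
    (by norm_num) rfl rfl

/-- Certificate node. -/
def Z1_1_6A : K := ((((D1_6 + (zc (1) • I1_1_1_6A)) + ((((1 : ℤ) : ℂ) / ((2 : ℕ) : ℂ)) • I1_1_2_6A)) + ((((1 : ℤ) : ℂ) / ((6 : ℕ) : ℂ)) • I1_1_3_6A)) + ((((1 : ℤ) : ℂ) / ((24 : ℕ) : ℂ)) • I1_1_4_6A))

theorem r_Z1_1_6A : Rep pb (-17) 590817276388406753540039062500000 20 (.lit L_Z1_1_6A) Z1_1_6A :=
  ((((((((((((((((((r_D1_6).cast (lo' := (-17)) (den' := 590817276388406753540039062500000) (N' := 20) (by norm_num) (by norm_num) (by norm_num))).add (((((((((r_I1_1_1_6A).ratMul (1) 1 (by norm_num))).shift 1290450000 (by norm_num) (-17) 5 (by norm_num))).mono (N' := 20) (by norm_num))).cast (lo' := (-17)) (den' := 590817276388406753540039062500000) (N' := 20) (by norm_num) (by norm_num) (by norm_num))))).cast (lo' := (-17)) (den' := 590817276388406753540039062500000) (N' := 20) (by norm_num) (by norm_num) (by norm_num))).add (((((((((r_I1_1_2_6A).ratMul (1) 2 (by norm_num))).shift 322612500 (by norm_num) (-17) 5 (by norm_num))).mono (N' := 20) (by norm_num))).cast (lo' := (-17)) (den'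 := 590817276388406753540039062500000) (N' := 20) (by norm_num) (by norm_num) (by norm_num))))).cast (lo' := (-17)) (den' := 590817276388406753540039062500000) (N' := 20) (by norm_num) (by norm_num) (by norm_num))).add (((((((((r_I1_1_3_6A).ratMul (1) 6 (by norm_num))).shift 528654350000 (by norm_num) (-17) 10 (by norm_num))).mono (N' := 20) (by norm_num))).cast (lo' := (-17)) (den' := 590817276388406753540039062500000) (N' := 20) (by norm_num) (by norm_num) (by norm_num))))).cast (lo' := (-17)) (den' := 590817276388406753540039062500000) (N' := 20) (by norm_num) (by norm_num) (by norm_num))).add (((((((((r_I1_1_4_6A).ratMul (1) 24 (by norm_num))).shift 258132006835937500 (by norm_num) (-17) 10 (by norm_num))).mono (N' := 20) (by norm_num))).cast (lo' := (-17)) (den' := 590817276388406753540039062500000) (N' := 20) (by norm_num) (by norm_num) (by norm_num))))).norm L_Z1_1_6A Q_Z1_1_6A 590817276388406753540039062500000 291 20 (by norm_num) (by norm_num) (by decide +kernel)).cast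
    (by norm_num) rfl rfl

/-- Certificate node. -/
def Z1_1_6B : K := ((((B1_6 + (zc (1) • I1_1_1_6B)) + ((((1 : ℤ) : ℂ) / ((2 : ℕ) : ℂ)) • I1_1_2_6B)) + ((((1 : ℤ) : ℂ) / ((6 : ℕ) : ℂ)) • I1_1_3_6B)) + ((((1 : ℤ) : ℂ) / ((24 : ℕ) : ℂ)) • I1_1_4_6B))

theorem r_Z1_1_6B : Rep pb (-16) 54940581321716308593750000 20 (.lit L_Z1_1_6B) Z1_1_6B :=
  ((((((((((((((((((((((r_B1_6).shift 3 (by norm_num) (-16) 0 (by norm_num))).cast (lo' := (-16)) (den' := 54940581321716308593750000) (N' := 20) (by norm_num) (by norm_num) (by norm_num))).add (((((((((r_I1_1_1_6B).ratMul (1) 1 (by norm_num))).shift 4 (by norm_num) (-16) 5 (by norm_num))).mono (N' := 20) (by norm_num))).cast (lo' := (-16)) (den' := 54940581321716308593750000) (N' := 20) (by norm_num) (by norm_num) (by norm_num))))).cast (lo' := (-16)) (den' := 54940581321716308593750000) (N' := 20) (by norm_num) (by norm_num) (by norm_num))).add (((((((((r_I1_1_2_6B).ratMul (1) 2 (by norm_num))).shift 3 (by norm_num) (-16) 5 (by norm_num))).mono (N' := 20) (by norm_num))).cast (lo' := (-16))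 (den' := 54940581321716308593750000) (N' := 20) (by norm_num) (by norm_num) (by norm_num))))).shift 5 (by norm_num) (-16) 0 (by norm_num))).cast (lo' := (-16)) (den' := 274702906608581542968750000) (N' := 20) (by norm_num) (by norm_num) (by norm_num))).add (((((((((r_I1_1_3_6B).ratMul (1) 6 (by norm_num))).shift 9832 (by norm_num) (-16) 10 (by norm_num))).mono (N' := 20) (by norm_num))).cast (lo' := (-16)) (den' := 274702906608581542968750000) (N' := 20) (by norm_num) (by norm_num) (by norm_num))))).cast (lo' := (-16)) (den' := 274702906608581542968750000) (N' := 20) (by norm_num) (by norm_num) (by norm_num))).add (((((((((r_I1_1_4_6B).ratMul (1) 24 (by norm_num))).shift 24003906250 (by norm_num) (-16) 10 (by norm_num))).mono (N' := 20) (by norm_num))).cast (lo' := (-16)) (den' := 274702906608581542968750000) (N' := 20) (by norm_num) (by norm_num) (by norm_num))))).norm L_Z1_1_6B Q_Z1_1_6B 54940581321716308593750000 240 20 (by norm_num) (by norm_num) (by decide +kernel)).cast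
    (by norm_num) rfl rfl

/-- Certificate node. -/
def I1_2_1_4A : K := (lieA (0) phi2 (litK (-8) 390625 L_qc2) dphi2 D1_2 (0 : K))

theorem r_I1_2_1_4A : Rep pb (-10) 95367431640625 20 (.lit L_I1_2_1_4A) I1_2_1_4A :=
  ((((((((((((((((((r_phi2).oneMul (t_D1_2) 18 (by norm_num) (by norm_num))).ratMul (0) 1 (by norm_num))).shift 390625 (by norm_num) (-8) 0 (by norm_num))).cast (lo' := (-8)) (den' := 111022302462515654042363166809082031250) (N' := 18) (by norm_num) (by norm_num) (by norm_num))).add ((((((((rep_litK (-8) 390625 L_qc2 (by norm_num) 28)).oneMul (((rep_jac).oneMul (((t_D1_2).ddw)) 18 (by norm_num) (by norm_num))) 18 (by norm_num) (by norm_num))).shift 2 (by norm_num) (-8) 0 (by norm_num))).cast (lo' := (-8)) (den' := 111022302462515654042363166809082031250) (N' := 18) (by norm_num) (by norm_num) (by norm_num))))).shift 1 (by norm_num) (-10) 2 (by norm_num))).cast (lo' := (-10)) (den' := 111022302462515654042363166809082031250) (N' := 20) (by norm_num) (by norm_num) (by norm_num))).sub (((((((r_dphi2).oneMul ((rep_zero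 pb (0) 100)) 20 (by norm_num) (by norm_num))).shift 232830643653869628906250 (by norm_num) (-10) 0 (by norm_num))).cast (lo' := (-10)) (den' := 111022302462515654042363166809082031250) (N' := 20) (by norm_num) (by norm_num) (by norm_num))))).norm L_I1_2_1_4A Q_I1_2_1_4A 95367431640625 271 20 (by norm_num) (by norm_num) (by decide +kernel)).cast
    (by norm_num) rfl rfl

theorem t_I1_2_1_4A : Rep pb (-8) 95367431640625 18 (.lit T_I1_2_1_4A) I1_2_1_4A :=
  ((r_I1_2_1_4A.cast rfl rfl (by norm_num : 20 = 2 + 18)).trim 2 (by decide +kernel)).cast (by norm_num) rfl rfl |> fun h => (show L_I1_2_1_4A.drop 2 = T_I1_2_1_4A by decide +kernel) ▸ h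

/-- Certificate node. -/
def I1_2_1_4B : K := (lieB (2) (2) phi2 (litK (-8) 390625 L_qc2) dq2 D1_2 (0 : K))

theorem r_I1_2_1_4B : Rep pb (-9) 11920928955078125 20 (.lit L_I1_2_1_4B) I1_2_1_4B :=
  ((((((((((((((((r_phi2).oneMul ((rep_zero pb (0) 100)) 20 (by norm_num) (by norm_num))).ratMul (2) 1 (by norm_num))).shift 390625 (by norm_num) (-9) 0 (by norm_num))).cast (lo' := (-9)) (den' := 9313225746154785156250) (N' := 20) (by norm_num) (by norm_num) (by norm_num))).add ((((((((rep_litK (-8) 390625 L_qc2 (by norm_num) 28)).oneMul (((rep_jac).oneMul ((((rep_zero pb (0) 100)).ddw)) 20 (by norm_num) (by norm_num))) 20 (by norm_num) (by norm_num))).shift 2 (by norm_num) (-9) 0 (by norm_num))).cast (lo' := (-9)) (den' := 9313225746154785156250) (N' := 20) (by norm_num) (by norm_num) (by norm_num))))).cast (lo' := (-9)) (den' := 9313225746154785156250) (N' := 20) (by norm_num) (by norm_num) (by norm_num))).sub ((((((((((((((((rep_litK (-8) 390625 L_qc2 (by norm_num) 28)).oneMul (t_D1_2) 18 (by norm_num) (by norm_num))).ratMul (2) 1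 (by norm_num))).shift 1 (by norm_num) (-9) 2 (by norm_num))).cast (lo' := (-9)) (den' := 4656612873077392578125) (N' := 20) (by norm_num) (by norm_num) (by norm_num))).add (((((((r_dq2).oneMul ((rep_zero pb (0) 100)) 20 (by norm_num) (by norm_num))).shift 390625 (by norm_num) (-9) 0 (by norm_num))).cast (lo' := (-9)) (den' := 4656612873077392578125) (N' := 20) (by norm_num) (by norm_num) (by norm_num))))).shift 2 (by norm_num) (-9) 0 (by norm_num))).cast (lo' := (-9)) (den' := 9313225746154785156250) (N' := 20) (by norm_num) (by norm_num) (by norm_num))))).norm L_I1_2_1_4B Q_I1_2_1_4B 11920928955078125 177 20 (by norm_num) (by norm_num) (by decide +kernel)).cast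
    (by norm_num) rfl rfl

theorem t_I1_2_1_4B : Rep pb (-7) 11920928955078125 18 (.lit T_I1_2_1_4B) I1_2_1_4B :=
  ((r_I1_2_1_4B.cast rfl rfl (by norm_num : 20 = 2 + 18)).trim 2 (by decide +kernel)).cast (by norm_num) rfl rfl |> fun h => (show L_I1_2_1_4B.drop 2 = T_I1_2_1_4B by decide +kernel) ▸ h

/-- Certificate node. -/
def I1_2_1_5A : K := (lieA (1) phi2 (litK (-8) 390625 L_qc2) dphi2 Z1_1_3A Z1_1_3B)

theorem r_I1_2_1_5A : Rep pb (-10) 2980232238769531250 18 (.lit L_I1_2_1_5A) I1_2_1_5A :=
  ((((((((((((((((((r_phi2).oneMul (t_Z1_1_3A) 17 (by norm_num) (by norm_num))).ratMul (1) 1 (by norm_num))).shift 390625 (by norm_num) (-9) 0 (by norm_num))).cast (lo' := (-9)) (den' := 8673617379884035472059622406959533691406250) (N' := 17) (by norm_num) (by norm_num) (by norm_num))).add ((((((((rep_litK (-8) 390625 L_qc2 (by norm_num) 28)).oneMul (((rep_jac).oneMul (((t_Z1_1_3A).ddw)) 17 (by norm_num) (by norm_num))) 17 (by norm_num) (by norm_num))).shift 2 (by norm_num) (-9) 0 (by norm_num))).cast (lo' := (-9)) (den' := 8673617379884035472059622406959533691406250)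 (N' := 17) (by norm_num) (by norm_num) (by norm_num))))).shift 1 (by norm_num) (-10) 1 (by norm_num))).cast (lo' := (-10)) (den' := 8673617379884035472059622406959533691406250) (N' := 18) (by norm_num) (by norm_num) (by norm_num))).sub (((((((r_dphi2).oneMul (r_Z1_1_3B) 18 (by norm_num) (by norm_num))).shift 1525878906250 (by norm_num) (-10) 0 (by norm_num))).cast (lo' := (-10)) (den' := 8673617379884035472059622406959533691406250) (N' := 18) (by norm_num) (by norm_num) (by norm_num))))).norm L_I1_2_1_5A Q_I1_2_1_5A 2980232238769531250 315 18 (by norm_num) (by norm_num) (by decide +kernel)).cast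
    (by norm_num) rfl rfl

/-- Certificate node. -/
def I1_2_1_5B : K := (lieB (3) (2) phi2 (litK (-8) 390625 L_qc2) dq2 Z1_1_3A Z1_1_3B)

theorem r_I1_2_1_5B : Rep pb (-9) 372529029846191406250 18 (.lit L_I1_2_1_5B) I1_2_1_5B :=
  ((((((((((((((((r_phi2).oneMul (r_Z1_1_3B) 18 (by norm_num) (by norm_num))).ratMul (3) 1 (by norm_num))).shift 390625 (by norm_num) (-9) 0 (by norm_num))).cast (lo' := (-9)) (den' := 111022302462515654042363166809082031250) (N' := 18) (by norm_num) (by norm_num) (by norm_num))).add ((((((((rep_litK (-8) 390625 L_qc2 (by norm_num) 28)).oneMul (((rep_jac).oneMul (((r_Z1_1_3B).ddw)) 18 (by norm_num) (by norm_num))) 18 (by norm_num) (by norm_num))).shift 2 (by norm_num) (-9) 0 (by norm_num))).cast (lo' := (-9)) (den' := 111022302462515654042363166809082031250) (N' := 18) (by norm_num) (by norm_num) (by norm_num))))).cast (lo' := (-9)) (den' := 111022302462515654042363166809082031250) (N' := 18) (by norm_num) (by norm_num) (by norm_num))).sub ((((((((((((((((rep_litK (-8) 390625 L_qc2 (by norm_num) 28)).oneMul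 (t_Z1_1_3A) 17 (by norm_num) (by norm_num))).ratMul (2) 1 (by norm_num))).shift 390625 (by norm_num) (-9) 1 (by norm_num))).cast (lo' := (-9)) (den' := 142108547152020037174224853515625) (N' := 18) (by norm_num) (by norm_num) (by norm_num))).add (((((r_dq2).oneMul (r_Z1_1_3B) 18 (by norm_num) (by norm_num))).cast (lo' := (-9)) (den' := 142108547152020037174224853515625) (N' := 18) (by norm_num) (by norm_num) (by norm_num))))).shift 781250 (by norm_num) (-9) 0 (by norm_num))).cast (lo' := (-9)) (den' := 111022302462515654042363166809082031250) (N' := 18) (by norm_num) (by norm_num) (by norm_num))))).norm L_I1_2_1_5B Q_I1_2_1_5B 372529029846191406250 295 18 (by norm_num) (by norm_num) (by decide +kernel)).cast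
    (by norm_num) rfl rfl

/-- Certificate node. -/
def I1_2_1_6A : K := (lieA (2) phi2 (litK (-8) 390625 L_qc2) dphi2 Z1_1_4A Z1_1_4B)

theorem r_I1_2_1_6A : Rep pb (-17) 732541084289550781250000 20 (.lit L_I1_2_1_6A) I1_2_1_6A :=
  ((((((((((((((((r_phi2).oneMul (r_Z1_1_4A) 20 (by norm_num) (by norm_num))).ratMul (2) 1 (by norm_num))).shift 390625 (by norm_num) (-17) 0 (by norm_num))).cast (lo' := (-17)) (den' := 852790060790198367612902075052261352539062500000) (N' := 20) (by norm_num) (by norm_num) (by norm_num))).add ((((((((rep_litK (-8) 390625 L_qc2 (by norm_num) 28)).oneMul (((rep_jac).oneMul (((r_Z1_1_4A).ddw)) 20 (by norm_num) (by norm_num))) 20 (by norm_num) (by norm_num))).shift 2 (by norm_num) (-17) 0 (by norm_num))).cast (lo' := (-17)) (den' := 852790060790198367612902075052261352539062500000) (N' := 20) (by norm_num) (by norm_num) (by norm_num))))).cast (lo' := (-17)) (den' := 852790060790198367612902075052261352539062500000) (N' := 20) (by norm_num) (by norm_num) (by norm_num))).sub (((((((r_dphi2).oneMul (r_Z1_1_4B)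 20 (by norm_num) (by norm_num))).shift 6000976562500000 (by norm_num) (-17) 0 (by norm_num))).cast (lo' := (-17)) (den' := 852790060790198367612902075052261352539062500000) (N' := 20) (by norm_num) (by norm_num) (by norm_num))))).norm L_I1_2_1_6A Q_I1_2_1_6A 732541084289550781250000 358 20 (by norm_num) (by norm_num) (by decide +kernel)).cast
    (by norm_num) rfl rfl

/-- Certificate node. -/
def I1_2_1_6B : K := (lieB (4) (2) phi2 (litK (-8) 390625 L_qc2) dq2 Z1_1_4A Z1_1_4B)

theorem r_I1_2_1_6B : Rep pb (-16) 91567635536193847656250000 20 (.lit L_I1_2_1_6B) I1_2_1_6B :=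
  ((((((((((((((((((r_phi2).oneMul (r_Z1_1_4B) 20 (by norm_num) (by norm_num))).ratMul (4) 1 (by norm_num))).shift 390625 (by norm_num) (-16) 0 (by norm_num))).cast (lo' := (-16)) (den' := 2775557561562891351059079170227050781250) (N' := 20) (by norm_num) (by norm_num) (by norm_num))).add ((((((((rep_litK (-8) 390625 L_qc2 (by norm_num) 28)).oneMul (((rep_jac).oneMul (((r_Z1_1_4B).ddw)) 20 (by norm_num) (by norm_num))) 20 (by norm_num) (by norm_num))).shift 2 (by norm_num) (-16) 0 (by norm_num))).cast (lo' := (-16)) (den' := 2775557561562891351059079170227050781250) (N' := 20) (by norm_num) (by norm_num) (by norm_num))))).shift 9832 (by norm_num) (-16) 0 (by norm_num))).cast (lo' := (-16)) (den' := 27289281945286347763612866401672363281250000) (N' := 20) (by norm_num) (by norm_num) (by norm_num))).sub ((((((((((((((((rep_litK (-8) 390625 L_qc2 (by norm_num) 28)).oneMul (r_Z1_1_4A) 20 (by norm_num) (by norm_num))).ratMul (2) 1 (by norm_num))).shift 1953125 (by norm_num) (-16) 0 (by norm_num))).cast (lo' := (-16)) (den' := 69860561779933050274848937988281250000)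 (N' := 20) (by norm_num) (by norm_num) (by norm_num))).add (((((((r_dq2).oneMul (r_Z1_1_4B) 20 (by norm_num) (by norm_num))).shift 19664 (by norm_num) (-16) 0 (by norm_num))).cast (lo' := (-16)) (den' := 69860561779933050274848937988281250000) (N' := 20) (by norm_num) (by norm_num) (by norm_num))))).shift 390625 (by norm_num) (-16) 0 (by norm_num))).cast (lo' := (-16)) (den' := 27289281945286347763612866401672363281250000) (N' := 20) (by norm_num) (by norm_num) (by norm_num))))).norm L_I1_2_1_6B Q_I1_2_1_6B 91567635536193847656250000 337 20 (by norm_num) (by norm_num) (by decide +kernel)).cast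
    (by norm_num) rfl rfl

/-- Certificate node. -/
def I1_2_2_6A : K := (lieA (2) phi2 (litK (-8) 390625 L_qc2) dphi2 I1_2_1_4A I1_2_1_4B)

theorem r_I1_2_2_6A : Rep pb (-17) 7629394531250 18 (.lit L_I1_2_2_6A) I1_2_2_6A :=
  ((((((((((((((((r_phi2).oneMul (t_I1_2_1_4A) 18 (by norm_num) (by norm_num))).ratMul (2) 1 (by norm_num))).shift 390625 (by norm_num) (-17) 0 (by norm_num))).cast (lo' := (-17)) (den' := 888178419700125232338905334472656250) (N' := 18) (by norm_num) (by norm_num) (by norm_num))).add ((((((((rep_litK (-8) 390625 L_qc2 (by norm_num) 28)).oneMul (((rep_jac).oneMul (((t_I1_2_1_4A).ddw)) 18 (by norm_num) (by norm_num))) 18 (by norm_num) (by norm_num))).shift 2 (by norm_num) (-17) 0 (by norm_num))).cast (lo' := (-17)) (den' := 888178419700125232338905334472656250) (N' := 18) (by norm_num) (by norm_num) (by norm_num))))).cast (lo' := (-17)) (den' := 888178419700125232338905334472656250) (N' := 18) (by norm_num) (by norm_num) (by norm_num))).sub (((((((r_dphi2).oneMul (t_I1_2_1_4B) 18 (by norm_num) (by norm_num))).shift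 156250 (by norm_num) (-17) 0 (by norm_num))).cast (lo' := (-17)) (den' := 888178419700125232338905334472656250) (N' := 18) (by norm_num) (by norm_num) (by norm_num))))).norm L_I1_2_2_6A Q_I1_2_2_6A 7629394531250 267 18 (by norm_num) (by norm_num) (by decide +kernel)).cast
    (by norm_num) rfl rfl

/-- Certificate node. -/
def I1_2_2_6B : K := (lieB (4) (2) phi2 (litK (-8) 390625 L_qc2) dq2 I1_2_1_4A I1_2_1_4B)

theorem r_I1_2_2_6B : Rep pb (-16) 95367431640625 18 (.lit L_I1_2_2_6B) I1_2_2_6B :=
  ((((((((((((((((r_phi2).oneMul (t_I1_2_1_4B) 18 (by norm_num) (by norm_num))).ratMul (4) 1 (by norm_num))).shift 390625 (by norm_num) (-16) 0 (by norm_num))).cast (lo' := (-16)) (den' := 111022302462515654042363166809082031250) (N' := 18) (by norm_num) (by norm_num) (by norm_num))).add ((((((((rep_litK (-8) 390625 L_qc2 (by norm_num) 28)).oneMul (((rep_jac).oneMul (((t_I1_2_1_4B).ddw)) 18 (by norm_num) (by norm_num))) 18 (by norm_num) (by norm_num))).shift 2 (by norm_num) (-16) 0 (by norm_num))).cast (lo' := (-16)) (den' := 111022302462515654042363166809082031250)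 (N' := 18) (by norm_num) (by norm_num) (by norm_num))))).cast (lo' := (-16)) (den' := 111022302462515654042363166809082031250) (N' := 18) (by norm_num) (by norm_num) (by norm_num))).sub ((((((((((((((((rep_litK (-8) 390625 L_qc2 (by norm_num) 28)).oneMul (t_I1_2_1_4A) 18 (by norm_num) (by norm_num))).ratMul (2) 1 (by norm_num))).shift 3814697265625 (by norm_num) (-16) 0 (by norm_num))).cast (lo' := (-16)) (den' := 142108547152020037174224853515625) (N' := 18) (by norm_num) (by norm_num) (by norm_num))).add (((((r_dq2).oneMul (t_I1_2_1_4B) 18 (by norm_num) (by norm_num))).cast (lo' := (-16)) (den' := 142108547152020037174224853515625) (N' := 18) (by norm_num) (by norm_num) (by norm_num))))).shift 781250 (by norm_num) (-16) 0 (by norm_num))).cast (lo' := (-16)) (den' := 111022302462515654042363166809082031250) (N' := 18) (by norm_num) (by norm_num) (by norm_num))))).norm L_I1_2_2_6B Q_I1_2_2_6B 95367431640625 272 18 (by norm_num) (by norm_num) (by decide +kernel)).cast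
    (by norm_num) rfl rfl

/-- Certificate node. -/
def Z1_2_4A : K := (Z1_1_4A + (zc (1) • I1_2_1_4A))

theorem r_Z1_2_4A : Rep pb (-8) 146508216857910156250000 18 (.lit L_Z1_2_4A) Z1_2_4A :=
  ((((((((r_Z1_1_4A).mono (N' := 18) (by norm_num))).cast (lo' := (-8)) (den' := 91567635536193847656250000) (N' := 18) (by norm_num) (by norm_num) (by norm_num))).add (((((((t_I1_2_1_4A).ratMul (1) 1 (by norm_num))).shift 960156250000 (by norm_num) (-8) 0 (by norm_num))).cast (lo' := (-8)) (den' := 91567635536193847656250000) (N' := 18) (by norm_num) (by norm_num) (by norm_num))))).norm L_Z1_2_4A Q_Z1_2_4A 146508216857910156250000 219 18 (by norm_num) (by norm_num) (by decide +kernel)).cast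
    (by norm_num) rfl rfl

theorem t_Z1_2_4A : Rep pb (0) 146508216857910156250000 10 (.lit T_Z1_2_4A) Z1_2_4A :=
  ((r_Z1_2_4A.cast rfl rfl (by norm_num : 18 = 8 + 10)).trim 8 (by decide +kernel)).cast (by norm_num) rfl rfl |> fun h => (show L_Z1_2_4A.drop 8 = T_Z1_2_4A by decide +kernel) ▸ h

/-- Certificate node. -/
def Z1_2_4B : K := (Z1_1_4B + (zc (1) • I1_2_1_4B))

theorem r_Z1_2_4B : Rep pb (-7) 11920928955078125 18 (.lit L_Z1_2_4B) Z1_2_4B :=
  ((((((((r_Z1_1_4B).mono (N' := 18) (by norm_num))).cast (lo' := (-7)) (den' := 298023223876953125) (N' := 18) (by norm_num) (by norm_num) (by norm_num))).add (((((((t_I1_2_1_4B).ratMul (1) 1 (by norm_num))).shift 25 (by norm_num) (-7) 0 (by norm_num))).cast (lo' := (-7)) (den' := 298023223876953125) (N' := 18) (by norm_num) (by norm_num) (by norm_num))))).norm L_Z1_2_4B Q_Z1_2_4B 11920928955078125 154 18 (by norm_num) (by norm_num) (by decide +kernel)).cast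
    (by norm_num) rfl rfl

theorem t_Z1_2_4B : Rep pb (0) 11920928955078125 11 (.lit T_Z1_2_4B) Z1_2_4B :=
  ((r_Z1_2_4B.cast rfl rfl (by norm_num : 18 = 7 + 11)).trim 7 (by decide +kernel)).cast (by norm_num) rfl rfl |> fun h => (show L_Z1_2_4B.drop 7 = T_Z1_2_4B by decide +kernel) ▸ h

/-- Certificate node. -/
def Z1_2_5A : K := (Z1_1_5A + (zc (1) • I1_2_1_5A))

theorem r_Z1_2_5A : Rep pb (-10) 439524650573730468750000 18 (.lit L_Z1_2_5A) Z1_2_5A :=
  ((((((((r_Z1_1_5A).mono (N' := 18) (by norm_num))).cast (lo' := (-10)) (den' := 54940581321716308593750000) (N' := 18) (by norm_num) (by norm_num) (by norm_num))).add (((((((r_I1_2_1_5A).ratMul (1) 1 (by norm_num))).shift 18435000 (by norm_num) (-10) 0 (by norm_num))).cast (lo' := (-10)) (den' := 54940581321716308593750000) (N' := 18) (by norm_num) (by norm_num) (by norm_num))))).norm L_Z1_2_5A Q_Z1_2_5A 439524650573730468750000 228 18 (by norm_num) (by norm_num) (by decide +kernel)).cast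
    (by norm_num) rfl rfl

/-- Certificate node. -/
def Z1_2_5B : K := (Z1_1_5B + (zc (1) • I1_2_1_5B))

theorem r_Z1_2_5B : Rep pb (-9) 3662705421447753906250000 18 (.lit L_Z1_2_5B) Z1_2_5B :=
  ((((((((r_Z1_1_5B).mono (N' := 18) (by norm_num))).cast (lo' := (-9)) (den' := 91567635536193847656250000) (N' := 18) (by norm_num) (by norm_num) (by norm_num))).add (((((((r_I1_2_1_5B).ratMul (1) 1 (by norm_num))).shift 245800 (by norm_num) (-9) 0 (by norm_num))).cast (lo' := (-9)) (den' := 91567635536193847656250000) (N' := 18) (by norm_num) (by norm_num) (by norm_num))))).norm L_Z1_2_5B Q_Z1_2_5B 3662705421447753906250000 226 18 (by norm_num) (by norm_num) (by decide +kernel)).cast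
    (by norm_num) rfl rfl

/-- Certificate node. -/
def Z1_2_6A : K := ((Z1_1_6A + (zc (1) • I1_2_1_6A)) + ((((1 : ℤ) : ℂ) / ((2 : ℕ) : ℂ)) • I1_2_2_6A))

theorem r_Z1_2_6A : Rep pb (-17) 23632691055536270141601562500000 18 (.lit L_Z1_2_6A) Z1_2_6A :=
  ((((((((((((r_Z1_1_6A).cast (lo' := (-17)) (den' := 590817276388406753540039062500000) (N' := 20) (by norm_num) (by norm_num) (by norm_num))).add (((((((r_I1_2_1_6A).ratMul (1) 1 (by norm_num))).shift 806531250 (by norm_num) (-17) 0 (by norm_num))).cast (lo' := (-17)) (den' := 590817276388406753540039062500000) (N' := 20) (by norm_num) (by norm_num) (by norm_num))))).mono (N' := 18) (by norm_num))).cast (lo' := (-17)) (den' := 590817276388406753540039062500000) (N' := 18) (by norm_num) (by norm_num) (by norm_num))).add (((((((r_I1_2_2_6A).ratMul (1) 2 (by norm_num))).shift 38719801025390625000 (by norm_num) (-17) 0 (by norm_num))).cast (lo' := (-17)) (den' := 590817276388406753540039062500000) (N' := 18) (by norm_num) (by norm_num) (by norm_num))))).norm L_Z1_2_6A Q_Z1_2_6A 23632691055536270141601562500000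 284 18 (by norm_num) (by norm_num) (by decide +kernel)).cast
    (by norm_num) rfl rfl

/-- Certificate node. -/
def Z1_2_6B : K := ((Z1_1_6B + (zc (1) • I1_2_1_6B)) + ((((1 : ℤ) : ℂ) / ((2 : ℕ) : ℂ)) • I1_2_2_6B))

theorem r_Z1_2_6B : Rep pb (-16) 439524650573730468750000 18 (.lit L_Z1_2_6B) Z1_2_6B :=
  ((((((((((((((r_Z1_1_6B).shift 5 (by norm_num) (-16) 0 (by norm_num))).cast (lo' := (-16)) (den' := 274702906608581542968750000) (N' := 20) (by norm_num) (by norm_num) (by norm_num))).add (((((((r_I1_2_1_6B).ratMul (1) 1 (by norm_num))).shift 3 (by norm_num) (-16) 0 (by norm_num))).cast (lo' := (-16)) (den' := 274702906608581542968750000) (N' := 20) (by norm_num) (by norm_num) (by norm_num))))).mono (N' := 18) (by norm_num))).cast (lo' := (-16)) (den' := 274702906608581542968750000) (N' := 18) (by norm_num) (by norm_num) (by norm_num))).add (((((((r_I1_2_2_6B).ratMul (1) 2 (by norm_num))).shift 1440234375000 (by norm_num) (-16) 0 (by norm_num))).cast (lo' := (-16)) (den' := 274702906608581542968750000) (N' := 18) (by norm_num)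 (by norm_num) (by norm_num))))).norm L_Z1_2_6B Q_Z1_2_6B 439524650573730468750000 226 18 (by norm_num) (by norm_num) (by decide +kernel)).cast
    (by norm_num) rfl rfl

/-- Certificate node. -/
def I1_3_1_5A : K := (lieA (-1) phi3 (litK (-10) 75012207031250000 L_qc3) dphi3 D1_2 (0 : K))

theorem r_I1_3_1_5A : Rep pb (-12) 87904930114746093750000 20 (.lit L_I1_3_1_5A) I1_3_1_5A :=
  ((((((((((((((((((r_phi3).oneMul (t_D1_2) 18 (by norm_num) (by norm_num))).ratMul (-1) 1 (by norm_num))).shift 48828125 (by norm_num) (-10) 0 (by norm_num))).cast (lo' := (-10)) (den' := 31979627279632438785483827814459800720214843750000) (N' := 18) (by norm_num) (by norm_num) (by norm_num))).add ((((((((rep_litK (-10) 75012207031250000 L_qc3 (by norm_num) 30)).oneMul (((rep_jac).oneMul (((t_D1_2).ddw)) 18 (by norm_num) (by norm_num))) 18 (by norm_num) (by norm_num))).shift 3 (by norm_num) (-10) 0 (by norm_num))).cast (lo' := (-10)) (den' := 31979627279632438785483827814459800720214843750000) (N' := 18) (by norm_num) (by norm_num) (by norm_num))))).shift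 1 (by norm_num) (-12) 2 (by norm_num))).cast (lo' := (-12)) (den' := 31979627279632438785483827814459800720214843750000) (N' := 20) (by norm_num) (by norm_num) (by norm_num))).sub (((((((r_dphi3).oneMul ((rep_zero pb (0) 100)) 20 (by norm_num) (by norm_num))).shift 873114913702011108398437500 (by norm_num) (-12) 0 (by norm_num))).cast (lo' := (-12)) (den' := 31979627279632438785483827814459800720214843750000) (N' := 20) (by norm_num) (by norm_num) (by norm_num))))).norm L_I1_3_1_5A Q_I1_3_1_5A 87904930114746093750000 364 20 (by norm_num) (by norm_num) (by decide +kernel)).cast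
    (by norm_num) rfl rfl

theorem t_I1_3_1_5A : Rep pb (-10) 87904930114746093750000 18 (.lit T_I1_3_1_5A) I1_3_1_5A :=
  ((r_I1_3_1_5A.cast rfl rfl (by norm_num : 20 = 2 + 18)).trim 2 (by decide +kernel)).cast (by norm_num) rfl rfl |> fun h => (show L_I1_3_1_5A.drop 2 = T_I1_3_1_5A by decide +kernel) ▸ h

/-- Certificate node. -/
def I1_3_1_5B : K := (lieB (2) (3) phi3 (litK (-10) 75012207031250000 L_qc3) dq3 D1_2 (0 : K))

theorem r_I1_3_1_5B : Rep pb (-11) 3662705421447753906250000 20 (.lit L_I1_3_1_5B) I1_3_1_5B :=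
  ((((((((((((((((r_phi3).oneMul ((rep_zero pb (0) 100)) 20 (by norm_num) (by norm_num))).ratMul (2) 1 (by norm_num))).shift 48828125 (by norm_num) (-11) 0 (by norm_num))).cast (lo' := (-11)) (den' := 2682645572349429130554199218750000) (N' := 20) (by norm_num) (by norm_num) (by norm_num))).add ((((((((rep_litK (-10) 75012207031250000 L_qc3 (by norm_num) 30)).oneMul (((rep_jac).oneMul ((((rep_zero pb (0) 100)).ddw)) 20 (by norm_num) (by norm_num))) 20 (by norm_num) (by norm_num))).shift 3 (by norm_num) (-11) 0 (by norm_num))).cast (lo' := (-11)) (den' := 2682645572349429130554199218750000) (N' := 20) (by norm_num) (by norm_num) (by norm_num))))).cast (lo' := (-11)) (den' := 2682645572349429130554199218750000) (N' := 20) (by norm_num) (by norm_num) (by norm_num))).sub ((((((((((((((((rep_litK (-10) 75012207031250000 L_qc3 (by norm_num) 30)).oneMul (t_D1_2) 18 (by norm_num) (by norm_num))).ratMul (3) 1 (by norm_num))).shift 1 (by norm_num) (-11) 2 (by norm_num))).cast (lo' := (-11)) (den' := 894215190783143043518066406250000) (N'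 := 20) (by norm_num) (by norm_num) (by norm_num))).add (((((((r_dq3).oneMul ((rep_zero pb (0) 100)) 20 (by norm_num) (by norm_num))).shift 48828125 (by norm_num) (-11) 0 (by norm_num))).cast (lo' := (-11)) (den' := 894215190783143043518066406250000) (N' := 20) (by norm_num) (by norm_num) (by norm_num))))).shift 3 (by norm_num) (-11) 0 (by norm_num))).cast (lo' := (-11)) (den' := 2682645572349429130554199218750000) (N' := 20) (by norm_num) (by norm_num) (by norm_num))))).norm L_I1_3_1_5B Q_I1_3_1_5B 3662705421447753906250000 268 20 (by norm_num) (by norm_num) (by decide +kernel)).cast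
    (by norm_num) rfl rfl

theorem t_I1_3_1_5B : Rep pb (-9) 3662705421447753906250000 18 (.lit T_I1_3_1_5B) I1_3_1_5B :=
  ((r_I1_3_1_5B.cast rfl rfl (by norm_num : 20 = 2 + 18)).trim 2 (by decide +kernel)).cast (by norm_num) rfl rfl |> fun h => (show L_I1_3_1_5B.drop 2 = T_I1_3_1_5B by decide +kernel) ▸ h

/-- Certificate node. -/
def I1_3_1_6A : K := (lieA (0) phi3 (litK (-10) 75012207031250000 L_qc3) dphi3 Z1_1_3A Z1_1_3B)

theorem r_I1_3_1_6A : Rep pb (-12) 228919088840484619140625000 18 (.lit L_I1_3_1_6A) I1_3_1_6A :=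
  ((((((((((((((((((r_phi3).oneMul (t_Z1_1_3A) 17 (by norm_num) (by norm_num))).ratMul (0) 1 (by norm_num))).shift 48828125 (by norm_num) (-11) 0 (by norm_num))).cast (lo' := (-11)) (den' := 2498408381221284280115924048004671931266784667968750000) (N' := 17) (by norm_num) (by norm_num) (by norm_num))).add ((((((((rep_litK (-10) 75012207031250000 L_qc3 (by norm_num) 30)).oneMul (((rep_jac).oneMul (((t_Z1_1_3A).ddw)) 17 (by norm_num) (by norm_num))) 17 (by norm_num) (by norm_num))).shift 3 (by norm_num) (-11) 0 (by norm_num))).cast (lo' := (-11)) (den' := 2498408381221284280115924048004671931266784667968750000) (N' := 17) (by norm_num) (by norm_num) (by norm_num))))).shift 1 (by norm_num) (-12) 1 (by norm_num))).cast (lo' := (-12)) (den' := 2498408381221284280115924048004671931266784667968750000) (N' := 18) (by norm_num) (by norm_num) (by norm_num))).sub (((((((r_dphi3).oneMul (r_Z1_1_3B) 18 (by norm_num) (by norm_num))).shift 5722045898437500 (by norm_num) (-12) 0 (by norm_num))).cast (lo' := (-12)) (den' := 2498408381221284280115924048004671931266784667968750000)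 (N' := 18) (by norm_num) (by norm_num) (by norm_num))))).norm L_I1_3_1_6A Q_I1_3_1_6A 228919088840484619140625000 404 18 (by norm_num) (by norm_num) (by decide +kernel)).cast
    (by norm_num) rfl rfl

/-- Certificate node. -/
def I1_3_1_6B : K := (lieB (3) (3) phi3 (litK (-10) 75012207031250000 L_qc3) dq3 Z1_1_3A Z1_1_3B)

theorem r_I1_3_1_6B : Rep pb (-11) 28614886105060577392578125000 18 (.lit L_I1_3_1_6B) I1_3_1_6B :=
  ((((((((((((((((r_phi3).oneMul (r_Z1_1_3B) 18 (by norm_num) (by norm_num))).ratMul (3) 1 (by norm_num))).shift 48828125 (by norm_num) (-11) 0 (by norm_num))).cast (lo' := (-11)) (den' := 31979627279632438785483827814459800720214843750000) (N' := 18) (by norm_num) (by norm_num) (by norm_num))).add ((((((((rep_litK (-10) 75012207031250000 L_qc3 (by norm_num) 30)).oneMul (((rep_jac).oneMul (((r_Z1_1_3B).ddw)) 18 (by norm_num) (by norm_num))) 18 (by norm_num) (by norm_num))).shift 3 (by norm_num) (-11) 0 (by norm_num))).cast (lo' := (-11)) (den' := 31979627279632438785483827814459800720214843750000) (N' := 18) (by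 norm_num) (by norm_num) (by norm_num))))).cast (lo' := (-11)) (den' := 31979627279632438785483827814459800720214843750000) (N' := 18) (by norm_num) (by norm_num) (by norm_num))).sub ((((((((((((((((rep_litK (-10) 75012207031250000 L_qc3 (by norm_num) 30)).oneMul (t_Z1_1_3A) 17 (by norm_num) (by norm_num))).ratMul (3) 1 (by norm_num))).shift 3125 (by norm_num) (-11) 1 (by norm_num))).cast (lo' := (-11)) (den' := 218314255562290782108902931213378906250000) (N' := 18) (by norm_num) (by norm_num) (by norm_num))).add (((((r_dq3).oneMul (r_Z1_1_3B) 18 (by norm_num) (by norm_num))).cast (lo' := (-11)) (den' := 218314255562290782108902931213378906250000) (N' := 18) (by norm_num) (by norm_num) (by norm_num))))).shift 146484375 (by norm_num) (-11) 0 (by norm_num))).cast (lo' := (-11)) (den' := 31979627279632438785483827814459800720214843750000) (N' := 18) (by norm_num) (by norm_num) (by norm_num))))).norm L_I1_3_1_6B Q_I1_3_1_6B 28614886105060577392578125000 383 18 (by norm_num) (by norm_num) (by decide +kernel)).cast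
    (by norm_num) rfl rfl

theorem t_I1_3_1_6B : Rep pb (-10) 28614886105060577392578125000 17 (.lit T_I1_3_1_6B) I1_3_1_6B :=
  ((r_I1_3_1_6B.cast rfl rfl (by norm_num : 18 = 1 + 17)).trim 1 (by decide +kernel)).cast (by norm_num) rfl rfl |> fun h => (show L_I1_3_1_6B.drop 1 = T_I1_3_1_6B by decide +kernel) ▸ h

/-- Certificate node. -/
def Z1_3_5A : K := (Z1_2_5A + (zc (1) • I1_3_1_5A))

theorem r_Z1_3_5A : Rep pb (-10) 439524650573730468750000 18 (.lit L_Z1_3_5A) Z1_3_5A :=
  ((((((r_Z1_2_5A).cast (lo' := (-10)) (den' := 439524650573730468750000) (N' := 18) (by norm_num) (by norm_num) (by norm_num))).add (((((((t_I1_3_1_5A).ratMul (1) 1 (by norm_num))).shift 5 (by norm_num) (-10) 0 (by norm_num))).cast (lo' := (-10)) (den' := 439524650573730468750000) (N' := 18) (by norm_num) (by norm_num) (by norm_num))))).norm L_Z1_3_5A Q_Z1_3_5A 439524650573730468750000 219 18 (by norm_num) (by norm_num) (by decide +kernel)).cast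
    (by norm_num) rfl rfl

theorem t_Z1_3_5A : Rep pb (0) 439524650573730468750000 8 (.lit T_Z1_3_5A) Z1_3_5A :=
  ((r_Z1_3_5A.cast rfl rfl (by norm_num : 18 = 10 + 8)).trim 10 (by decide +kernel)).cast (by norm_num) rfl rfl |> fun h => (show L_Z1_3_5A.drop 10 = T_Z1_3_5A by decide +kernel) ▸ h

/-- Certificate node. -/
def Z1_3_5B : K := (Z1_2_5B + (zc (1) • I1_3_1_5B))

theorem r_Z1_3_5B : Rep pb (-9) 3662705421447753906250000 18 (.lit L_Z1_3_5B) Z1_3_5B :=
  ((((((r_Z1_2_5B).cast (lo' := (-9)) (den' := 3662705421447753906250000) (N' := 18) (by norm_num) (by norm_num) (by norm_num))).add (((((t_I1_3_1_5B).ratMul (1) 1 (by norm_num))).cast (lo' := (-9)) (den' := 3662705421447753906250000) (N' := 18) (by norm_num) (by norm_num) (by norm_num))))).norm L_Z1_3_5B Q_Z1_3_5B 3662705421447753906250000 219 18 (by norm_num) (by norm_num) (by decide +kernel)).cast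
    (by norm_num) rfl rfl

theorem t_Z1_3_5B : Rep pb (0) 3662705421447753906250000 9 (.lit T_Z1_3_5B) Z1_3_5B :=
  ((r_Z1_3_5B.cast rfl rfl (by norm_num : 18 = 9 + 9)).trim 9 (by decide +kernel)).cast (by norm_num) rfl rfl |> fun h => (show L_Z1_3_5B.drop 9 = T_Z1_3_5B by decide +kernel) ▸ h

/-- Certificate node. -/
def Z1_3_6A : K := (Z1_2_6A + (zc (1) • I1_3_1_6A))

theorem r_Z1_3_6A : Rep pb (-17) 23632691055536270141601562500000 18 (.lit L_Z1_3_6A) Z1_3_6A :=
  ((((((r_Z1_2_6A).cast (lo' := (-17)) (den' := 23632691055536270141601562500000) (N' := 18) (by norm_num) (by norm_num) (by norm_num))).add (((((((((r_I1_3_1_6A).ratMul (1) 1 (by norm_num))).shift 103236 (by norm_num) (-17) 5 (by norm_num))).mono (N' := 18) (by norm_num))).cast (lo' := (-17)) (den' := 23632691055536270141601562500000) (N' := 18) (by norm_num) (by norm_num) (by norm_num))))).norm L_Z1_3_6A Q_Z1_3_6A 23632691055536270141601562500000 281 18 (by norm_num) (by norm_num) (by decide +kernel)).cast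
    (by norm_num) rfl rfl

/-- Certificate node. -/
def Z1_3_6B : K := (Z1_2_6B + (zc (1) • I1_3_1_6B))

theorem r_Z1_3_6B : Rep pb (-16) 2197623252868652343750000 18 (.lit L_Z1_3_6B) Z1_3_6B :=
  ((((((((r_Z1_2_6B).shift 390625 (by norm_num) (-16) 0 (by norm_num))).cast (lo' := (-16)) (den' := 171689316630363464355468750000) (N' := 18) (by norm_num) (by norm_num) (by norm_num))).add (((((((((t_I1_3_1_6B).ratMul (1) 1 (by norm_num))).shift 6 (by norm_num) (-16) 6 (by norm_num))).mono (N' := 18) (by norm_num))).cast (lo' := (-16)) (den' := 171689316630363464355468750000) (N' := 18) (by norm_num) (by norm_num) (by norm_num))))).norm L_Z1_3_6B Q_Z1_3_6B 2197623252868652343750000 245 18 (by norm_num) (by norm_num) (by decide +kernel)).cast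
    (by norm_num) rfl rfl

/-- Certificate node. -/
def I1_4_1_6A : K := (lieA (-2) phi4 (litK (-17) 236326910555362701416015625000000 L_qc4) dphi4 D1_2 (0 : K))

theorem r_I1_4_1_6A : Rep pb (-19) 23632691055536270141601562500000 20 (.lit L_I1_4_1_6A) I1_4_1_6A :=
  ((((((((((((((((((r_phi4).oneMul (t_D1_2) 18 (by norm_num) (by norm_num))).ratMul (-2) 1 (by norm_num))).shift 2384185791015625 (by norm_num) (-17) 0 (by norm_num))).cast (lo' := (-17)) (den' := 33584073911947982284120772789037800976075232028961181640625000000) (N' := 18) (by norm_num) (by norm_num) (by norm_num))).add ((((((rep_litK (-17) 236326910555362701416015625000000 L_qc4 (by norm_num) 37)).oneMul (((rep_jac).oneMul (((t_D1_2).ddw)) 18 (by norm_num) (by norm_num))) 18 (by norm_num) (by norm_num))).cast (lo' := (-17)) (den' := 33584073911947982284120772789037800976075232028961181640625000000) (N' := 18) (by norm_num) (by norm_num) (by norm_num))))).shift 1 (by norm_num) (-19) 2 (by norm_num))).cast (lo' := (-19)) (den' := 33584073911947982284120772789037800976075232028961181640625000000)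 (N' := 20) (by norm_num) (by norm_num) (by norm_num))).sub (((((((r_dphi4).oneMul ((rep_zero pb (0) 100)) 20 (by norm_num) (by norm_num))).shift 4263256414560601115226745605468750 (by norm_num) (-19) 0 (by norm_num))).cast (lo' := (-19)) (den' := 33584073911947982284120772789037800976075232028961181640625000000) (N' := 20) (by norm_num) (by norm_num) (by norm_num))))).norm L_I1_4_1_6A Q_I1_4_1_6A 23632691055536270141601562500000 461 20 (by norm_num) (by norm_num) (by decide +kernel)).cast
    (by norm_num) rfl rfl

theorem t_I1_4_1_6A : Rep pb (-17) 23632691055536270141601562500000 18 (.lit T_I1_4_1_6A) I1_4_1_6A :=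
  ((r_I1_4_1_6A.cast rfl rfl (by norm_num : 20 = 2 + 18)).trim 2 (by decide +kernel)).cast (by norm_num) rfl rfl |> fun h => (show L_I1_4_1_6A.drop 2 = T_I1_4_1_6A by decide +kernel) ▸ h

/-- Certificate node. -/
def I1_4_1_6B : K := (lieB (2) (4) phi4 (litK (-17) 236326910555362701416015625000000 L_qc4) dq4 D1_2 (0 : K))

theorem r_I1_4_1_6B : Rep pb (-18) 295408638194203376770019531250000 20 (.lit L_I1_4_1_6B) I1_4_1_6B :=
  ((((((((((((((((r_phi4).oneMul ((rep_zero pb (0) 100)) 20 (by norm_num) (by norm_num))).ratMul (2) 1 (by norm_num))).shift 2384185791015625 (by norm_num) (-18) 0 (by norm_num))).cast (lo' := (-18)) (den' := 2817236310903581397724337875843048095703125000000) (N' := 20) (by norm_num) (by norm_num) (by norm_num))).add ((((((rep_litK (-17) 236326910555362701416015625000000 L_qc4 (by norm_num) 37)).oneMul (((rep_jac).oneMul ((((rep_zero pb (0) 100)).ddw)) 20 (by norm_num) (by norm_num))) 20 (by norm_num) (by norm_num))).cast (lo' := (-18)) (den' := 2817236310903581397724337875843048095703125000000) (N' := 20)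 (by norm_num) (by norm_num) (by norm_num))))).cast (lo' := (-18)) (den' := 2817236310903581397724337875843048095703125000000) (N' := 20) (by norm_num) (by norm_num) (by norm_num))).sub ((((((((((((((rep_litK (-17) 236326910555362701416015625000000 L_qc4 (by norm_num) 37)).oneMul (t_D1_2) 18 (by norm_num) (by norm_num))).ratMul (4) 1 (by norm_num))).shift 1 (by norm_num) (-18) 2 (by norm_num))).cast (lo' := (-18)) (den' := 2817236310903581397724337875843048095703125000000) (N' := 20) (by norm_num) (by norm_num) (by norm_num))).add (((((((r_dq4).oneMul ((rep_zero pb (0) 100)) 20 (by norm_num) (by norm_num))).shift 4768371582031250 (by norm_num) (-18) 0 (by norm_num))).cast (lo' := (-18)) (den' := 2817236310903581397724337875843048095703125000000) (N' := 20) (by norm_num) (by norm_num) (by norm_num))))).cast (lo' := (-18)) (den' := 2817236310903581397724337875843048095703125000000) (N' := 20) (by norm_num) (by norm_num) (by norm_num))))).norm L_I1_4_1_6B Q_I1_4_1_6B 295408638194203376770019531250000 364 20 (by norm_num) (by norm_num)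 (by decide +kernel)).cast
    (by norm_num) rfl rfl

theorem t_I1_4_1_6B : Rep pb (-16) 295408638194203376770019531250000 18 (.lit T_I1_4_1_6B) I1_4_1_6B :=
  ((r_I1_4_1_6B.cast rfl rfl (by norm_num : 20 = 2 + 18)).trim 2 (by decide +kernel)).cast (by norm_num) rfl rfl |> fun h => (show L_I1_4_1_6B.drop 2 = T_I1_4_1_6B by decide +kernel) ▸ h

/-- Certificate node. -/
def Z1_4_6A : K := (Z1_3_6A + (zc (1) • I1_4_1_6A))

theorem r_Z1_4_6A : Rep pb (-17) 23632691055536270141601562500000 18 (.lit L_Z1_4_6A) Z1_4_6A :=
  ((((((r_Z1_3_6A).cast (lo' := (-17)) (den' := 23632691055536270141601562500000) (N' := 18) (by norm_num) (by norm_num) (by norm_num))).add (((((t_I1_4_1_6A).ratMul (1) 1 (by norm_num))).cast (lo' := (-17)) (den' := 23632691055536270141601562500000) (N' := 18) (by norm_num) (by norm_num) (by norm_num))))).norm L_Z1_4_6A Q_Z1_4_6A 23632691055536270141601562500000 279 18 (by norm_num) (by norm_num) (by decide +kernel)).cast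
    (by norm_num) rfl rfl

theorem t_Z1_4_6A : Rep pb (0) 23632691055536270141601562500000 1 (.lit T_Z1_4_6A) Z1_4_6A :=
  ((r_Z1_4_6A.cast rfl rfl (by norm_num : 18 = 17 + 1)).trim 17 (by decide +kernel)).cast (by norm_num) rfl rfl |> fun h => (show L_Z1_4_6A.drop 17 = T_Z1_4_6A by decide +kernel) ▸ h

/-- Certificate node. -/
def Z1_4_6B : K := (Z1_3_6B + (zc (1) • I1_4_1_6B))

theorem r_Z1_4_6B : Rep pb (-16) 147704319097101688385009765625000 18 (.lit L_Z1_4_6B) Z1_4_6B :=
  ((((((((r_Z1_3_6B).shift 134421875 (by norm_num) (-16) 0 (by norm_num))).cast (lo' := (-16)) (den' := 295408638194203376770019531250000) (N' := 18) (by norm_num) (by norm_num) (by norm_num))).add (((((t_I1_4_1_6B).ratMul (1) 1 (by norm_num))).cast (lo' := (-16)) (den' := 295408638194203376770019531250000) (N' := 18) (by norm_num) (by norm_num) (by norm_num))))).norm L_Z1_4_6B Q_Z1_4_6B 147704319097101688385009765625000 279 18 (by norm_num) (by norm_num) (by decide +kernel)).cast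
    (by norm_num) rfl rfl

theorem t_Z1_4_6B : Rep pb (0) 147704319097101688385009765625000 2 (.lit T_Z1_4_6B) Z1_4_6B :=
  ((r_Z1_4_6B.cast rfl rfl (by norm_num : 18 = 16 + 2)).trim 16 (by decide +kernel)).cast (by norm_num) rfl rfl |> fun h => (show L_Z1_4_6B.drop 16 = T_Z1_4_6B by decide +kernel) ▸ h

end

end P266
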