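import Vale.Agent.P266.Rep
import Vale.Agent.P266.GaugeLemmas

/-!
P266: building blocks for the verification of the certificate.
-/

namespace P266

open HahnSeries (single ofPowerSeries)

noncomputable section

/-- The constant factor `1`. -/
def one' : Pt → ℂ := fun _ => 1

/-- The scalar `c/1`. -/
def zc (c : ℤ) : ℂ := (c : ℂ) / ((1 : ℕ) : ℂ)

/-- A function given exactly by rows `L`, order `lo` and denominator `den`. -/
def litK (lo : ℤ) (den : ℕ) (L : List (List ℤ)) : K := fun p =>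
  HahnSeries.C ((den : ℂ)⁻¹) * single lo 1 * ofPowerSeries ℤ ℂ (sem (ps p) (.lit L))

theorem rep_litK (lo : ℤ) (den : ℕ) (L : List (List ℤ)) (hd : den ≠ 0) (N : ℕ) :
    Rep one' lo den N (.lit L) (litK lo den L) := by
  refine ⟨hd, fun p => ⟨0, ?_⟩⟩
  rw [mul_zero, add_zero, litK, ← mul_assoc, ← mul_assoc,
    ← map_natCast (HahnSeries.C (Γ := ℤ) (R := ℂ)), ← map_mul,
    mul_inv_cancel₀ (Nat.cast_ne_zero.2 hd)]
  simp [one']

theorem rep_wK (N : ℕ) : Rep one' 1 1 N (.lit [[1]]) wK := by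
  refine ⟨one_ne_zero, fun p => ⟨0, ?_⟩⟩
  simp [one', wK, sem_lit_cons, sem_lit_nil, rowVal]

theorem rep_iwK (N : ℕ) : Rep one' (-1) 1 N (.lit [[1]]) iwK := by
  refine ⟨one_ne_zero, fun p => ⟨0, ?_⟩⟩
  simp [one', iwK, sem_lit_cons, sem_lit_nil, rowVal]

theorem rep_zero (μ : Pt → ℂ) (lo : ℤ) (N : ℕ) : Rep μ lo 1 N (.lit []) (0 : K) := by
  refine ⟨one_ne_zero, fun p => ⟨0, ?_⟩⟩
  simp [sem_lit_nil]

theorem rep_const (c : ℕ) (N : ℕ) : Rep one' 0 1 N (.lit [[(c : ℤ)]]) ((c : K)) := by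
  refine ⟨one_ne_zero, fun p => ⟨0, ?_⟩⟩
  simp [one', sem_lit_cons, sem_lit_nil, rowVal, Pi.natCast_apply, map_natCast]

/-- Product with a factor of character `1`. -/
theorem Rep.mulOne {μ : Pt → ℂ} {lo lo' : ℤ} {den den' N N' : ℕ} {e e' : Ex} {f g : K}
    (h : Rep μ lo den N e f) (h' : Rep one' lo' den' N' e' g) (M : ℕ) (hM : M ≤ N) (hM' : M ≤ N') :
    Rep μ (lo + lo') (den * den') M (.mul e e') (f * g) := by
  have := h.mul h' hM hM'
  simpa [one'] using this

/-- Product of a factor of character `1` with another one. -/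
theorem Rep.oneMul {μ : Pt → ℂ} {lo lo' : ℤ} {den den' N N' : ℕ} {e e' : Ex} {f g : K}
    (h : Rep one' lo den N e f) (h' : Rep μ lo' den' N' e' g) (M : ℕ) (hM : M ≤ N) (hM' : M ≤ N') :
    Rep μ (lo + lo') (den * den') M (.mul e e') (f * g) := by
  have := h.mul h' hM hM'
  simpa [one'] using this

/-- Change of character. -/
theorem Rep.reChar {μ ν : Pt → ℂ} {lo : ℤ} {den N : ℕ} {e : Ex} {f : K}
    (h : Rep μ lo den N e f) (row : List ℤ) (d : ℕ) (hd : d ≠ 0)
    (hrow : ∀ p, μ p * (d : ℂ) = ν p * rowVal (ps p) row) :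
    Rep ν lo (d * den) N (.mul (.lit [row]) e) f := by
  refine ⟨Nat.mul_ne_zero hd h.1, fun p => ?_⟩
  obtain ⟨r, hr⟩ := h.2 p
  refine ⟨PowerSeries.C (rowVal (ps p) row) * r, ?_⟩
  rw [Nat.cast_mul, mul_assoc, hr, sem_mul, sem_lit_cons, sem_lit_nil, mul_zero, add_zero,
    ← map_natCast (HahnSeries.C (Γ := ℤ) (R := ℂ)) d, ← mul_assoc, ← mul_assoc, ← map_mul,
    mul_comm (d : ℂ) (μ p), hrow p, map_mul]
  simp only [map_add, map_mul, HahnSeries.ofPowerSeries_C, map_pow]
  ring

/-- Change of the location data up to proved equalities. -/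
theorem Rep.cast {μ : Pt → ℂ} {lo lo' : ℤ} {den den' N N' : ℕ} {e : Ex} {f : K}
    (h : Rep μ lo den N e f) (hl : lo = lo') (hd : den = den') (hN : N = N') :
    Rep μ lo' den' N' e f := by
  subst hl; subst hd; subst hN; exact h

/-- Drop leading zero rows. -/
theorem Rep.trim {μ : Pt → ℂ} {lo : ℤ} {den N : ℕ} {L : List (List ℤ)} {f : K} (k : ℕ)
    (h : Rep μ lo den (k + N) (.lit L) f) (hz : zeroTo k L = true) :
    Rep μ (lo + k) den N (.lit (L.drop k)) f := by
  refine ⟨h.1, fun p => ?_⟩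
  obtain ⟨r, hr⟩ := h.2 p
  refine ⟨r, ?_⟩
  have e : sem (ps p) (.lit L) = PowerSeries.X ^ k * sem (ps p) (.lit (L.drop k)) := by
    refine PowerSeries.ext fun j => ?_
    rw [coeff_sem_lit, PowerSeries.coeff_X_pow_mul']
    split
    · rw [coeff_sem_lit]
      congr 1
      simp [List.getD_eq_getElem?_getD, List.getElem?_drop]
      congr 2
      omega
    · exact rowVal_zeroTo hz _ j (by omega)
  rw [hr, e, pow_add, show (single (lo + (k : ℤ)) (1 : ℂ))
      = single lo 1 * ofPowerSeries ℤ ℂ (PowerSeries.X ^ k) by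
    rw [map_pow, HahnSeries.ofPowerSeries_X, HahnSeries.single_pow,
      HahnSeries.single_mul_single]
    simp]
  simp only [map_add, map_mul, map_pow]
  ring

theorem Rep.congr {μ : Pt → ℂ} {lo : ℤ} {den N : ℕ} {e : Ex} {f g : K}
    (h : Rep μ lo den N e f) (hfg : f = g) : Rep μ lo den N e g := hfg ▸ h

theorem Rep.zero_below {μ : Pt → ℂ} {lo : ℤ} {den N : ℕ} {L : List (List ℤ)} {f : K}
    (h : Rep μ lo den N (.lit L) f) (n : ℕ) (hnN : n ≤ N) (hz : zeroTo n L = true) (p : Pt)
    {k : ℤ} (hk : k < lo + n) : (f p).coeff k = 0 := by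
  rcases lt_or_ge k lo with h1 | h1
  · exact h.coeff_lt p h1
  · obtain ⟨j, rfl⟩ : ∃ j : ℕ, k = lo + j := ⟨(k - lo).toNat, by omega⟩
    have := h.coeff p j (by omega)
    rw [rowVal_zeroTo hz _ j (by omega), mul_zero, mul_eq_zero] at this
    exact this.resolve_left (Nat.cast_ne_zero.2 h.1)

/-- The normalised `x`-series as a function on the branches. -/
def xsK : K := fun _ => ofPowerSeries ℤ ℂ xs

/-- The normalised `y`-series as a function on the branches. -/
def ysK : K := fun p => ofPowerSeries ℤ ℂ (ys (ps p))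

theorem litK_series (den : ℕ) (L : List (List ℤ)) :
    litK 0 den L
      = fun p => ofPowerSeries ℤ ℂ (PowerSeries.C ((den : ℂ)⁻¹) * sem (ps p) (.lit L)) := by
  funext p
  simp [litK, HahnSeries.ofPowerSeries_C]

theorem rep_series {N den : ℕ} (L : List (List ℤ)) (hd : den ≠ 0) (u : Pt → PowerSeries ℂ)
    (h : ∀ p, ∀ k < N, PowerSeries.coeff k (PowerSeries.C ((den : ℂ)⁻¹) * sem (ps p) (.lit L))
      = PowerSeries.coeff k (u p)) :
    Rep one' 0 den N (.lit L) (fun p => ofPowerSeries ℤ ℂ (u p)) := by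
  refine ⟨hd, fun p => ?_⟩
  have hz : PowerSeries.X ^ N ∣ PowerSeries.C (den : ℂ) * u p - sem (ps p) (.lit L) := by
    rw [PowerSeries.X_pow_dvd_iff]
    intro k hk
    rw [map_sub, PowerSeries.coeff_C_mul, ← h p k hk, PowerSeries.coeff_C_mul,
      mul_inv_cancel_left₀ (Nat.cast_ne_zero.2 hd), sub_self]
  obtain ⟨r, hr⟩ := hz
  refine ⟨r, ?_⟩
  rw [show sem (ps p) (.lit L) + PowerSeries.X ^ N * r = PowerSeries.C (den : ℂ) * u p by
    rw [← hr]; ring]
  simp [one', HahnSeries.ofPowerSeries_C, map_natCast]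

theorem rep_xsK_of {N den lo' den' N' : ℕ} {L Z : List (List ℤ)} (hd : den ≠ 0)
    (h0 : rowVal 0 (L.getD 0 []) = (den : ℂ)) (hrow : (L.getD 0 []).length ≤ 1)
    (h : Rep one' (lo' : ℤ) den' N' (.lit Z) (litK 0 den L ^ 5 - (1 - wK ^ 5)))
    (hN : N ≤ lo' + N') (hz : zeroTo N' Z = true) : Rep one' 0 den N (.lit L) xsK := by
  refine rep_series L hd (fun _ => xs) fun p k hk => xs_unique ?_ ?_ k hk
  · rw [← PowerSeries.coeff_zero_eq_constantCoeff_apply, PowerSeries.coeff_C_mul, coeff_sem_lit]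
    have : ∀ l : List ℤ, l.length ≤ 1 → rowVal (ps p) l = rowVal 0 l := by
      intro l hl
      match l, hl with
      | [], _ => rfl
      | [a], _ => simp [rowVal]
    rw [this _ hrow, h0, inv_mul_cancel₀ (Nat.cast_ne_zero.2 hd)]
  · intro j hj
    have := h.zero_below N' le_rfl hz p (k := (j : ℤ)) (by omega)
    rw [litK_series] at this
    simp only [Pi.sub_apply, Pi.pow_apply, Pi.one_apply, wK] at this
    rw [← map_pow, ← HahnSeries.ofPowerSeries_X, ← map_pow, ← map_one (ofPowerSeries ℤ ℂ),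
      ← map_sub, ← map_sub, HahnSeries.ofPowerSeries_apply_coeff, map_sub, sub_eq_zero] at this
    exact this

theorem rep_ysK_of {N den lo' den' N' : ℕ} {L Z : List (List ℤ)} (hd : den ≠ 0)
    (h0 : ∀ s, rowVal s (L.getD 0 []) = (den : ℂ))
    (h : Rep one' (lo' : ℤ) den' N' (.lit Z) (litK 0 den L ^ 5 - (1 - wK ^ 5
      - wK * (1 - (((12 : ℕ) : K) * litK 0 1 [[0, 1]]) * (xsK * litK 0 den L)
        - (((30 : ℕ) : K) * litK 0 1 [[0, 0, 1]]) * (xsK * litK 0 den L) ^ 2))))
    (hN : N ≤ lo' + N') (hz : zeroTo N' Z = true) : Rep one' 0 den N (.lit L) ysK := by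
  refine rep_series L hd (fun p => ys (ps p)) fun p k hk => ys_unique (ps p) ?_ ?_ k hk
  · rw [← PowerSeries.coeff_zero_eq_constantCoeff_apply, PowerSeries.coeff_C_mul, coeff_sem_lit,
      h0, inv_mul_cancel₀ (Nat.cast_ne_zero.2 hd)]
  · intro j hj
    have := h.zero_below N' le_rfl hz p (k := (j : ℤ)) (by omega)
    rw [litK_series, litK_series, litK_series] at this
    simp only [Pi.sub_apply, Pi.pow_apply, Pi.one_apply, Pi.mul_apply, Pi.natCast_apply, wK, xsK]
      at this
    have s1 : PowerSeries.C ((((1 : ℕ) : ℂ))⁻¹) * sem (ps p) (.lit [[0, 1]])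
        = PowerSeries.C (ps p) := by
      simp [sem_lit_cons, sem_lit_nil, rowVal]
    have s2 : PowerSeries.C ((((1 : ℕ) : ℂ))⁻¹) * sem (ps p) (.lit [[0, 0, 1]])
        = PowerSeries.C (ps p ^ 2) := by
      simp [sem_lit_cons, sem_lit_nil, rowVal, sq]
    rw [s1, s2, ← HahnSeries.ofPowerSeries_X, ← map_one (ofPowerSeries ℤ ℂ),
      ← map_natCast (ofPowerSeries ℤ ℂ) 12, ← map_natCast (ofPowerSeries ℤ ℂ) 30] at this
    simp only [← map_mul, ← map_pow, ← map_sub, HahnSeries.ofPowerSeries_apply_coeff] at this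
    rw [map_sub, sub_eq_zero] at this
    rw [this]
    congr 1
    simp only [map_mul, map_ofNat]
    push_cast
    ring

theorem xK_eq : xK = fun p => HahnSeries.C (pa p) * xsK p := by
  funext p; simp [xK, xsK, HahnSeries.ofPowerSeries_C]

theorem yK_eq : yK = fun p => HahnSeries.C (pb p) * ysK p := by
  funext p; simp [yK, ysK, HahnSeries.ofPowerSeries_C]

theorem Rep.scale {lo : ℤ} {den N : ℕ} {e : Ex} {f : K} (h : Rep one' lo den N e f)
    (μ : Pt → ℂ) : Rep μ lo den N e (fun p => HahnSeries.C (μ p) * f p) := by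
  refine ⟨h.1, fun p => ?_⟩
  obtain ⟨r, hr⟩ := h.2 p
  refine ⟨r, ?_⟩
  simp only [one', map_one, one_mul] at hr
  rw [mul_left_comm, hr]
  ring

/-- The first component of the bracket with a gauge, one level. -/
def lieA (c : ℤ) (φ q dφ E₁ E₂ : K) : K :=
  zc c • (φ * E₁) + q * (jac * ddw E₁) - dφ * E₂

/-- The second component of the bracket with a gauge, one level. -/
def lieB (j n : ℤ) (φ q dq E₁ E₂ : K) : K :=
  zc j • (φ * E₂) + q * (jac * ddw E₂) - (zc n • (q * E₁) + dq * E₂)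

theorem zc_smul (c : ℤ) (f : K) : zc c • f = (c : K) * f := by
  rw [smul_K]
  simp [zc]

theorem coeff_lie_gauge (n : ℕ) (q : K) (E : VF) (j : ℕ) {φ : K}
    (hφ : (gauge n q).1 = PowerSeries.monomial n φ) :
    PowerSeries.coeff (n + j) (lie (gauge n q) E).1
        = lieA ((j : ℤ) - n) φ q (dd φ) (PowerSeries.coeff j E.1) (PowerSeries.coeff j E.2) ∧
    PowerSeries.coeff (n + j) (lie (gauge n q) E).2
        = lieB j n φ q (dd q) (PowerSeries.coeff j E.1) (PowerSeries.coeff j E.2) := by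
  have hm : ∀ (c : K) (f : S),
      PowerSeries.coeff (n + j) (PowerSeries.monomial n c * f) = c * PowerSeries.coeff j f := by
    intro c f
    rw [PowerSeries.coeff_mul, Finset.sum_eq_single (n, j)]
    · simp [PowerSeries.coeff_monomial]
    · intro ij hij hne
      rw [Finset.HasAntidiagonal.mem_antidiagonal] at hij
      rw [PowerSeries.coeff_monomial, if_neg, zero_mul]
      intro h
      exact hne (Prod.ext h (by omega))
    · intro h; exact absurd (by simp) h
  have ht : ∀ c : K, thetaS (PowerSeries.monomial n c) = PowerSeries.monomial n ((n : K) * c) := by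
    intro c
    refine PowerSeries.ext fun k => ?_
    rw [coeff_thetaS, PowerSeries.coeff_monomial, PowerSeries.coeff_monomial]
    split
    · subst_vars; rfl
    · simp
  have hd : ∀ c : K, dS (PowerSeries.monomial n c) = PowerSeries.monomial n (dd c) := by
    intro c
    refine PowerSeries.ext fun k => ?_
    rw [coeff_dS, PowerSeries.coeff_monomial, PowerSeries.coeff_monomial]
    split
    · rfl
    · exact dd_zero
  have g2 : (gauge n q).2 = PowerSeries.monomial n q := rfl
  constructor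
  · simp only [lie, act, hφ, g2, ht, hd, map_sub, map_add,
      mul_comm E.1 (PowerSeries.monomial n _), mul_comm E.2 (PowerSeries.monomial n _), hm,
      coeff_thetaS, coeff_dS]
    simp only [lieA, zc_smul, dd]
    push_cast
    ring
  · simp only [lie, act, hφ, g2, ht, hd, map_sub, map_add,
      mul_comm E.1 (PowerSeries.monomial n _), mul_comm E.2 (PowerSeries.monomial n _), hm,
      coeff_thetaS, coeff_dS]
    simp only [lieB, zc_smul, dd]
    push_cast
    ring

/-- Five terms of the exponential give the coefficients through level `6`. -/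
theorem coeff_expT_six (n : ℕ) (hn : 1 ≤ n) (q : K) {Y : VF} (hY : Low 2 Y) {m : ℕ} (hm : m ≤ 6) :
    PowerSeries.coeff m (expT (lieL (gauge n q)) Y).1
        = PowerSeries.coeff m Y.1 + zc 1 • PowerSeries.coeff m (lie (gauge n q) Y).1
          + (((1 : ℤ) : ℂ) / ((2 : ℕ) : ℂ)) • PowerSeries.coeff m ((lie (gauge n q))^[2] Y).1
          + (((1 : ℤ) : ℂ) / ((6 : ℕ) : ℂ)) • PowerSeries.coeff m ((lie (gauge n q))^[3] Y).1
          + (((1 : ℤ) : ℂ) / ((24 : ℕ) : ℂ)) • PowerSeries.coeff m ((lie (gauge n q))^[4] Y).1 ∧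
    PowerSeries.coeff m (expT (lieL (gauge n q)) Y).2
        = PowerSeries.coeff m Y.2 + zc 1 • PowerSeries.coeff m (lie (gauge n q) Y).2
          + (((1 : ℤ) : ℂ) / ((2 : ℕ) : ℂ)) • PowerSeries.coeff m ((lie (gauge n q))^[2] Y).2
          + (((1 : ℤ) : ℂ) / ((6 : ℕ) : ℂ)) • PowerSeries.coeff m ((lie (gauge n q))^[3] Y).2
          + (((1 : ℤ) : ℂ) / ((24 : ℕ) : ℂ)) • PowerSeries.coeff m ((lie (gauge n q))^[4] Y).2 := by
  obtain ⟨X, hX⟩ : ∃ X, X = Y + zc 1 • lie (gauge n q) Y
      + (((1 : ℤ) : ℂ) / ((2 : ℕ) : ℂ)) • (lie (gauge n q))^[2] Y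
      + (((1 : ℤ) : ℂ) / ((6 : ℕ) : ℂ)) • (lie (gauge n q))^[3] Y
      + (((1 : ℤ) : ℂ) / ((24 : ℕ) : ℂ)) • (lie (gauge n q))^[4] Y := ⟨_, rfl⟩
  have hδ : Raises 1 (lieL (gauge n q)) := (raises_lie n q).mono hn
  have key : Low (m + 1) (expT (lieL (gauge n q)) Y - X) := by
    intro k hk
    rw [map_sub, sub_eq_zero, cf_expT_of_le hδ Y (show k ≤ 6 by omega)]
    have hz : ∀ j, 5 ≤ j → Tower.pr k ((lieL (gauge n q))^[j] Y) = 0 := fun j hj =>
      low_iterate hδ hY j k (by omega)
    simp only [Finset.sum_range_succ, Finset.sum_range_zero, hz 5 le_rfl, hz 6 (by omega),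
      smul_zero, add_zero, zero_add]
    rw [hX]
    simp only [map_add, map_smul]
    norm_num [Nat.factorial, zc]
    rfl
  have h := low_VF.1 key m (by omega)
  simp only [Prod.fst_sub, Prod.snd_sub, map_sub, sub_eq_zero] at h
  rw [h.1, h.2, hX]
  exact ⟨by simp, by simp⟩

/-- A Laurent polynomial in `w` times `x^i y^j` has degree at most `n`. -/
theorem litK_mono_mem_G (lo : ℤ) (den : ℕ) (i j : ℕ) (n : ℤ) :
    ∀ (cs : List ℤ), lo + cs.length + i + j ≤ n + 1 →
      litK lo den (cs.map fun c => [c]) * (xK ^ i * yK ^ j) ∈ G n := by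
  intro cs
  induction cs generalizing lo with
  | nil =>
    intro _
    have : litK lo den [] = 0 := by funext p; simp [litK, sem_lit_nil]
    simp [this]
  | cons c cs ih =>
    intro h
    have e : litK lo den ((c :: cs).map fun c => [c])
        = ((c : ℂ) * (den : ℂ)⁻¹) • wpow lo + litK (lo + 1) den (cs.map fun c => [c]) := by
      funext p
      simp only [List.map_cons, litK, sem_lit_cons, rowVal, mul_zero, add_zero, Pi.add_apply,
        Pi.smul_apply, wpow, map_add, map_mul, HahnSeries.ofPowerSeries_C,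
        HahnSeries.ofPowerSeries_X]
      rw [← HahnSeries.C_mul_eq_smul, show (single (lo + 1) (1 : ℂ)) = single lo 1 * single 1 1 by
        rw [HahnSeries.single_mul_single, mul_one], map_mul]
      ring
    rw [e, add_mul]
    refine (G n).add_mem ?_ (ih (lo + 1) (by simp at h; omega))
    rw [smul_mul_assoc]
    refine (G n).smul_mem _ ?_
    rw [mul_comm]
    exact mono_mem_G (by simp at h; omega)

end

end P266
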