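import Vale.Agent.P266.CertB0
import Vale.Agent.P266.CertB1

/-!
P266: the determinant levels.
-/

namespace P266

noncomputable section

/-- Certificate node. -/
def det5 : K := ((D0_2 * Z1_1_3B) - (D1_2 * Z0_1_3B))

theorem r_det5 : Rep (fun p => pa p * pb p) (1) 1 18 (.lit L_det5) det5 :=
  ((((((((t_D0_2).mul (M := 18) (r_Z1_1_3B) (by norm_num) (by norm_num))).cast (lo' := (1)) (den' := 1490116119384765625) (N' := 18) (by norm_num) (by norm_num) (by norm_num))).sub (((((((r_Z0_1_3B).mul (M := 18) (t_D1_2) (by norm_num) (by norm_num))).congr (mul_comm _ _))).cast (lo' := (1)) (den' := 1490116119384765625) (N' := 18) (by norm_num) (by norm_num) (by norm_num))))).norm L_det5 Q_det5 1 98 18 (by norm_num) (by norm_num) (by decide +kernel)).cast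
    (by norm_num) rfl rfl

/-- Certificate node. -/
def det6 : K := ((((D0_2 * Z1_2_4B) - (D1_2 * Z0_2_4B)) + ((Z0_1_3A * Z1_1_3B) - (Z1_1_3A * Z0_1_3B))) + ((1 : ℕ) : K))

theorem r_det6 : Rep (fun p => pa p * pb p) (0) 1 12 (.lit L_det6) det6 :=
  ((((((((((((((((((((t_D0_2).mul (M := 11) (t_Z1_2_4B) (by norm_num) (by norm_num))).shift 95367431640625 (by norm_num) (1) 0 (by norm_num))).cast (lo' := (1)) (den' := 142108547152020037174224853515625) (N' := 11) (by norm_num) (by norm_num) (by norm_num))).sub (((((((t_Z0_2_4B).mul (M := 11) (t_D1_2) (by norm_num) (by norm_num))).congr (mul_comm _ _))).cast (lo' := (1)) (den' := 142108547152020037174224853515625) (N' := 11) (by norm_num) (by norm_num) (by norm_num))))).shift 3125 (by norm_num) (0) 1 (by norm_num))).cast (lo' := (0)) (den' := 444089209850062616169452667236328125) (N' := 12) (by norm_num) (by norm_num) (by norm_num))).add (((((((((((t_Z0_1_3A).mul (M := 17) (r_Z1_1_3B) (by norm_num) (by norm_num))).cast (lo' := (0)) (den' := 444089209850062616169452667236328125) (N' := 17) (by norm_num) (by norm_num) (by norm_num))).sub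 (((((((((r_Z0_1_3B).mul (M := 17) (t_Z1_1_3A) (by norm_num) (by norm_num))).congr (mul_comm _ _))).shift 3814697265625 (by norm_num) (0) 0 (by norm_num))).cast (lo' := (0)) (den' := 444089209850062616169452667236328125) (N' := 17) (by norm_num) (by norm_num) (by norm_num))))).mono (N' := 12) (by norm_num))).cast (lo' := (0)) (den' := 444089209850062616169452667236328125) (N' := 12) (by norm_num) (by norm_num) (by norm_num))))).cast (lo' := (0)) (den' := 444089209850062616169452667236328125) (N' := 12) (by norm_num) (by norm_num) (by norm_num))).add ((((((((((rep_const 1 40)).reChar (ν := (fun p => pa p * pb p)) [0, 0, 0, 0, 90] 1 (by norm_num) char_one)).shift 444089209850062616169452667236328125 (by norm_num) (0) 0 (by norm_num))).mono (N' := 12) (by norm_num))).cast (lo' := (0)) (den' := 444089209850062616169452667236328125) (N' := 12) (by norm_num) (by norm_num) (by norm_num))))).norm L_det6 Q_det6 1 196 12 (by norm_num) (by norm_num) (by decide +kernel)).cast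
    (by norm_num) rfl rfl

/-- Certificate node. -/
def det7 : K := ((((D0_2 * Z1_3_5B) - (D1_2 * Z0_3_5B)) + ((Z0_1_3A * Z1_2_4B) - (Z1_1_3A * Z0_2_4B))) + ((Z0_2_4A * Z1_1_3B) - (Z1_2_4A * Z0_1_3B)))

theorem r_det7 : Rep (fun p => pa p * pb p) (0) 1 10 (.lit L_det7) det7 :=
  ((((((((((((((((((((t_D0_2).mul (M := 9) (t_Z1_3_5B) (by norm_num) (by norm_num))).shift 95367431640625 (by norm_num) (1) 0 (by norm_num))).cast (lo' := (1)) (den' := 43662851112458156421780586242675781250000) (N' := 9) (by norm_num) (by norm_num) (by norm_num))).sub (((((((((t_Z0_3_5B).mul (M := 8) (t_D1_2) (by norm_num) (by norm_num))).congr (mul_comm _ _))).shift 1 (by norm_num) (1) 1 (by norm_num))).cast (lo' := (1)) (den' := 43662851112458156421780586242675781250000) (N' := 9) (by norm_num) (by norm_num) (by norm_num))))).shift 5 (by norm_num) (0) 1 (by norm_num))).cast (lo' := (0)) (den' := 218314255562290782108902931213378906250000) (N' := 10) (by norm_num) (by norm_num) (by norm_num))).add (((((((((((((((t_Z0_1_3A).mul (M := 11) (t_Z1_2_4B) (by norm_num) (by norm_num))).shift 25 (by norm_num)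 (0) 0 (by norm_num))).cast (lo' := (0)) (den' := 11102230246251565404236316680908203125) (N' := 11) (by norm_num) (by norm_num) (by norm_num))).sub (((((((t_Z0_2_4B).mul (M := 11) (t_Z1_1_3A) (by norm_num) (by norm_num))).congr (mul_comm _ _))).cast (lo' := (0)) (den' := 11102230246251565404236316680908203125) (N' := 11) (by norm_num) (by norm_num) (by norm_num))))).shift 19664 (by norm_num) (0) 0 (by norm_num))).mono (N' := 10) (by norm_num))).cast (lo' := (0)) (den' := 218314255562290782108902931213378906250000) (N' := 10) (by norm_num) (by norm_num) (by norm_num))))).cast (lo' := (0)) (den' := 218314255562290782108902931213378906250000) (N' := 10) (by norm_num) (by norm_num) (by norm_num))).add (((((((((((t_Z0_2_4A).mul (M := 10) (r_Z1_1_3B) (by norm_num) (by norm_num))).cast (lo' := (0)) (den' := 1746514044498326256871223449707031250000) (N' := 10) (by norm_num) (by norm_num) (by norm_num))).sub (((((((((r_Z0_1_3B).mul (M := 10) (t_Z1_2_4A) (by norm_num) (by norm_num))).congr (mul_comm _ _))).shift 95367431640625 (by norm_num) (0) 0 (by norm_num))).cast (lo' := (0))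 (den' := 1746514044498326256871223449707031250000) (N' := 10) (by norm_num) (by norm_num) (by norm_num))))).shift 125 (by norm_num) (0) 0 (by norm_num))).cast (lo' := (0)) (den' := 218314255562290782108902931213378906250000) (N' := 10) (by norm_num) (by norm_num) (by norm_num))))).norm L_det7 Q_det7 1 226 10 (by norm_num) (by norm_num) (by decide +kernel)).cast
    (by norm_num) rfl rfl

/-- Certificate node. -/
def det8 : K := (((((D0_2 * Z1_4_6B) - (D1_2 * Z0_4_6B)) + ((Z0_1_3A * Z1_3_5B) - (Z1_1_3A * Z0_3_5B))) + ((Z0_2_4A * Z1_2_4B) - (Z1_2_4A * Z0_2_4B))) + ((Z0_3_5A * Z1_1_3B) - (Z1_3_5A * Z0_1_3B)))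

theorem r_det8 : Rep (fun p => pa p * pb p) (0) 1 3 (.lit L_det8) det8 :=
  ((((((((((((((((((((((((((t_D0_2).mul (M := 2) (t_Z1_4_6B) (by norm_num) (by norm_num))).shift 95367431640625 (by norm_num) (1) 0 (by norm_num))).cast (lo' := (1)) (den' := 1760772694314738373577711172401905059814453125000) (N' := 2) (by norm_num) (by norm_num) (by norm_num))).sub (((((((((t_Z0_4_6B).mul (M := 1) (t_D1_2) (by norm_num) (by norm_num))).congr (mul_comm _ _))).shift 1 (by norm_num) (1) 1 (by norm_num))).cast (lo' := (1)) (den' := 1760772694314738373577711172401905059814453125000) (N' := 2) (by norm_num) (by norm_num) (by norm_num))))).shift 50 (by norm_num) (0) 1 (by norm_num))).cast (lo' := (0)) (den' := 88038634715736918678885558620095252990722656250000) (N' := 3) (by norm_num) (by norm_num) (by norm_num))).add (((((((((((((((t_Z0_1_3A).mul (M := 9) (t_Z1_3_5B) (by norm_num) (by norm_num))).shift 25 (by norm_num) (0) 0 (by norm_num))).cast (lo' := (0)) (den' := 3411160243160793470451608300209045410156250000) (N' := 9) (by norm_num) (by norm_num) (by norm_num))).sub (((((((((t_Z0_3_5B).mul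 (M := 8) (t_Z1_1_3A) (by norm_num) (by norm_num))).congr (mul_comm _ _))).shift 1 (by norm_num) (0) 1 (by norm_num))).cast (lo' := (0)) (den' := 3411160243160793470451608300209045410156250000) (N' := 9) (by norm_num) (by norm_num) (by norm_num))))).shift 25809 (by norm_num) (0) 0 (by norm_num))).mono (N' := 3) (by norm_num))).cast (lo' := (0)) (den' := 88038634715736918678885558620095252990722656250000) (N' := 3) (by norm_num) (by norm_num) (by norm_num))))).cast (lo' := (0)) (den' := 88038634715736918678885558620095252990722656250000) (N' := 3) (by norm_num) (by norm_num) (by norm_num))).add (((((((((((((t_Z0_2_4A).mul (M := 10) (t_Z1_2_4B) (by norm_num) (by norm_num))).cast (lo' := (0)) (den' := 1746514044498326256871223449707031250000) (N' := 10) (by norm_num) (by norm_num) (by norm_num))).sub (((((((t_Z0_2_4B).mul (M := 10) (t_Z1_2_4A) (by norm_num) (by norm_num))).congr (mul_comm _ _))).cast (lo' := (0)) (den' := 1746514044498326256871223449707031250000) (N' := 10) (by norm_num) (by norm_num) (by norm_num))))).shift 50408203125 (by norm_num) (0) 0 (by norm_num))).mono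 (N' := 3) (by norm_num))).cast (lo' := (0)) (den' := 88038634715736918678885558620095252990722656250000) (N' := 3) (by norm_num) (by norm_num) (by norm_num))))).shift 625 (by norm_num) (0) 0 (by norm_num))).cast (lo' := (0)) (den' := 55024146697335574174303474137559533119201660156250000) (N' := 3) (by norm_num) (by norm_num) (by norm_num))).add (((((((((((t_Z0_3_5A).mul (M := 8) (r_Z1_1_3B) (by norm_num) (by norm_num))).cast (lo' := (0)) (den' := 55024146697335574174303474137559533119201660156250000) (N' := 8) (by norm_num) (by norm_num) (by norm_num))).sub (((((((((r_Z0_1_3B).mul (M := 8) (t_Z1_3_5A) (by norm_num) (by norm_num))).congr (mul_comm _ _))).shift 1001521013677120208740234375 (by norm_num) (0) 0 (by norm_num))).cast (lo' := (0)) (den' := 55024146697335574174303474137559533119201660156250000) (N' := 8) (by norm_num) (by norm_num) (by norm_num))))).mono (N' := 3) (by norm_num))).cast (lo' := (0)) (den' := 55024146697335574174303474137559533119201660156250000) (N' := 3) (by norm_num) (by norm_num) (by norm_num))))).norm L_det8 Q_det8 1 280 3 (by norm_num) (by norm_num)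 (by decide +kernel)).cast
    (by norm_num) rfl rfl

/-- Certificate node. -/
def det9 : K := (((((Z0_1_3A * Z1_4_6B) - (Z1_1_3A * Z0_4_6B)) + ((Z0_2_4A * Z1_3_5B) - (Z1_2_4A * Z0_3_5B))) + ((Z0_3_5A * Z1_2_4B) - (Z1_3_5A * Z0_2_4B))) + ((Z0_4_6A * Z1_1_3B) - (Z1_4_6A * Z0_1_3B)))

theorem r_det9 : Rep (fun p => pa p * pb p) (0) 1 1 (.lit L_det9) det9 :=
  ((((((((((((((((((((((((((t_Z0_1_3A).mul (M := 2) (t_Z1_4_6B) (by norm_num) (by norm_num))).shift 25 (by norm_num) (0) 0 (by norm_num))).cast (lo' := (0)) (den' := 137560366743338935435758685343898832798004150390625000) (N' := 2) (by norm_num) (by norm_num) (by norm_num))).sub (((((((((t_Z0_4_6B).mul (M := 1) (t_Z1_1_3A) (by norm_num) (by norm_num))).congr (mul_comm _ _))).shift 1 (by norm_num) (0) 1 (by norm_num))).cast (lo' := (0)) (den' := 137560366743338935435758685343898832798004150390625000) (N' := 2) (by norm_num) (by norm_num) (by norm_num))))).shift 32 (by norm_num) (0) 0 (by norm_num))).cast (lo' := (0)) (den' := 4401931735786845933944277931004762649536132812500000000) (N' := 2) (by norm_num) (by norm_num) (by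 norm_num))).add (((((((((((((t_Z0_2_4A).mul (M := 9) (t_Z1_3_5B) (by norm_num) (by norm_num))).cast (lo' := (0)) (den' := 536616440172110742423683404922485351562500000000) (N' := 9) (by norm_num) (by norm_num) (by norm_num))).sub (((((((((t_Z0_3_5B).mul (M := 8) (t_Z1_2_4A) (by norm_num) (by norm_num))).congr (mul_comm _ _))).shift 1 (by norm_num) (0) 1 (by norm_num))).cast (lo' := (0)) (den' := 536616440172110742423683404922485351562500000000) (N' := 9) (by norm_num) (by norm_num) (by norm_num))))).shift 8203125 (by norm_num) (0) 0 (by norm_num))).mono (N' := 2) (by norm_num))).cast (lo' := (0)) (den' := 4401931735786845933944277931004762649536132812500000000) (N' := 2) (by norm_num) (by norm_num) (by norm_num))))).cast (lo' := (0)) (den' := 4401931735786845933944277931004762649536132812500000000) (N' := 2) (by norm_num) (by norm_num) (by norm_num))).add (((((((((((((t_Z0_3_5A).mul (M := 8) (t_Z1_2_4B) (by norm_num) (by norm_num))).cast (lo' := (0)) (den' := 55024146697335574174303474137559533119201660156250000) (N' := 8) (by norm_num) (by norm_num) (by norm_num))).sub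 (((((((((t_Z0_2_4B).mul (M := 8) (t_Z1_3_5A) (by norm_num) (by norm_num))).congr (mul_comm _ _))).shift 10501708984375 (by norm_num) (0) 0 (by norm_num))).cast (lo' := (0)) (den' := 55024146697335574174303474137559533119201660156250000) (N' := 8) (by norm_num) (by norm_num) (by norm_num))))).shift 80 (by norm_num) (0) 0 (by norm_num))).mono (N' := 2) (by norm_num))).cast (lo' := (0)) (den' := 4401931735786845933944277931004762649536132812500000000) (N' := 2) (by norm_num) (by norm_num) (by norm_num))))).mono (N' := 1) (by norm_num))).cast (lo' := (0)) (den' := 4401931735786845933944277931004762649536132812500000000) (N' := 1) (by norm_num) (by norm_num) (by norm_num))).add (((((((((((((t_Z0_4_6A).mul (M := 1) (r_Z1_1_3B) (by norm_num) (by norm_num))).shift 3 (by norm_num) (0) 0 (by norm_num))).cast (lo' := (0)) (den' := 88038634715736918678885558620095252990722656250000000) (N' := 1) (by norm_num) (by norm_num) (by norm_num))).sub (((((((((r_Z0_1_3B).mul (M := 1) (t_Z1_4_6A) (by norm_num) (by norm_num))).congr (mul_comm _ _))).shift 29802322387695312500 (by norm_num) (0)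 0 (by norm_num))).cast (lo' := (0)) (den' := 88038634715736918678885558620095252990722656250000000) (N' := 1) (by norm_num) (by norm_num) (by norm_num))))).shift 50 (by norm_num) (0) 0 (by norm_num))).cast (lo' := (0)) (den' := 4401931735786845933944277931004762649536132812500000000) (N' := 1) (by norm_num) (by norm_num) (by norm_num))))).norm L_det9 Q_det9 1 292 1 (by norm_num) (by norm_num) (by decide +kernel)).cast
    (by norm_num) rfl rfl

end

end P266
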