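import Vale.Agent.P266.CertC

/-!
P266: the levels of the certificate.
-/

namespace P266

noncomputable section

/-- The gauges of the certificate. -/
def qcert : ℕ → K
  | 1 => (litK (-1) 1 L_qc1)
  | 2 => (litK (-8) 390625 L_qc2)
  | 3 => (litK (-10) 75012207031250000 L_qc3)
  | 4 => (litK (-17) 236326910555362701416015625000000 L_qc4)
  | _ => 0

/-- The vertical part of field 0. -/
def certA0 : ℕ → K
  | 2 => D0_2
  | 3 => D0_3
  | 4 => D0_4
  | 5 => D0_5
  | 6 => D0_6
  | _ => 0

/-- The horizontal part of field 0. -/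
def certB0 : ℕ → K
  | 4 => B0_4
  | 5 => B0_5
  | 6 => B0_6
  | _ => 0

/-- Field 0 of the certificate. -/
def certD0 : VF := (PowerSeries.mk certA0, PowerSeries.mk certB0)

theorem low_certD0 : Low 2 certD0 :=
  low_VF.2 fun m hm => by
    rcases m with _ | _ | m
    · exact ⟨by simp [certD0, certA0], by simp [certD0, certB0]⟩
    · exact ⟨by simp [certD0, certA0], by simp [certD0, certB0]⟩
    · omega

/-- The vertical part of field 1. -/
def certA1 : ℕ → K
  | 2 => D1_2
  | 3 => D1_3
  | 4 => D1_4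
  | 5 => D1_5
  | 6 => D1_6
  | _ => 0

/-- The horizontal part of field 1. -/
def certB1 : ℕ → K
  | 4 => B1_4
  | 5 => B1_5
  | 6 => B1_6
  | _ => 0

/-- Field 1 of the certificate. -/
def certD1 : VF := (PowerSeries.mk certA1, PowerSeries.mk certB1)

theorem low_certD1 : Low 2 certD1 :=
  low_VF.2 fun m hm => by
    rcases m with _ | _ | m
    · exact ⟨by simp [certD1, certA1], by simp [certD1, certB1]⟩
    · exact ⟨by simp [certD1, certA1], by simp [certD1, certB1]⟩
    · omega

theorem low_tau (n : ℕ) {D : VF} (h : Low 2 D) : Low 2 (tauVF qcert n D) :=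
  (tauVF_low qcert n h).1

theorem it_zero {n : ℕ} {q : K} {Y : VF} (hY : Low 2 Y) (k m : ℕ) (h : m < 2 + k * n) :
    PowerSeries.coeff m ((lie (gauge n q))^[k] Y).1 = 0 ∧
      PowerSeries.coeff m ((lie (gauge n q))^[k] Y).2 = 0 :=
  low_VF.1 (low_iterate (raises_lie n q) hY k) m h

theorem it_step {φ dφ q dq E₁ E₂ : K} {Y : VF} (n j k m : ℕ)
    (hφ : (gauge n q).1 = PowerSeries.monomial n φ) (hdφ : dd φ = dφ) (hdq : dd q = dq)
    (h : PowerSeries.coeff j ((lie (gauge n q))^[k] Y).1 = E₁ ∧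
      PowerSeries.coeff j ((lie (gauge n q))^[k] Y).2 = E₂) (hm : m = n + j) :
    PowerSeries.coeff m ((lie (gauge n q))^[k + 1] Y).1 = lieA ((j : ℤ) - n) φ q dφ E₁ E₂ ∧
      PowerSeries.coeff m ((lie (gauge n q))^[k + 1] Y).2 = lieB j n φ q dq E₁ E₂ := by
  subst hm hdφ hdq
  rw [Function.iterate_succ_apply', ← h.1, ← h.2]
  exact coeff_lie_gauge n q _ j hφ

theorem hphi1 : (gauge 1 (litK (-1) 1 L_qc1)).1 = PowerSeries.monomial 1 phi1 := by
  simp only [gauge, phi1, dd]
  norm_num

theorem hphi2 : (gauge 2 (litK (-8) 390625 L_qc2)).1 = PowerSeries.monomial 2 phi2 := by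
  simp only [gauge, phi2, dd]
  norm_num

theorem hphi3 : (gauge 3 (litK (-10) 75012207031250000 L_qc3)).1 = PowerSeries.monomial 3 phi3 := by
  simp only [gauge, phi3, dd]
  norm_num

theorem hphi4 : (gauge 4 (litK (-17) 236326910555362701416015625000000 L_qc4)).1 = PowerSeries.monomial 4 phi4 := by
  simp only [gauge, phi4, dd]
  norm_num

theorem lv0_0_2 : PowerSeries.coeff 2 (tauVF qcert 0 certD0).1 = D0_2 ∧
    PowerSeries.coeff 2 (tauVF qcert 0 certD0).2 = (0 : K) :=
  by constructor <;> simp [tauVF, certD0, certA0, certB0]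

theorem lv0_0_3 : PowerSeries.coeff 3 (tauVF qcert 0 certD0).1 = D0_3 ∧
    PowerSeries.coeff 3 (tauVF qcert 0 certD0).2 = (0 : K) :=
  by constructor <;> simp [tauVF, certD0, certA0, certB0]

theorem lv0_0_4 : PowerSeries.coeff 4 (tauVF qcert 0 certD0).1 = D0_4 ∧
    PowerSeries.coeff 4 (tauVF qcert 0 certD0).2 = B0_4 :=
  by constructor <;> simp [tauVF, certD0, certA0, certB0]

theorem lv0_0_5 : PowerSeries.coeff 5 (tauVF qcert 0 certD0).1 = D0_5 ∧
    PowerSeries.coeff 5 (tauVF qcert 0 certD0).2 = B0_5 :=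
  by constructor <;> simp [tauVF, certD0, certA0, certB0]

theorem lv0_0_6 : PowerSeries.coeff 6 (tauVF qcert 0 certD0).1 = D0_6 ∧
    PowerSeries.coeff 6 (tauVF qcert 0 certD0).2 = B0_6 :=
  by constructor <;> simp [tauVF, certD0, certA0, certB0]

theorem it0_1_1_3 : PowerSeries.coeff 3 ((lie (gauge 1 (litK (-1) 1 L_qc1)))^[1] (tauVF qcert 0 certD0)).1 = I0_1_1_3A ∧
    PowerSeries.coeff 3 ((lie (gauge 1 (litK (-1) 1 L_qc1)))^[1] (tauVF qcert 0 certD0)).2 = I0_1_1_3B := by
  have h := it_step (Y := (tauVF qcert 0 certD0)) 1 2 0 3 hphi1 (rfl : dd phi1 = dphi1) (rfl : dd (litK (-1) 1 L_qc1) = dq1)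
    lv0_0_2 rfl
  exact ⟨h.1.trans rfl, h.2.trans rfl⟩

theorem it0_1_1_4 : PowerSeries.coeff 4 ((lie (gauge 1 (litK (-1) 1 L_qc1)))^[1] (tauVF qcert 0 certD0)).1 = I0_1_1_4A ∧
    PowerSeries.coeff 4 ((lie (gauge 1 (litK (-1) 1 L_qc1)))^[1] (tauVF qcert 0 certD0)).2 = I0_1_1_4B := by
  have h := it_step (Y := (tauVF qcert 0 certD0)) 1 3 0 4 hphi1 (rfl : dd phi1 = dphi1) (rfl : dd (litK (-1) 1 L_qc1) = dq1)
    lv0_0_3 rfl
  exact ⟨h.1.trans rfl, h.2.trans rfl⟩

theorem it0_1_1_5 : PowerSeries.coeff 5 ((lie (gauge 1 (litK (-1) 1 L_qc1)))^[1] (tauVF qcert 0 certD0)).1 = I0_1_1_5A ∧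
    PowerSeries.coeff 5 ((lie (gauge 1 (litK (-1) 1 L_qc1)))^[1] (tauVF qcert 0 certD0)).2 = I0_1_1_5B := by
  have h := it_step (Y := (tauVF qcert 0 certD0)) 1 4 0 5 hphi1 (rfl : dd phi1 = dphi1) (rfl : dd (litK (-1) 1 L_qc1) = dq1)
    lv0_0_4 rfl
  exact ⟨h.1.trans rfl, h.2.trans rfl⟩

theorem it0_1_1_6 : PowerSeries.coeff 6 ((lie (gauge 1 (litK (-1) 1 L_qc1)))^[1] (tauVF qcert 0 certD0)).1 = I0_1_1_6A ∧
    PowerSeries.coeff 6 ((lie (gauge 1 (litK (-1) 1 L_qc1)))^[1] (tauVF qcert 0 certD0)).2 = I0_1_1_6B := by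
  have h := it_step (Y := (tauVF qcert 0 certD0)) 1 5 0 6 hphi1 (rfl : dd phi1 = dphi1) (rfl : dd (litK (-1) 1 L_qc1) = dq1)
    lv0_0_5 rfl
  exact ⟨h.1.trans rfl, h.2.trans rfl⟩

theorem it0_1_2_4 : PowerSeries.coeff 4 ((lie (gauge 1 (litK (-1) 1 L_qc1)))^[2] (tauVF qcert 0 certD0)).1 = I0_1_2_4A ∧
    PowerSeries.coeff 4 ((lie (gauge 1 (litK (-1) 1 L_qc1)))^[2] (tauVF qcert 0 certD0)).2 = I0_1_2_4B := by
  have h := it_step (Y := (tauVF qcert 0 certD0)) 1 3 1 4 hphi1 (rfl : dd phi1 = dphi1) (rfl : dd (litK (-1) 1 L_qc1) = dq1)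
    it0_1_1_3 rfl
  exact ⟨h.1.trans rfl, h.2.trans rfl⟩

theorem it0_1_2_5 : PowerSeries.coeff 5 ((lie (gauge 1 (litK (-1) 1 L_qc1)))^[2] (tauVF qcert 0 certD0)).1 = I0_1_2_5A ∧
    PowerSeries.coeff 5 ((lie (gauge 1 (litK (-1) 1 L_qc1)))^[2] (tauVF qcert 0 certD0)).2 = I0_1_2_5B := by
  have h := it_step (Y := (tauVF qcert 0 certD0)) 1 4 1 5 hphi1 (rfl : dd phi1 = dphi1) (rfl : dd (litK (-1) 1 L_qc1) = dq1)
    it0_1_1_4 rfl
  exact ⟨h.1.trans rfl, h.2.trans rfl⟩

theorem it0_1_2_6 : PowerSeries.coeff 6 ((lie (gauge 1 (litK (-1) 1 L_qc1)))^[2] (tauVF qcert 0 certD0)).1 = I0_1_2_6A ∧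
    PowerSeries.coeff 6 ((lie (gauge 1 (litK (-1) 1 L_qc1)))^[2] (tauVF qcert 0 certD0)).2 = I0_1_2_6B := by
  have h := it_step (Y := (tauVF qcert 0 certD0)) 1 5 1 6 hphi1 (rfl : dd phi1 = dphi1) (rfl : dd (litK (-1) 1 L_qc1) = dq1)
    it0_1_1_5 rfl
  exact ⟨h.1.trans rfl, h.2.trans rfl⟩

theorem it0_1_3_5 : PowerSeries.coeff 5 ((lie (gauge 1 (litK (-1) 1 L_qc1)))^[3] (tauVF qcert 0 certD0)).1 = I0_1_3_5A ∧
    PowerSeries.coeff 5 ((lie (gauge 1 (litK (-1) 1 L_qc1)))^[3] (tauVF qcert 0 certD0)).2 = I0_1_3_5B := by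
  have h := it_step (Y := (tauVF qcert 0 certD0)) 1 4 2 5 hphi1 (rfl : dd phi1 = dphi1) (rfl : dd (litK (-1) 1 L_qc1) = dq1)
    it0_1_2_4 rfl
  exact ⟨h.1.trans rfl, h.2.trans rfl⟩

theorem it0_1_3_6 : PowerSeries.coeff 6 ((lie (gauge 1 (litK (-1) 1 L_qc1)))^[3] (tauVF qcert 0 certD0)).1 = I0_1_3_6A ∧
    PowerSeries.coeff 6 ((lie (gauge 1 (litK (-1) 1 L_qc1)))^[3] (tauVF qcert 0 certD0)).2 = I0_1_3_6B := by
  have h := it_step (Y := (tauVF qcert 0 certD0)) 1 5 2 6 hphi1 (rfl : dd phi1 = dphi1) (rfl : dd (litK (-1) 1 L_qc1) = dq1)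
    it0_1_2_5 rfl
  exact ⟨h.1.trans rfl, h.2.trans rfl⟩

theorem it0_1_4_6 : PowerSeries.coeff 6 ((lie (gauge 1 (litK (-1) 1 L_qc1)))^[4] (tauVF qcert 0 certD0)).1 = I0_1_4_6A ∧
    PowerSeries.coeff 6 ((lie (gauge 1 (litK (-1) 1 L_qc1)))^[4] (tauVF qcert 0 certD0)).2 = I0_1_4_6B := by
  have h := it_step (Y := (tauVF qcert 0 certD0)) 1 5 3 6 hphi1 (rfl : dd phi1 = dphi1) (rfl : dd (litK (-1) 1 L_qc1) = dq1)
    it0_1_3_5 rfl
  exact ⟨h.1.trans rfl, h.2.trans rfl⟩

theorem lv0_1_2 : PowerSeries.coeff 2 (tauVF qcert 1 certD0).1 = D0_2 ∧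
    PowerSeries.coeff 2 (tauVF qcert 1 certD0).2 = (0 : K) := by
  have hY := low_tau 0 low_certD0
  have e1 := it_zero (n := 1) (q := (litK (-1) 1 L_qc1)) hY 1 2 (by norm_num)
  simp only [Function.iterate_one] at e1
  have e2 := it_zero (n := 1) (q := (litK (-1) 1 L_qc1)) hY 2 2 (by norm_num)
  have e3 := it_zero (n := 1) (q := (litK (-1) 1 L_qc1)) hY 3 2 (by norm_num)
  have e4 := it_zero (n := 1) (q := (litK (-1) 1 L_qc1)) hY 4 2 (by norm_num)
  have h := coeff_expT_six 1 (by norm_num) (litK (-1) 1 L_qc1) hY (m := 2) (by norm_num)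
  show PowerSeries.coeff 2 (expT (lieL (gauge 1 (litK (-1) 1 L_qc1))) (tauVF qcert 0 certD0)).1 = _ ∧
    PowerSeries.coeff 2 (expT (lieL (gauge 1 (litK (-1) 1 L_qc1))) (tauVF qcert 0 certD0)).2 = _
  rw [h.1, h.2, lv0_0_2.1, lv0_0_2.2, e1.1, e1.2, e2.1, e2.2, e3.1, e3.2, e4.1, e4.2]
  simp only [smul_zero, add_zero,  and_self]

theorem lv0_1_3 : PowerSeries.coeff 3 (tauVF qcert 1 certD0).1 = Z0_1_3A ∧
    PowerSeries.coeff 3 (tauVF qcert 1 certD0).2 = Z0_1_3B := by
  have hY := low_tau 0 low_certD0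
  have e1 : _ ∧ _ := it0_1_1_3
  simp only [Function.iterate_one] at e1
  have e2 := it_zero (n := 1) (q := (litK (-1) 1 L_qc1)) hY 2 3 (by norm_num)
  have e3 := it_zero (n := 1) (q := (litK (-1) 1 L_qc1)) hY 3 3 (by norm_num)
  have e4 := it_zero (n := 1) (q := (litK (-1) 1 L_qc1)) hY 4 3 (by norm_num)
  have h := coeff_expT_six 1 (by norm_num) (litK (-1) 1 L_qc1) hY (m := 3) (by norm_num)
  show PowerSeries.coeff 3 (expT (lieL (gauge 1 (litK (-1) 1 L_qc1))) (tauVF qcert 0 certD0)).1 = _ ∧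
    PowerSeries.coeff 3 (expT (lieL (gauge 1 (litK (-1) 1 L_qc1))) (tauVF qcert 0 certD0)).2 = _
  rw [h.1, h.2, lv0_0_3.1, lv0_0_3.2, e1.1, e1.2, e2.1, e2.2, e3.1, e3.2, e4.1, e4.2]
  simp only [smul_zero, add_zero, Z0_1_3A, Z0_1_3B,  and_self]

theorem lv0_1_4 : PowerSeries.coeff 4 (tauVF qcert 1 certD0).1 = Z0_1_4A ∧
    PowerSeries.coeff 4 (tauVF qcert 1 certD0).2 = Z0_1_4B := by
  have hY := low_tau 0 low_certD0
  have e1 : _ ∧ _ := it0_1_1_4
  simp only [Function.iterate_one] at e1
  have e2 : _ ∧ _ := it0_1_2_4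
  have e3 := it_zero (n := 1) (q := (litK (-1) 1 L_qc1)) hY 3 4 (by norm_num)
  have e4 := it_zero (n := 1) (q := (litK (-1) 1 L_qc1)) hY 4 4 (by norm_num)
  have h := coeff_expT_six 1 (by norm_num) (litK (-1) 1 L_qc1) hY (m := 4) (by norm_num)
  show PowerSeries.coeff 4 (expT (lieL (gauge 1 (litK (-1) 1 L_qc1))) (tauVF qcert 0 certD0)).1 = _ ∧
    PowerSeries.coeff 4 (expT (lieL (gauge 1 (litK (-1) 1 L_qc1))) (tauVF qcert 0 certD0)).2 = _
  rw [h.1, h.2, lv0_0_4.1, lv0_0_4.2, e1.1, e1.2, e2.1, e2.2, e3.1, e3.2, e4.1, e4.2]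
  simp only [smul_zero, add_zero, Z0_1_4A, Z0_1_4B,  and_self]

theorem lv0_1_5 : PowerSeries.coeff 5 (tauVF qcert 1 certD0).1 = Z0_1_5A ∧
    PowerSeries.coeff 5 (tauVF qcert 1 certD0).2 = Z0_1_5B := by
  have hY := low_tau 0 low_certD0
  have e1 : _ ∧ _ := it0_1_1_5
  simp only [Function.iterate_one] at e1
  have e2 : _ ∧ _ := it0_1_2_5
  have e3 : _ ∧ _ := it0_1_3_5
  have e4 := it_zero (n := 1) (q := (litK (-1) 1 L_qc1)) hY 4 5 (by norm_num)
  have h := coeff_expT_six 1 (by norm_num) (litK (-1) 1 L_qc1) hY (m := 5) (by norm_num)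
  show PowerSeries.coeff 5 (expT (lieL (gauge 1 (litK (-1) 1 L_qc1))) (tauVF qcert 0 certD0)).1 = _ ∧
    PowerSeries.coeff 5 (expT (lieL (gauge 1 (litK (-1) 1 L_qc1))) (tauVF qcert 0 certD0)).2 = _
  rw [h.1, h.2, lv0_0_5.1, lv0_0_5.2, e1.1, e1.2, e2.1, e2.2, e3.1, e3.2, e4.1, e4.2]
  simp only [smul_zero, add_zero, Z0_1_5A, Z0_1_5B,  and_self]

theorem lv0_1_6 : PowerSeries.coeff 6 (tauVF qcert 1 certD0).1 = Z0_1_6A ∧
    PowerSeries.coeff 6 (tauVF qcert 1 certD0).2 = Z0_1_6B := by
  have hY := low_tau 0 low_certD0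
  have e1 : _ ∧ _ := it0_1_1_6
  simp only [Function.iterate_one] at e1
  have e2 : _ ∧ _ := it0_1_2_6
  have e3 : _ ∧ _ := it0_1_3_6
  have e4 : _ ∧ _ := it0_1_4_6
  have h := coeff_expT_six 1 (by norm_num) (litK (-1) 1 L_qc1) hY (m := 6) (by norm_num)
  show PowerSeries.coeff 6 (expT (lieL (gauge 1 (litK (-1) 1 L_qc1))) (tauVF qcert 0 certD0)).1 = _ ∧
    PowerSeries.coeff 6 (expT (lieL (gauge 1 (litK (-1) 1 L_qc1))) (tauVF qcert 0 certD0)).2 = _
  rw [h.1, h.2, lv0_0_6.1, lv0_0_6.2, e1.1, e1.2, e2.1, e2.2, e3.1, e3.2, e4.1, e4.2]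
  simp only [smul_zero, add_zero, Z0_1_6A, Z0_1_6B,  and_self]

theorem it0_2_1_4 : PowerSeries.coeff 4 ((lie (gauge 2 (litK (-8) 390625 L_qc2)))^[1] (tauVF qcert 1 certD0)).1 = I0_2_1_4A ∧
    PowerSeries.coeff 4 ((lie (gauge 2 (litK (-8) 390625 L_qc2)))^[1] (tauVF qcert 1 certD0)).2 = I0_2_1_4B := by
  have h := it_step (Y := (tauVF qcert 1 certD0)) 2 2 0 4 hphi2 (rfl : dd phi2 = dphi2) (rfl : dd (litK (-8) 390625 L_qc2) = dq2)
    lv0_1_2 rfl
  exact ⟨h.1.trans rfl, h.2.trans rfl⟩

theorem it0_2_1_5 : PowerSeries.coeff 5 ((lie (gauge 2 (litK (-8) 390625 L_qc2)))^[1] (tauVF qcert 1 certD0)).1 = I0_2_1_5A ∧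
    PowerSeries.coeff 5 ((lie (gauge 2 (litK (-8) 390625 L_qc2)))^[1] (tauVF qcert 1 certD0)).2 = I0_2_1_5B := by
  have h := it_step (Y := (tauVF qcert 1 certD0)) 2 3 0 5 hphi2 (rfl : dd phi2 = dphi2) (rfl : dd (litK (-8) 390625 L_qc2) = dq2)
    lv0_1_3 rfl
  exact ⟨h.1.trans rfl, h.2.trans rfl⟩

theorem it0_2_1_6 : PowerSeries.coeff 6 ((lie (gauge 2 (litK (-8) 390625 L_qc2)))^[1] (tauVF qcert 1 certD0)).1 = I0_2_1_6A ∧
    PowerSeries.coeff 6 ((lie (gauge 2 (litK (-8) 390625 L_qc2)))^[1] (tauVF qcert 1 certD0)).2 = I0_2_1_6B := by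
  have h := it_step (Y := (tauVF qcert 1 certD0)) 2 4 0 6 hphi2 (rfl : dd phi2 = dphi2) (rfl : dd (litK (-8) 390625 L_qc2) = dq2)
    lv0_1_4 rfl
  exact ⟨h.1.trans rfl, h.2.trans rfl⟩

theorem it0_2_2_6 : PowerSeries.coeff 6 ((lie (gauge 2 (litK (-8) 390625 L_qc2)))^[2] (tauVF qcert 1 certD0)).1 = I0_2_2_6A ∧
    PowerSeries.coeff 6 ((lie (gauge 2 (litK (-8) 390625 L_qc2)))^[2] (tauVF qcert 1 certD0)).2 = I0_2_2_6B := by
  have h := it_step (Y := (tauVF qcert 1 certD0)) 2 4 1 6 hphi2 (rfl : dd phi2 = dphi2) (rfl : dd (litK (-8) 390625 L_qc2) = dq2)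
    it0_2_1_4 rfl
  exact ⟨h.1.trans rfl, h.2.trans rfl⟩

theorem lv0_2_2 : PowerSeries.coeff 2 (tauVF qcert 2 certD0).1 = D0_2 ∧
    PowerSeries.coeff 2 (tauVF qcert 2 certD0).2 = (0 : K) := by
  have hY := low_tau 1 low_certD0
  have e1 := it_zero (n := 2) (q := (litK (-8) 390625 L_qc2)) hY 1 2 (by norm_num)
  simp only [Function.iterate_one] at e1
  have e2 := it_zero (n := 2) (q := (litK (-8) 390625 L_qc2)) hY 2 2 (by norm_num)
  have e3 := it_zero (n := 2) (q := (litK (-8) 390625 L_qc2)) hY 3 2 (by norm_num)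
  have e4 := it_zero (n := 2) (q := (litK (-8) 390625 L_qc2)) hY 4 2 (by norm_num)
  have h := coeff_expT_six 2 (by norm_num) (litK (-8) 390625 L_qc2) hY (m := 2) (by norm_num)
  show PowerSeries.coeff 2 (expT (lieL (gauge 2 (litK (-8) 390625 L_qc2))) (tauVF qcert 1 certD0)).1 = _ ∧
    PowerSeries.coeff 2 (expT (lieL (gauge 2 (litK (-8) 390625 L_qc2))) (tauVF qcert 1 certD0)).2 = _
  rw [h.1, h.2, lv0_1_2.1, lv0_1_2.2, e1.1, e1.2, e2.1, e2.2, e3.1, e3.2, e4.1, e4.2]
  simp only [smul_zero, add_zero,  and_self]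

theorem lv0_2_3 : PowerSeries.coeff 3 (tauVF qcert 2 certD0).1 = Z0_1_3A ∧
    PowerSeries.coeff 3 (tauVF qcert 2 certD0).2 = Z0_1_3B := by
  have hY := low_tau 1 low_certD0
  have e1 := it_zero (n := 2) (q := (litK (-8) 390625 L_qc2)) hY 1 3 (by norm_num)
  simp only [Function.iterate_one] at e1
  have e2 := it_zero (n := 2) (q := (litK (-8) 390625 L_qc2)) hY 2 3 (by norm_num)
  have e3 := it_zero (n := 2) (q := (litK (-8) 390625 L_qc2)) hY 3 3 (by norm_num)
  have e4 := it_zero (n := 2) (q := (litK (-8) 390625 L_qc2)) hY 4 3 (by norm_num)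
  have h := coeff_expT_six 2 (by norm_num) (litK (-8) 390625 L_qc2) hY (m := 3) (by norm_num)
  show PowerSeries.coeff 3 (expT (lieL (gauge 2 (litK (-8) 390625 L_qc2))) (tauVF qcert 1 certD0)).1 = _ ∧
    PowerSeries.coeff 3 (expT (lieL (gauge 2 (litK (-8) 390625 L_qc2))) (tauVF qcert 1 certD0)).2 = _
  rw [h.1, h.2, lv0_1_3.1, lv0_1_3.2, e1.1, e1.2, e2.1, e2.2, e3.1, e3.2, e4.1, e4.2]
  simp only [smul_zero, add_zero,  and_self]

theorem lv0_2_4 : PowerSeries.coeff 4 (tauVF qcert 2 certD0).1 = Z0_2_4A ∧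
    PowerSeries.coeff 4 (tauVF qcert 2 certD0).2 = Z0_2_4B := by
  have hY := low_tau 1 low_certD0
  have e1 : _ ∧ _ := it0_2_1_4
  simp only [Function.iterate_one] at e1
  have e2 := it_zero (n := 2) (q := (litK (-8) 390625 L_qc2)) hY 2 4 (by norm_num)
  have e3 := it_zero (n := 2) (q := (litK (-8) 390625 L_qc2)) hY 3 4 (by norm_num)
  have e4 := it_zero (n := 2) (q := (litK (-8) 390625 L_qc2)) hY 4 4 (by norm_num)
  have h := coeff_expT_six 2 (by norm_num) (litK (-8) 390625 L_qc2) hY (m := 4) (by norm_num)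
  show PowerSeries.coeff 4 (expT (lieL (gauge 2 (litK (-8) 390625 L_qc2))) (tauVF qcert 1 certD0)).1 = _ ∧
    PowerSeries.coeff 4 (expT (lieL (gauge 2 (litK (-8) 390625 L_qc2))) (tauVF qcert 1 certD0)).2 = _
  rw [h.1, h.2, lv0_1_4.1, lv0_1_4.2, e1.1, e1.2, e2.1, e2.2, e3.1, e3.2, e4.1, e4.2]
  simp only [smul_zero, add_zero, Z0_2_4A, Z0_2_4B,  and_self]

theorem lv0_2_5 : PowerSeries.coeff 5 (tauVF qcert 2 certD0).1 = Z0_2_5A ∧
    PowerSeries.coeff 5 (tauVF qcert 2 certD0).2 = Z0_2_5B := by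
  have hY := low_tau 1 low_certD0
  have e1 : _ ∧ _ := it0_2_1_5
  simp only [Function.iterate_one] at e1
  have e2 := it_zero (n := 2) (q := (litK (-8) 390625 L_qc2)) hY 2 5 (by norm_num)
  have e3 := it_zero (n := 2) (q := (litK (-8) 390625 L_qc2)) hY 3 5 (by norm_num)
  have e4 := it_zero (n := 2) (q := (litK (-8) 390625 L_qc2)) hY 4 5 (by norm_num)
  have h := coeff_expT_six 2 (by norm_num) (litK (-8) 390625 L_qc2) hY (m := 5) (by norm_num)
  show PowerSeries.coeff 5 (expT (lieL (gauge 2 (litK (-8) 390625 L_qc2))) (tauVF qcert 1 certD0)).1 = _ ∧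
    PowerSeries.coeff 5 (expT (lieL (gauge 2 (litK (-8) 390625 L_qc2))) (tauVF qcert 1 certD0)).2 = _
  rw [h.1, h.2, lv0_1_5.1, lv0_1_5.2, e1.1, e1.2, e2.1, e2.2, e3.1, e3.2, e4.1, e4.2]
  simp only [smul_zero, add_zero, Z0_2_5A, Z0_2_5B,  and_self]

theorem lv0_2_6 : PowerSeries.coeff 6 (tauVF qcert 2 certD0).1 = Z0_2_6A ∧
    PowerSeries.coeff 6 (tauVF qcert 2 certD0).2 = Z0_2_6B := by
  have hY := low_tau 1 low_certD0
  have e1 : _ ∧ _ := it0_2_1_6
  simp only [Function.iterate_one] at e1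
  have e2 : _ ∧ _ := it0_2_2_6
  have e3 := it_zero (n := 2) (q := (litK (-8) 390625 L_qc2)) hY 3 6 (by norm_num)
  have e4 := it_zero (n := 2) (q := (litK (-8) 390625 L_qc2)) hY 4 6 (by norm_num)
  have h := coeff_expT_six 2 (by norm_num) (litK (-8) 390625 L_qc2) hY (m := 6) (by norm_num)
  show PowerSeries.coeff 6 (expT (lieL (gauge 2 (litK (-8) 390625 L_qc2))) (tauVF qcert 1 certD0)).1 = _ ∧
    PowerSeries.coeff 6 (expT (lieL (gauge 2 (litK (-8) 390625 L_qc2))) (tauVF qcert 1 certD0)).2 = _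
  rw [h.1, h.2, lv0_1_6.1, lv0_1_6.2, e1.1, e1.2, e2.1, e2.2, e3.1, e3.2, e4.1, e4.2]
  simp only [smul_zero, add_zero, Z0_2_6A, Z0_2_6B,  and_self]

theorem it0_3_1_5 : PowerSeries.coeff 5 ((lie (gauge 3 (litK (-10) 75012207031250000 L_qc3)))^[1] (tauVF qcert 2 certD0)).1 = I0_3_1_5A ∧
    PowerSeries.coeff 5 ((lie (gauge 3 (litK (-10) 75012207031250000 L_qc3)))^[1] (tauVF qcert 2 certD0)).2 = I0_3_1_5B := by
  have h := it_step (Y := (tauVF qcert 2 certD0)) 3 2 0 5 hphi3 (rfl : dd phi3 = dphi3) (rfl : dd (litK (-10) 75012207031250000 L_qc3) = dq3)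
    lv0_2_2 rfl
  exact ⟨h.1.trans rfl, h.2.trans rfl⟩

theorem it0_3_1_6 : PowerSeries.coeff 6 ((lie (gauge 3 (litK (-10) 75012207031250000 L_qc3)))^[1] (tauVF qcert 2 certD0)).1 = I0_3_1_6A ∧
    PowerSeries.coeff 6 ((lie (gauge 3 (litK (-10) 75012207031250000 L_qc3)))^[1] (tauVF qcert 2 certD0)).2 = I0_3_1_6B := by
  have h := it_step (Y := (tauVF qcert 2 certD0)) 3 3 0 6 hphi3 (rfl : dd phi3 = dphi3) (rfl : dd (litK (-10) 75012207031250000 L_qc3) = dq3)
    lv0_2_3 rfl
  exact ⟨h.1.trans rfl, h.2.trans rfl⟩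

theorem lv0_3_2 : PowerSeries.coeff 2 (tauVF qcert 3 certD0).1 = D0_2 ∧
    PowerSeries.coeff 2 (tauVF qcert 3 certD0).2 = (0 : K) := by
  have hY := low_tau 2 low_certD0
  have e1 := it_zero (n := 3) (q := (litK (-10) 75012207031250000 L_qc3)) hY 1 2 (by norm_num)
  simp only [Function.iterate_one] at e1
  have e2 := it_zero (n := 3) (q := (litK (-10) 75012207031250000 L_qc3)) hY 2 2 (by norm_num)
  have e3 := it_zero (n := 3) (q := (litK (-10) 75012207031250000 L_qc3)) hY 3 2 (by norm_num)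
  have e4 := it_zero (n := 3) (q := (litK (-10) 75012207031250000 L_qc3)) hY 4 2 (by norm_num)
  have h := coeff_expT_six 3 (by norm_num) (litK (-10) 75012207031250000 L_qc3) hY (m := 2) (by norm_num)
  show PowerSeries.coeff 2 (expT (lieL (gauge 3 (litK (-10) 75012207031250000 L_qc3))) (tauVF qcert 2 certD0)).1 = _ ∧
    PowerSeries.coeff 2 (expT (lieL (gauge 3 (litK (-10) 75012207031250000 L_qc3))) (tauVF qcert 2 certD0)).2 = _
  rw [h.1, h.2, lv0_2_2.1, lv0_2_2.2, e1.1, e1.2, e2.1, e2.2, e3.1, e3.2, e4.1, e4.2]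
  simp only [smul_zero, add_zero,  and_self]

theorem lv0_3_3 : PowerSeries.coeff 3 (tauVF qcert 3 certD0).1 = Z0_1_3A ∧
    PowerSeries.coeff 3 (tauVF qcert 3 certD0).2 = Z0_1_3B := by
  have hY := low_tau 2 low_certD0
  have e1 := it_zero (n := 3) (q := (litK (-10) 75012207031250000 L_qc3)) hY 1 3 (by norm_num)
  simp only [Function.iterate_one] at e1
  have e2 := it_zero (n := 3) (q := (litK (-10) 75012207031250000 L_qc3)) hY 2 3 (by norm_num)
  have e3 := it_zero (n := 3) (q := (litK (-10) 75012207031250000 L_qc3)) hY 3 3 (by norm_num)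
  have e4 := it_zero (n := 3) (q := (litK (-10) 75012207031250000 L_qc3)) hY 4 3 (by norm_num)
  have h := coeff_expT_six 3 (by norm_num) (litK (-10) 75012207031250000 L_qc3) hY (m := 3) (by norm_num)
  show PowerSeries.coeff 3 (expT (lieL (gauge 3 (litK (-10) 75012207031250000 L_qc3))) (tauVF qcert 2 certD0)).1 = _ ∧
    PowerSeries.coeff 3 (expT (lieL (gauge 3 (litK (-10) 75012207031250000 L_qc3))) (tauVF qcert 2 certD0)).2 = _
  rw [h.1, h.2, lv0_2_3.1, lv0_2_3.2, e1.1, e1.2, e2.1, e2.2, e3.1, e3.2, e4.1, e4.2]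
  simp only [smul_zero, add_zero,  and_self]

theorem lv0_3_4 : PowerSeries.coeff 4 (tauVF qcert 3 certD0).1 = Z0_2_4A ∧
    PowerSeries.coeff 4 (tauVF qcert 3 certD0).2 = Z0_2_4B := by
  have hY := low_tau 2 low_certD0
  have e1 := it_zero (n := 3) (q := (litK (-10) 75012207031250000 L_qc3)) hY 1 4 (by norm_num)
  simp only [Function.iterate_one] at e1
  have e2 := it_zero (n := 3) (q := (litK (-10) 75012207031250000 L_qc3)) hY 2 4 (by norm_num)
  have e3 := it_zero (n := 3) (q := (litK (-10) 75012207031250000 L_qc3)) hY 3 4 (by norm_num)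
  have e4 := it_zero (n := 3) (q := (litK (-10) 75012207031250000 L_qc3)) hY 4 4 (by norm_num)
  have h := coeff_expT_six 3 (by norm_num) (litK (-10) 75012207031250000 L_qc3) hY (m := 4) (by norm_num)
  show PowerSeries.coeff 4 (expT (lieL (gauge 3 (litK (-10) 75012207031250000 L_qc3))) (tauVF qcert 2 certD0)).1 = _ ∧
    PowerSeries.coeff 4 (expT (lieL (gauge 3 (litK (-10) 75012207031250000 L_qc3))) (tauVF qcert 2 certD0)).2 = _
  rw [h.1, h.2, lv0_2_4.1, lv0_2_4.2, e1.1, e1.2, e2.1, e2.2, e3.1, e3.2, e4.1, e4.2]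
  simp only [smul_zero, add_zero,  and_self]

theorem lv0_3_5 : PowerSeries.coeff 5 (tauVF qcert 3 certD0).1 = Z0_3_5A ∧
    PowerSeries.coeff 5 (tauVF qcert 3 certD0).2 = Z0_3_5B := by
  have hY := low_tau 2 low_certD0
  have e1 : _ ∧ _ := it0_3_1_5
  simp only [Function.iterate_one] at e1
  have e2 := it_zero (n := 3) (q := (litK (-10) 75012207031250000 L_qc3)) hY 2 5 (by norm_num)
  have e3 := it_zero (n := 3) (q := (litK (-10) 75012207031250000 L_qc3)) hY 3 5 (by norm_num)
  have e4 := it_zero (n := 3) (q := (litK (-10) 75012207031250000 L_qc3)) hY 4 5 (by norm_num)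
  have h := coeff_expT_six 3 (by norm_num) (litK (-10) 75012207031250000 L_qc3) hY (m := 5) (by norm_num)
  show PowerSeries.coeff 5 (expT (lieL (gauge 3 (litK (-10) 75012207031250000 L_qc3))) (tauVF qcert 2 certD0)).1 = _ ∧
    PowerSeries.coeff 5 (expT (lieL (gauge 3 (litK (-10) 75012207031250000 L_qc3))) (tauVF qcert 2 certD0)).2 = _
  rw [h.1, h.2, lv0_2_5.1, lv0_2_5.2, e1.1, e1.2, e2.1, e2.2, e3.1, e3.2, e4.1, e4.2]
  simp only [smul_zero, add_zero, Z0_3_5A, Z0_3_5B,  and_self]

theorem lv0_3_6 : PowerSeries.coeff 6 (tauVF qcert 3 certD0).1 = Z0_3_6A ∧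
    PowerSeries.coeff 6 (tauVF qcert 3 certD0).2 = Z0_3_6B := by
  have hY := low_tau 2 low_certD0
  have e1 : _ ∧ _ := it0_3_1_6
  simp only [Function.iterate_one] at e1
  have e2 := it_zero (n := 3) (q := (litK (-10) 75012207031250000 L_qc3)) hY 2 6 (by norm_num)
  have e3 := it_zero (n := 3) (q := (litK (-10) 75012207031250000 L_qc3)) hY 3 6 (by norm_num)
  have e4 := it_zero (n := 3) (q := (litK (-10) 75012207031250000 L_qc3)) hY 4 6 (by norm_num)
  have h := coeff_expT_six 3 (by norm_num) (litK (-10) 75012207031250000 L_qc3) hY (m := 6) (by norm_num)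
  show PowerSeries.coeff 6 (expT (lieL (gauge 3 (litK (-10) 75012207031250000 L_qc3))) (tauVF qcert 2 certD0)).1 = _ ∧
    PowerSeries.coeff 6 (expT (lieL (gauge 3 (litK (-10) 75012207031250000 L_qc3))) (tauVF qcert 2 certD0)).2 = _
  rw [h.1, h.2, lv0_2_6.1, lv0_2_6.2, e1.1, e1.2, e2.1, e2.2, e3.1, e3.2, e4.1, e4.2]
  simp only [smul_zero, add_zero, Z0_3_6A, Z0_3_6B,  and_self]

theorem it0_4_1_6 : PowerSeries.coeff 6 ((lie (gauge 4 (litK (-17) 236326910555362701416015625000000 L_qc4)))^[1] (tauVF qcert 3 certD0)).1 = I0_4_1_6A ∧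
    PowerSeries.coeff 6 ((lie (gauge 4 (litK (-17) 236326910555362701416015625000000 L_qc4)))^[1] (tauVF qcert 3 certD0)).2 = I0_4_1_6B := by
  have h := it_step (Y := (tauVF qcert 3 certD0)) 4 2 0 6 hphi4 (rfl : dd phi4 = dphi4) (rfl : dd (litK (-17) 236326910555362701416015625000000 L_qc4) = dq4)
    lv0_3_2 rfl
  exact ⟨h.1.trans rfl, h.2.trans rfl⟩

theorem lv0_4_2 : PowerSeries.coeff 2 (tauVF qcert 4 certD0).1 = D0_2 ∧
    PowerSeries.coeff 2 (tauVF qcert 4 certD0).2 = (0 : K) := by
  have hY := low_tau 3 low_certD0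
  have e1 := it_zero (n := 4) (q := (litK (-17) 236326910555362701416015625000000 L_qc4)) hY 1 2 (by norm_num)
  simp only [Function.iterate_one] at e1
  have e2 := it_zero (n := 4) (q := (litK (-17) 236326910555362701416015625000000 L_qc4)) hY 2 2 (by norm_num)
  have e3 := it_zero (n := 4) (q := (litK (-17) 236326910555362701416015625000000 L_qc4)) hY 3 2 (by norm_num)
  have e4 := it_zero (n := 4) (q := (litK (-17) 236326910555362701416015625000000 L_qc4)) hY 4 2 (by norm_num)
  have h := coeff_expT_six 4 (by norm_num) (litK (-17) 236326910555362701416015625000000 L_qc4) hY (m := 2) (by norm_num)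
  show PowerSeries.coeff 2 (expT (lieL (gauge 4 (litK (-17) 236326910555362701416015625000000 L_qc4))) (tauVF qcert 3 certD0)).1 = _ ∧
    PowerSeries.coeff 2 (expT (lieL (gauge 4 (litK (-17) 236326910555362701416015625000000 L_qc4))) (tauVF qcert 3 certD0)).2 = _
  rw [h.1, h.2, lv0_3_2.1, lv0_3_2.2, e1.1, e1.2, e2.1, e2.2, e3.1, e3.2, e4.1, e4.2]
  simp only [smul_zero, add_zero,  and_self]

theorem lv0_4_3 : PowerSeries.coeff 3 (tauVF qcert 4 certD0).1 = Z0_1_3A ∧
    PowerSeries.coeff 3 (tauVF qcert 4 certD0).2 = Z0_1_3B := by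
  have hY := low_tau 3 low_certD0
  have e1 := it_zero (n := 4) (q := (litK (-17) 236326910555362701416015625000000 L_qc4)) hY 1 3 (by norm_num)
  simp only [Function.iterate_one] at e1
  have e2 := it_zero (n := 4) (q := (litK (-17) 236326910555362701416015625000000 L_qc4)) hY 2 3 (by norm_num)
  have e3 := it_zero (n := 4) (q := (litK (-17) 236326910555362701416015625000000 L_qc4)) hY 3 3 (by norm_num)
  have e4 := it_zero (n := 4) (q := (litK (-17) 236326910555362701416015625000000 L_qc4)) hY 4 3 (by norm_num)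
  have h := coeff_expT_six 4 (by norm_num) (litK (-17) 236326910555362701416015625000000 L_qc4) hY (m := 3) (by norm_num)
  show PowerSeries.coeff 3 (expT (lieL (gauge 4 (litK (-17) 236326910555362701416015625000000 L_qc4))) (tauVF qcert 3 certD0)).1 = _ ∧
    PowerSeries.coeff 3 (expT (lieL (gauge 4 (litK (-17) 236326910555362701416015625000000 L_qc4))) (tauVF qcert 3 certD0)).2 = _
  rw [h.1, h.2, lv0_3_3.1, lv0_3_3.2, e1.1, e1.2, e2.1, e2.2, e3.1, e3.2, e4.1, e4.2]
  simp only [smul_zero, add_zero,  and_self]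

theorem lv0_4_4 : PowerSeries.coeff 4 (tauVF qcert 4 certD0).1 = Z0_2_4A ∧
    PowerSeries.coeff 4 (tauVF qcert 4 certD0).2 = Z0_2_4B := by
  have hY := low_tau 3 low_certD0
  have e1 := it_zero (n := 4) (q := (litK (-17) 236326910555362701416015625000000 L_qc4)) hY 1 4 (by norm_num)
  simp only [Function.iterate_one] at e1
  have e2 := it_zero (n := 4) (q := (litK (-17) 236326910555362701416015625000000 L_qc4)) hY 2 4 (by norm_num)
  have e3 := it_zero (n := 4) (q := (litK (-17) 236326910555362701416015625000000 L_qc4)) hY 3 4 (by norm_num)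
  have e4 := it_zero (n := 4) (q := (litK (-17) 236326910555362701416015625000000 L_qc4)) hY 4 4 (by norm_num)
  have h := coeff_expT_six 4 (by norm_num) (litK (-17) 236326910555362701416015625000000 L_qc4) hY (m := 4) (by norm_num)
  show PowerSeries.coeff 4 (expT (lieL (gauge 4 (litK (-17) 236326910555362701416015625000000 L_qc4))) (tauVF qcert 3 certD0)).1 = _ ∧
    PowerSeries.coeff 4 (expT (lieL (gauge 4 (litK (-17) 236326910555362701416015625000000 L_qc4))) (tauVF qcert 3 certD0)).2 = _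
  rw [h.1, h.2, lv0_3_4.1, lv0_3_4.2, e1.1, e1.2, e2.1, e2.2, e3.1, e3.2, e4.1, e4.2]
  simp only [smul_zero, add_zero,  and_self]

theorem lv0_4_5 : PowerSeries.coeff 5 (tauVF qcert 4 certD0).1 = Z0_3_5A ∧
    PowerSeries.coeff 5 (tauVF qcert 4 certD0).2 = Z0_3_5B := by
  have hY := low_tau 3 low_certD0
  have e1 := it_zero (n := 4) (q := (litK (-17) 236326910555362701416015625000000 L_qc4)) hY 1 5 (by norm_num)
  simp only [Function.iterate_one] at e1
  have e2 := it_zero (n := 4) (q := (litK (-17) 236326910555362701416015625000000 L_qc4)) hY 2 5 (by norm_num)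
  have e3 := it_zero (n := 4) (q := (litK (-17) 236326910555362701416015625000000 L_qc4)) hY 3 5 (by norm_num)
  have e4 := it_zero (n := 4) (q := (litK (-17) 236326910555362701416015625000000 L_qc4)) hY 4 5 (by norm_num)
  have h := coeff_expT_six 4 (by norm_num) (litK (-17) 236326910555362701416015625000000 L_qc4) hY (m := 5) (by norm_num)
  show PowerSeries.coeff 5 (expT (lieL (gauge 4 (litK (-17) 236326910555362701416015625000000 L_qc4))) (tauVF qcert 3 certD0)).1 = _ ∧
    PowerSeries.coeff 5 (expT (lieL (gauge 4 (litK (-17) 236326910555362701416015625000000 L_qc4))) (tauVF qcert 3 certD0)).2 = _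
  rw [h.1, h.2, lv0_3_5.1, lv0_3_5.2, e1.1, e1.2, e2.1, e2.2, e3.1, e3.2, e4.1, e4.2]
  simp only [smul_zero, add_zero,  and_self]

theorem lv0_4_6 : PowerSeries.coeff 6 (tauVF qcert 4 certD0).1 = Z0_4_6A ∧
    PowerSeries.coeff 6 (tauVF qcert 4 certD0).2 = Z0_4_6B := by
  have hY := low_tau 3 low_certD0
  have e1 : _ ∧ _ := it0_4_1_6
  simp only [Function.iterate_one] at e1
  have e2 := it_zero (n := 4) (q := (litK (-17) 236326910555362701416015625000000 L_qc4)) hY 2 6 (by norm_num)
  have e3 := it_zero (n := 4) (q := (litK (-17) 236326910555362701416015625000000 L_qc4)) hY 3 6 (by norm_num)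
  have e4 := it_zero (n := 4) (q := (litK (-17) 236326910555362701416015625000000 L_qc4)) hY 4 6 (by norm_num)
  have h := coeff_expT_six 4 (by norm_num) (litK (-17) 236326910555362701416015625000000 L_qc4) hY (m := 6) (by norm_num)
  show PowerSeries.coeff 6 (expT (lieL (gauge 4 (litK (-17) 236326910555362701416015625000000 L_qc4))) (tauVF qcert 3 certD0)).1 = _ ∧
    PowerSeries.coeff 6 (expT (lieL (gauge 4 (litK (-17) 236326910555362701416015625000000 L_qc4))) (tauVF qcert 3 certD0)).2 = _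
  rw [h.1, h.2, lv0_3_6.1, lv0_3_6.2, e1.1, e1.2, e2.1, e2.2, e3.1, e3.2, e4.1, e4.2]
  simp only [smul_zero, add_zero, Z0_4_6A, Z0_4_6B,  and_self]

theorem reg0_2A : Reg D0_2 :=
  fun p _ hk => t_D0_2.zero_below 0 (Nat.zero_le _) rfl p (by omega)

theorem reg0_2B : Reg (0 : K) := fun _ _ _ => rfl

theorem reg0_3A : Reg Z0_1_3A :=
  fun p _ hk => t_Z0_1_3A.zero_below 0 (Nat.zero_le _) rfl p (by omega)

theorem reg0_3B : Reg Z0_1_3B :=
  fun p _ hk => r_Z0_1_3B.zero_below 0 (Nat.zero_le _) rfl p (by omega)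

theorem reg0_4A : Reg Z0_2_4A :=
  fun p _ hk => t_Z0_2_4A.zero_below 0 (Nat.zero_le _) rfl p (by omega)

theorem reg0_4B : Reg Z0_2_4B :=
  fun p _ hk => t_Z0_2_4B.zero_below 0 (Nat.zero_le _) rfl p (by omega)

theorem reg0_5A : Reg Z0_3_5A :=
  fun p _ hk => t_Z0_3_5A.zero_below 0 (Nat.zero_le _) rfl p (by omega)

theorem reg0_5B : Reg Z0_3_5B :=
  fun p _ hk => t_Z0_3_5B.zero_below 0 (Nat.zero_le _) rfl p (by omega)

theorem reg0_6A : Reg Z0_4_6A :=
  fun p _ hk => t_Z0_4_6A.zero_below 0 (Nat.zero_le _) rfl p (by omega)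

theorem reg0_6B : Reg Z0_4_6B :=
  fun p _ hk => t_Z0_4_6B.zero_below 0 (Nat.zero_le _) rfl p (by omega)

theorem tau_small0 : ∀ m < 3, PowerSeries.coeff m (tauVF qcert 4 certD0).2 = 0 := by
  intro m hm
  interval_cases m
  · exact (low_VF.1 (low_tau 4 low_certD0) 0 (by norm_num)).2
  · exact (low_VF.1 (low_tau 4 low_certD0) 1 (by norm_num)).2
  · exact lv0_4_2.2

theorem tau_reg0 : ∀ n ≤ 6, Reg (PowerSeries.coeff n (tauVF qcert 4 certD0).1) ∧
    Reg (PowerSeries.coeff n (tauVF qcert 4 certD0).2) := by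
  intro n hn
  have h0 : Reg (0 : K) := fun _ _ _ => rfl
  interval_cases n
  · rw [(low_VF.1 (low_tau 4 low_certD0) 0 (by norm_num)).1, (low_VF.1 (low_tau 4 low_certD0) 0 (by norm_num)).2]
    exact ⟨h0, h0⟩
  · rw [(low_VF.1 (low_tau 4 low_certD0) 1 (by norm_num)).1, (low_VF.1 (low_tau 4 low_certD0) 1 (by norm_num)).2]
    exact ⟨h0, h0⟩
  · rw [lv0_4_2.1, lv0_4_2.2]
    exact ⟨reg0_2A, reg0_2B⟩
  · rw [lv0_4_3.1, lv0_4_3.2]
    exact ⟨reg0_3A, reg0_3B⟩
  · rw [lv0_4_4.1, lv0_4_4.2]
    exact ⟨reg0_4A, reg0_4B⟩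
  · rw [lv0_4_5.1, lv0_4_5.2]
    exact ⟨reg0_5A, reg0_5B⟩
  · rw [lv0_4_6.1, lv0_4_6.2]
    exact ⟨reg0_6A, reg0_6B⟩

theorem glob_A0_2 : A0_2 ∈ G (2 : ℤ) :=
  (litK_mono_mem_G (1) 1 1 0 (2) [1] (by norm_num))

theorem glob_A0_3 : A0_3 ∈ G (3 : ℤ) :=
  (add_mem (add_mem (litK_mono_mem_G (0) 1953125 1 0 (3) [1960891800, 573220884752] (by norm_num))
    (litK_mono_mem_G (-1) 15625 2 1 (3) [1875000, -23092836] (by norm_num)))
    (litK_mono_mem_G (-1) 1 0 4 (3) [-1800] (by norm_num)))

theorem glob_A0_4 : A0_4 ∈ G (4 : ℤ) :=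
  (add_mem (add_mem (add_mem (add_mem (litK_mono_mem_G (-7) 750122070312500 1 0 (4) [-168777465820312500, 168777465820312500, 0, 0, 4838287353515625000, -32708085595312500000, -6414098738695312500, -31791043235773894042585869] (by norm_num))
    (litK_mono_mem_G (-6) 600097656250000 2 1 (4) [-1620263671875000000, 0, 0, 0, -45689539968000000000, 15653898901365480000000, 62138644044527845356304329] (by norm_num)))
    (litK_mono_mem_G (-6) 78125 3 2 (4) [-527343750, 0, 0, -1511718750, 25782976800, -72287090136] (by norm_num)))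
    (litK_mono_mem_G (-8) 1 4 3 (4) [-1125, 1125, 0, 0, 0, -48375] (by norm_num)))
    (litK_mono_mem_G (-7) 150024414062500 0 4 (4) [-1620263671875000000, 0, 0, 0, 0, 268551595192500000000, -59593222832265675000000, -14269905454854945624455313] (by norm_num)))

theorem glob_B0_4 : B0_4 ∈ G (-2 : ℤ) :=
  (litK_mono_mem_G (-7) 1 0 4 (-2) [-90] (by norm_num))

theorem glob_A0_5 : A0_5 ∈ G (5 : ℤ) :=
  (add_mem (add_mem (add_mem (add_mem (litK_mono_mem_G (-9) 1758098602294921875000 1 0 (5) [-129396057128906250000000000, 484700585731201171875000000, -341344638675544433593750000000, 340989334146942138671875000000, 0, -29951237614356079101562500000, 2906530812606774814687500000000, 5583158853120053212323215777343750, 924547157119465685893601462890625, -3858017346882830692102398924400237824] (by norm_num))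
    (litK_mono_mem_G (-9) 117206573486328125000 2 1 (5) [-15354061126708984375000000, 110735078354492187500000000, 85345759950927734375000000, -272791467317553710937500000000, -339928364753723144531250000, 4285111437274780273437500000, -15959376366231889844531250000, 864475791973638683921454150000000, 3927390921574977804788257354062500, 624351436094075048049062080264114023] (by norm_num)))
    (litK_mono_mem_G (-10) 1172065734863281250 3 2 (5) [155298709869384765625000, -274849414825439453125000, -4310857772827148437500000, 30973834123754882812500000, -6819786682938842773437500000, -3000488281250000000000000, 40143439450666503906250000, -6012208603885685977500000000, -21020563505410922187288509296875, 95670918200128527668336795778125, 66703625162113739813113857691278] (by norm_num)))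
    (litK_mono_mem_G (-9) 7501220703125 4 3 (5) [-25788143677968750000, -9445204128992593750000, 8522439791943459375000, 0, 43510830688476562500, -197066964417597656250, -74825483931360455930000, -20677295665854442375342151] (by norm_num)))
    (litK_mono_mem_G (-10) 1969390921294689178466796875000 0 4 (5) [-1565665782429277896881103515625000000, 27404454557446753978729248046875000000, -98678028905917523860931396484375000000, -19698926194887190415954589843750000000000, 0, 87692054247949272394180297851562500000, -626667038712448310852050781250000000000, -2178964304438881406867340087890625000000, -217513803913668346003543629898132324218750000, -10178398693549779138718744969308471679687500, -9462229053170818812349616201562560778796875000, 7236217557628493125367558035019710123590286687147] (by norm_num)))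

theorem glob_B0_5 : B0_5 ∈ G (-1 : ℤ) :=
  (litK_mono_mem_G (-8) 390625 0 4 (-1) [31077302400, 8518763582316] (by norm_num))

theorem glob_A0_6 : A0_6 ∈ G (6 : ℤ) :=
  (add_mem (add_mem (add_mem (add_mem (litK_mono_mem_G (-16) 2461738651618361473083496093750000000 1 0 (6) [263098318391712382435798645019531250000000, 15862059143037186004221439361572265625000000, 36657904119914746843278408050537109375000000, -52783061581343645229935646057128906250000000, 11213988851450267247855663299560546875000000, -309707072414929113350808620452880859375000000, 3085778931612244162221086025238037109375000000, 185825297200202273438765826416015625000000000000, 2414672260426677236714087357146739959716796875000, 420643871018982442816512497906573581695556640625000, -423232374138574976087949289509955215454101562500000, 11575043165027556812976930141448974609375000000, 2909064917393941829470981014809248809814453125000000, -29213467969939629756616537715777787564056396484375000, -277755326379914733706979410913243991924976196289062500,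 -4450880850459639679494226926509469253112773857201250000, 2730969295617683795700448276141631384750336858081561273971] (by norm_num))
    (litK_mono_mem_G (-17) 39387818425893783569335937500000 2 1 (6) [21601756667951121926307678222656250000, -58823245080420747399330139160156250000, 103577653766842558979988098144531250000, 5180544361931970342993736267089843750000, 8033992406057193875312805175781250000000, 394001271191518753767013549804687500000, 2816551505214767530560493469238281250000, -66102919967988488119840621948242187500000, 2584767215955668314352518043518066406250000, -6591841075461657443565888296525859832763671875, 8718108967207216873441938366842021942138671875, 79671812666924172808110706487283929443359375000, -32031825062066108060850730705261230468750000, -116955076050577433950695789909521192871093750000, 479382459316302790285693538839262787330322265625, -15377902454394934142933655235376281983941953125000, -57178827206120605548624997750485290631888652343750, -47085949833557036313890720944236307604323544013547107]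 (by norm_num)))
    (litK_mono_mem_G (-16) 15755127370357513427734375000000 3 2 (6) [242471410229802131652832031250000000000, -383806719087436795234680175781250000000, 3828655471661500632762908935546875000000, 19676342245928943157196044921875000000000, 0, -3878974818713130927085876464843750000000, -909101668744106919538021087646484375000000, 170720543115894244742490972389373779296875000, -254458766591864526185533438992919921875000000, -31173934539025223438839452701316375732421875000, 88905934508944053620474695601522973632812500000, -2952525548509218286207930938720703125000000, -59622245719767598425067050473104316894531250000, 979748184967780988222458512832945606347656250000, 8154101515550465655647544834831997235542851562500, -59953389084449640792253835879216120209825940625000, -49187593809746923930836439824470604658605762822083041] (by norm_num)))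
    (litK_mono_mem_G (-17) 787756368517875671386718750000 4 3 (6) [465268605155870318412780761718750000, 25662886921525932848453521728515625000, 63237979473914019763469696044921875000, -76088698348319157958030700683593750000, 1584040199724957346916198730468750000000, -123307258190237917006015777587890625000, 1840333777545723314881324768066406250000, 238232454912007296970837883148193359375000, 455544108556441685053095983368743896484375000, 386842017209228296452682983321351928710937500, -4676874379912929142287638362504188629150390625, 955304359395235341036302231455078125000000000, 1117721008320567508010706366577148437500000, -470603867536091668634570111724207092285156250, -94842264811977382385611616270169091071240234375, 380179428816882882485181460423205122793654296875, 22705705028299814677398562977598153139787197248941] (by norm_num)))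
    (litK_mono_mem_G (-16) 615434662904590368270874023437500000 0 4 (6) [3240263500192668288946151733398437500000000, 357077037721232045441865921020507812500000000, -63010662526823580265045166015625000000000000, 632474510133761214092373847961425781250000000, 0, 1072435695177651330828666687011718750000000000, 183550294426609845285053586959838867187500000000, -649284715623836724365159418134638667106628417968750, 3837092449904056370047485065587151348590850830078125, 4415558850237586629959302779877217102050781250000000, -73486193566948844142258167266845703125000000000, 6569949768477464959068243348598480224609375000000, 15758019912682816511718516495058947966098785400390625, 97880852970912030809217576066438619882392883300781250, 2473672840396727947251724945408257406709344482421875000, 2476455423652417982849857724756503204285559692382812500, 460506452792374845725896263786772941839307194268513581136] (by norm_num)))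

theorem glob_B0_6 : B0_6 ∈ G (0 : ℤ) :=
  (litK_mono_mem_G (-16) 1875305175781250 0 4 (0) [-12658309936523437500, -22784957885742187500, 35443267822265625000, 0, 0, 645573806762695312500, -22662830932743164062500, -12986484998829438886780500, -7239438825128159346408824325, -7769259761976469458491527386, 455699157714843750000, 14971863953460937500000, 12848987787533409172720500] (by norm_num))

theorem glob_certD0 : GlobV certD0 := by
  intro n
  match n with
  | 0 | 1 | 2 | 3 | 4 | 5 | 6 => ?_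
  | n + 7 => simp [certD0, certA0, certB0]
  · simp [certD0, certA0, certB0]
  · simp [certD0, certA0, certB0]
  · simpa [certD0, certA0, certB0, D0_2] using glob_A0_2
  · simpa [certD0, certA0, certB0, D0_3] using glob_A0_3
  · refine ⟨?_, by simpa [certD0, certB0] using glob_B0_4⟩
    simpa [certD0, certA0, certB0, D0_4] using glob_A0_4
  · refine ⟨?_, by simpa [certD0, certB0] using glob_B0_5⟩
    simpa [certD0, certA0, certB0, D0_5] using glob_A0_5
  · refine ⟨?_, by simpa [certD0, certB0] using glob_B0_6⟩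
    simpa [certD0, certA0, certB0, D0_6] using glob_A0_6

theorem lv1_0_2 : PowerSeries.coeff 2 (tauVF qcert 0 certD1).1 = D1_2 ∧
    PowerSeries.coeff 2 (tauVF qcert 0 certD1).2 = (0 : K) :=
  by constructor <;> simp [tauVF, certD1, certA1, certB1]

theorem lv1_0_3 : PowerSeries.coeff 3 (tauVF qcert 0 certD1).1 = D1_3 ∧
    PowerSeries.coeff 3 (tauVF qcert 0 certD1).2 = (0 : K) :=
  by constructor <;> simp [tauVF, certD1, certA1, certB1]

theorem lv1_0_4 : PowerSeries.coeff 4 (tauVF qcert 0 certD1).1 = D1_4 ∧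
    PowerSeries.coeff 4 (tauVF qcert 0 certD1).2 = B1_4 :=
  by constructor <;> simp [tauVF, certD1, certA1, certB1]

theorem lv1_0_5 : PowerSeries.coeff 5 (tauVF qcert 0 certD1).1 = D1_5 ∧
    PowerSeries.coeff 5 (tauVF qcert 0 certD1).2 = B1_5 :=
  by constructor <;> simp [tauVF, certD1, certA1, certB1]

theorem lv1_0_6 : PowerSeries.coeff 6 (tauVF qcert 0 certD1).1 = D1_6 ∧
    PowerSeries.coeff 6 (tauVF qcert 0 certD1).2 = B1_6 :=
  by constructor <;> simp [tauVF, certD1, certA1, certB1]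

theorem it1_1_1_3 : PowerSeries.coeff 3 ((lie (gauge 1 (litK (-1) 1 L_qc1)))^[1] (tauVF qcert 0 certD1)).1 = I1_1_1_3A ∧
    PowerSeries.coeff 3 ((lie (gauge 1 (litK (-1) 1 L_qc1)))^[1] (tauVF qcert 0 certD1)).2 = I1_1_1_3B := by
  have h := it_step (Y := (tauVF qcert 0 certD1)) 1 2 0 3 hphi1 (rfl : dd phi1 = dphi1) (rfl : dd (litK (-1) 1 L_qc1) = dq1)
    lv1_0_2 rfl
  exact ⟨h.1.trans rfl, h.2.trans rfl⟩

theorem it1_1_1_4 : PowerSeries.coeff 4 ((lie (gauge 1 (litK (-1) 1 L_qc1)))^[1] (tauVF qcert 0 certD1)).1 = I1_1_1_4A ∧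
    PowerSeries.coeff 4 ((lie (gauge 1 (litK (-1) 1 L_qc1)))^[1] (tauVF qcert 0 certD1)).2 = I1_1_1_4B := by
  have h := it_step (Y := (tauVF qcert 0 certD1)) 1 3 0 4 hphi1 (rfl : dd phi1 = dphi1) (rfl : dd (litK (-1) 1 L_qc1) = dq1)
    lv1_0_3 rfl
  exact ⟨h.1.trans rfl, h.2.trans rfl⟩

theorem it1_1_1_5 : PowerSeries.coeff 5 ((lie (gauge 1 (litK (-1) 1 L_qc1)))^[1] (tauVF qcert 0 certD1)).1 = I1_1_1_5A ∧
    PowerSeries.coeff 5 ((lie (gauge 1 (litK (-1) 1 L_qc1)))^[1] (tauVF qcert 0 certD1)).2 = I1_1_1_5B := by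
  have h := it_step (Y := (tauVF qcert 0 certD1)) 1 4 0 5 hphi1 (rfl : dd phi1 = dphi1) (rfl : dd (litK (-1) 1 L_qc1) = dq1)
    lv1_0_4 rfl
  exact ⟨h.1.trans rfl, h.2.trans rfl⟩

theorem it1_1_1_6 : PowerSeries.coeff 6 ((lie (gauge 1 (litK (-1) 1 L_qc1)))^[1] (tauVF qcert 0 certD1)).1 = I1_1_1_6A ∧
    PowerSeries.coeff 6 ((lie (gauge 1 (litK (-1) 1 L_qc1)))^[1] (tauVF qcert 0 certD1)).2 = I1_1_1_6B := by
  have h := it_step (Y := (tauVF qcert 0 certD1)) 1 5 0 6 hphi1 (rfl : dd phi1 = dphi1) (rfl : dd (litK (-1) 1 L_qc1) = dq1)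
    lv1_0_5 rfl
  exact ⟨h.1.trans rfl, h.2.trans rfl⟩

theorem it1_1_2_4 : PowerSeries.coeff 4 ((lie (gauge 1 (litK (-1) 1 L_qc1)))^[2] (tauVF qcert 0 certD1)).1 = I1_1_2_4A ∧
    PowerSeries.coeff 4 ((lie (gauge 1 (litK (-1) 1 L_qc1)))^[2] (tauVF qcert 0 certD1)).2 = I1_1_2_4B := by
  have h := it_step (Y := (tauVF qcert 0 certD1)) 1 3 1 4 hphi1 (rfl : dd phi1 = dphi1) (rfl : dd (litK (-1) 1 L_qc1) = dq1)
    it1_1_1_3 rfl
  exact ⟨h.1.trans rfl, h.2.trans rfl⟩

theorem it1_1_2_5 : PowerSeries.coeff 5 ((lie (gauge 1 (litK (-1) 1 L_qc1)))^[2] (tauVF qcert 0 certD1)).1 = I1_1_2_5A ∧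
    PowerSeries.coeff 5 ((lie (gauge 1 (litK (-1) 1 L_qc1)))^[2] (tauVF qcert 0 certD1)).2 = I1_1_2_5B := by
  have h := it_step (Y := (tauVF qcert 0 certD1)) 1 4 1 5 hphi1 (rfl : dd phi1 = dphi1) (rfl : dd (litK (-1) 1 L_qc1) = dq1)
    it1_1_1_4 rfl
  exact ⟨h.1.trans rfl, h.2.trans rfl⟩

theorem it1_1_2_6 : PowerSeries.coeff 6 ((lie (gauge 1 (litK (-1) 1 L_qc1)))^[2] (tauVF qcert 0 certD1)).1 = I1_1_2_6A ∧
    PowerSeries.coeff 6 ((lie (gauge 1 (litK (-1) 1 L_qc1)))^[2] (tauVF qcert 0 certD1)).2 = I1_1_2_6B := by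
  have h := it_step (Y := (tauVF qcert 0 certD1)) 1 5 1 6 hphi1 (rfl : dd phi1 = dphi1) (rfl : dd (litK (-1) 1 L_qc1) = dq1)
    it1_1_1_5 rfl
  exact ⟨h.1.trans rfl, h.2.trans rfl⟩

theorem it1_1_3_5 : PowerSeries.coeff 5 ((lie (gauge 1 (litK (-1) 1 L_qc1)))^[3] (tauVF qcert 0 certD1)).1 = I1_1_3_5A ∧
    PowerSeries.coeff 5 ((lie (gauge 1 (litK (-1) 1 L_qc1)))^[3] (tauVF qcert 0 certD1)).2 = I1_1_3_5B := by
  have h := it_step (Y := (tauVF qcert 0 certD1)) 1 4 2 5 hphi1 (rfl : dd phi1 = dphi1) (rfl : dd (litK (-1) 1 L_qc1) = dq1)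
    it1_1_2_4 rfl
  exact ⟨h.1.trans rfl, h.2.trans rfl⟩

theorem it1_1_3_6 : PowerSeries.coeff 6 ((lie (gauge 1 (litK (-1) 1 L_qc1)))^[3] (tauVF qcert 0 certD1)).1 = I1_1_3_6A ∧
    PowerSeries.coeff 6 ((lie (gauge 1 (litK (-1) 1 L_qc1)))^[3] (tauVF qcert 0 certD1)).2 = I1_1_3_6B := by
  have h := it_step (Y := (tauVF qcert 0 certD1)) 1 5 2 6 hphi1 (rfl : dd phi1 = dphi1) (rfl : dd (litK (-1) 1 L_qc1) = dq1)
    it1_1_2_5 rfl
  exact ⟨h.1.trans rfl, h.2.trans rfl⟩

theorem it1_1_4_6 : PowerSeries.coeff 6 ((lie (gauge 1 (litK (-1) 1 L_qc1)))^[4] (tauVF qcert 0 certD1)).1 = I1_1_4_6A ∧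
    PowerSeries.coeff 6 ((lie (gauge 1 (litK (-1) 1 L_qc1)))^[4] (tauVF qcert 0 certD1)).2 = I1_1_4_6B := by
  have h := it_step (Y := (tauVF qcert 0 certD1)) 1 5 3 6 hphi1 (rfl : dd phi1 = dphi1) (rfl : dd (litK (-1) 1 L_qc1) = dq1)
    it1_1_3_5 rfl
  exact ⟨h.1.trans rfl, h.2.trans rfl⟩

theorem lv1_1_2 : PowerSeries.coeff 2 (tauVF qcert 1 certD1).1 = D1_2 ∧
    PowerSeries.coeff 2 (tauVF qcert 1 certD1).2 = (0 : K) := by
  have hY := low_tau 0 low_certD1
  have e1 := it_zero (n := 1) (q := (litK (-1) 1 L_qc1)) hY 1 2 (by norm_num)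
  simp only [Function.iterate_one] at e1
  have e2 := it_zero (n := 1) (q := (litK (-1) 1 L_qc1)) hY 2 2 (by norm_num)
  have e3 := it_zero (n := 1) (q := (litK (-1) 1 L_qc1)) hY 3 2 (by norm_num)
  have e4 := it_zero (n := 1) (q := (litK (-1) 1 L_qc1)) hY 4 2 (by norm_num)
  have h := coeff_expT_six 1 (by norm_num) (litK (-1) 1 L_qc1) hY (m := 2) (by norm_num)
  show PowerSeries.coeff 2 (expT (lieL (gauge 1 (litK (-1) 1 L_qc1))) (tauVF qcert 0 certD1)).1 = _ ∧
    PowerSeries.coeff 2 (expT (lieL (gauge 1 (litK (-1) 1 L_qc1))) (tauVF qcert 0 certD1)).2 = _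
  rw [h.1, h.2, lv1_0_2.1, lv1_0_2.2, e1.1, e1.2, e2.1, e2.2, e3.1, e3.2, e4.1, e4.2]
  simp only [smul_zero, add_zero,  and_self]

theorem lv1_1_3 : PowerSeries.coeff 3 (tauVF qcert 1 certD1).1 = Z1_1_3A ∧
    PowerSeries.coeff 3 (tauVF qcert 1 certD1).2 = Z1_1_3B := by
  have hY := low_tau 0 low_certD1
  have e1 : _ ∧ _ := it1_1_1_3
  simp only [Function.iterate_one] at e1
  have e2 := it_zero (n := 1) (q := (litK (-1) 1 L_qc1)) hY 2 3 (by norm_num)
  have e3 := it_zero (n := 1) (q := (litK (-1) 1 L_qc1)) hY 3 3 (by norm_num)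
  have e4 := it_zero (n := 1) (q := (litK (-1) 1 L_qc1)) hY 4 3 (by norm_num)
  have h := coeff_expT_six 1 (by norm_num) (litK (-1) 1 L_qc1) hY (m := 3) (by norm_num)
  show PowerSeries.coeff 3 (expT (lieL (gauge 1 (litK (-1) 1 L_qc1))) (tauVF qcert 0 certD1)).1 = _ ∧
    PowerSeries.coeff 3 (expT (lieL (gauge 1 (litK (-1) 1 L_qc1))) (tauVF qcert 0 certD1)).2 = _
  rw [h.1, h.2, lv1_0_3.1, lv1_0_3.2, e1.1, e1.2, e2.1, e2.2, e3.1, e3.2, e4.1, e4.2]
  simp only [smul_zero, add_zero, Z1_1_3A, Z1_1_3B,  and_self]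

theorem lv1_1_4 : PowerSeries.coeff 4 (tauVF qcert 1 certD1).1 = Z1_1_4A ∧
    PowerSeries.coeff 4 (tauVF qcert 1 certD1).2 = Z1_1_4B := by
  have hY := low_tau 0 low_certD1
  have e1 : _ ∧ _ := it1_1_1_4
  simp only [Function.iterate_one] at e1
  have e2 : _ ∧ _ := it1_1_2_4
  have e3 := it_zero (n := 1) (q := (litK (-1) 1 L_qc1)) hY 3 4 (by norm_num)
  have e4 := it_zero (n := 1) (q := (litK (-1) 1 L_qc1)) hY 4 4 (by norm_num)
  have h := coeff_expT_six 1 (by norm_num) (litK (-1) 1 L_qc1) hY (m := 4) (by norm_num)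
  show PowerSeries.coeff 4 (expT (lieL (gauge 1 (litK (-1) 1 L_qc1))) (tauVF qcert 0 certD1)).1 = _ ∧
    PowerSeries.coeff 4 (expT (lieL (gauge 1 (litK (-1) 1 L_qc1))) (tauVF qcert 0 certD1)).2 = _
  rw [h.1, h.2, lv1_0_4.1, lv1_0_4.2, e1.1, e1.2, e2.1, e2.2, e3.1, e3.2, e4.1, e4.2]
  simp only [smul_zero, add_zero, Z1_1_4A, Z1_1_4B,  and_self]

theorem lv1_1_5 : PowerSeries.coeff 5 (tauVF qcert 1 certD1).1 = Z1_1_5A ∧
    PowerSeries.coeff 5 (tauVF qcert 1 certD1).2 = Z1_1_5B := by
  have hY := low_tau 0 low_certD1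
  have e1 : _ ∧ _ := it1_1_1_5
  simp only [Function.iterate_one] at e1
  have e2 : _ ∧ _ := it1_1_2_5
  have e3 : _ ∧ _ := it1_1_3_5
  have e4 := it_zero (n := 1) (q := (litK (-1) 1 L_qc1)) hY 4 5 (by norm_num)
  have h := coeff_expT_six 1 (by norm_num) (litK (-1) 1 L_qc1) hY (m := 5) (by norm_num)
  show PowerSeries.coeff 5 (expT (lieL (gauge 1 (litK (-1) 1 L_qc1))) (tauVF qcert 0 certD1)).1 = _ ∧
    PowerSeries.coeff 5 (expT (lieL (gauge 1 (litK (-1) 1 L_qc1))) (tauVF qcert 0 certD1)).2 = _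
  rw [h.1, h.2, lv1_0_5.1, lv1_0_5.2, e1.1, e1.2, e2.1, e2.2, e3.1, e3.2, e4.1, e4.2]
  simp only [smul_zero, add_zero, Z1_1_5A, Z1_1_5B,  and_self]

theorem lv1_1_6 : PowerSeries.coeff 6 (tauVF qcert 1 certD1).1 = Z1_1_6A ∧
    PowerSeries.coeff 6 (tauVF qcert 1 certD1).2 = Z1_1_6B := by
  have hY := low_tau 0 low_certD1
  have e1 : _ ∧ _ := it1_1_1_6
  simp only [Function.iterate_one] at e1
  have e2 : _ ∧ _ := it1_1_2_6
  have e3 : _ ∧ _ := it1_1_3_6
  have e4 : _ ∧ _ := it1_1_4_6
  have h := coeff_expT_six 1 (by norm_num) (litK (-1) 1 L_qc1) hY (m := 6) (by norm_num)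
  show PowerSeries.coeff 6 (expT (lieL (gauge 1 (litK (-1) 1 L_qc1))) (tauVF qcert 0 certD1)).1 = _ ∧
    PowerSeries.coeff 6 (expT (lieL (gauge 1 (litK (-1) 1 L_qc1))) (tauVF qcert 0 certD1)).2 = _
  rw [h.1, h.2, lv1_0_6.1, lv1_0_6.2, e1.1, e1.2, e2.1, e2.2, e3.1, e3.2, e4.1, e4.2]
  simp only [smul_zero, add_zero, Z1_1_6A, Z1_1_6B,  and_self]

theorem it1_2_1_4 : PowerSeries.coeff 4 ((lie (gauge 2 (litK (-8) 390625 L_qc2)))^[1] (tauVF qcert 1 certD1)).1 = I1_2_1_4A ∧
    PowerSeries.coeff 4 ((lie (gauge 2 (litK (-8) 390625 L_qc2)))^[1] (tauVF qcert 1 certD1)).2 = I1_2_1_4B := by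
  have h := it_step (Y := (tauVF qcert 1 certD1)) 2 2 0 4 hphi2 (rfl : dd phi2 = dphi2) (rfl : dd (litK (-8) 390625 L_qc2) = dq2)
    lv1_1_2 rfl
  exact ⟨h.1.trans rfl, h.2.trans rfl⟩

theorem it1_2_1_5 : PowerSeries.coeff 5 ((lie (gauge 2 (litK (-8) 390625 L_qc2)))^[1] (tauVF qcert 1 certD1)).1 = I1_2_1_5A ∧
    PowerSeries.coeff 5 ((lie (gauge 2 (litK (-8) 390625 L_qc2)))^[1] (tauVF qcert 1 certD1)).2 = I1_2_1_5B := by
  have h := it_step (Y := (tauVF qcert 1 certD1)) 2 3 0 5 hphi2 (rfl : dd phi2 = dphi2) (rfl : dd (litK (-8) 390625 L_qc2) = dq2)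
    lv1_1_3 rfl
  exact ⟨h.1.trans rfl, h.2.trans rfl⟩

theorem it1_2_1_6 : PowerSeries.coeff 6 ((lie (gauge 2 (litK (-8) 390625 L_qc2)))^[1] (tauVF qcert 1 certD1)).1 = I1_2_1_6A ∧
    PowerSeries.coeff 6 ((lie (gauge 2 (litK (-8) 390625 L_qc2)))^[1] (tauVF qcert 1 certD1)).2 = I1_2_1_6B := by
  have h := it_step (Y := (tauVF qcert 1 certD1)) 2 4 0 6 hphi2 (rfl : dd phi2 = dphi2) (rfl : dd (litK (-8) 390625 L_qc2) = dq2)
    lv1_1_4 rfl
  exact ⟨h.1.trans rfl, h.2.trans rfl⟩

theorem it1_2_2_6 : PowerSeries.coeff 6 ((lie (gauge 2 (litK (-8) 390625 L_qc2)))^[2] (tauVF qcert 1 certD1)).1 = I1_2_2_6A ∧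
    PowerSeries.coeff 6 ((lie (gauge 2 (litK (-8) 390625 L_qc2)))^[2] (tauVF qcert 1 certD1)).2 = I1_2_2_6B := by
  have h := it_step (Y := (tauVF qcert 1 certD1)) 2 4 1 6 hphi2 (rfl : dd phi2 = dphi2) (rfl : dd (litK (-8) 390625 L_qc2) = dq2)
    it1_2_1_4 rfl
  exact ⟨h.1.trans rfl, h.2.trans rfl⟩

theorem lv1_2_2 : PowerSeries.coeff 2 (tauVF qcert 2 certD1).1 = D1_2 ∧
    PowerSeries.coeff 2 (tauVF qcert 2 certD1).2 = (0 : K) := by
  have hY := low_tau 1 low_certD1
  have e1 := it_zero (n := 2) (q := (litK (-8) 390625 L_qc2)) hY 1 2 (by norm_num)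
  simp only [Function.iterate_one] at e1
  have e2 := it_zero (n := 2) (q := (litK (-8) 390625 L_qc2)) hY 2 2 (by norm_num)
  have e3 := it_zero (n := 2) (q := (litK (-8) 390625 L_qc2)) hY 3 2 (by norm_num)
  have e4 := it_zero (n := 2) (q := (litK (-8) 390625 L_qc2)) hY 4 2 (by norm_num)
  have h := coeff_expT_six 2 (by norm_num) (litK (-8) 390625 L_qc2) hY (m := 2) (by norm_num)
  show PowerSeries.coeff 2 (expT (lieL (gauge 2 (litK (-8) 390625 L_qc2))) (tauVF qcert 1 certD1)).1 = _ ∧
    PowerSeries.coeff 2 (expT (lieL (gauge 2 (litK (-8) 390625 L_qc2))) (tauVF qcert 1 certD1)).2 = _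
  rw [h.1, h.2, lv1_1_2.1, lv1_1_2.2, e1.1, e1.2, e2.1, e2.2, e3.1, e3.2, e4.1, e4.2]
  simp only [smul_zero, add_zero,  and_self]

theorem lv1_2_3 : PowerSeries.coeff 3 (tauVF qcert 2 certD1).1 = Z1_1_3A ∧
    PowerSeries.coeff 3 (tauVF qcert 2 certD1).2 = Z1_1_3B := by
  have hY := low_tau 1 low_certD1
  have e1 := it_zero (n := 2) (q := (litK (-8) 390625 L_qc2)) hY 1 3 (by norm_num)
  simp only [Function.iterate_one] at e1
  have e2 := it_zero (n := 2) (q := (litK (-8) 390625 L_qc2)) hY 2 3 (by norm_num)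
  have e3 := it_zero (n := 2) (q := (litK (-8) 390625 L_qc2)) hY 3 3 (by norm_num)
  have e4 := it_zero (n := 2) (q := (litK (-8) 390625 L_qc2)) hY 4 3 (by norm_num)
  have h := coeff_expT_six 2 (by norm_num) (litK (-8) 390625 L_qc2) hY (m := 3) (by norm_num)
  show PowerSeries.coeff 3 (expT (lieL (gauge 2 (litK (-8) 390625 L_qc2))) (tauVF qcert 1 certD1)).1 = _ ∧
    PowerSeries.coeff 3 (expT (lieL (gauge 2 (litK (-8) 390625 L_qc2))) (tauVF qcert 1 certD1)).2 = _
  rw [h.1, h.2, lv1_1_3.1, lv1_1_3.2, e1.1, e1.2, e2.1, e2.2, e3.1, e3.2, e4.1, e4.2]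
  simp only [smul_zero, add_zero,  and_self]

theorem lv1_2_4 : PowerSeries.coeff 4 (tauVF qcert 2 certD1).1 = Z1_2_4A ∧
    PowerSeries.coeff 4 (tauVF qcert 2 certD1).2 = Z1_2_4B := by
  have hY := low_tau 1 low_certD1
  have e1 : _ ∧ _ := it1_2_1_4
  simp only [Function.iterate_one] at e1
  have e2 := it_zero (n := 2) (q := (litK (-8) 390625 L_qc2)) hY 2 4 (by norm_num)
  have e3 := it_zero (n := 2) (q := (litK (-8) 390625 L_qc2)) hY 3 4 (by norm_num)
  have e4 := it_zero (n := 2) (q := (litK (-8) 390625 L_qc2)) hY 4 4 (by norm_num)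
  have h := coeff_expT_six 2 (by norm_num) (litK (-8) 390625 L_qc2) hY (m := 4) (by norm_num)
  show PowerSeries.coeff 4 (expT (lieL (gauge 2 (litK (-8) 390625 L_qc2))) (tauVF qcert 1 certD1)).1 = _ ∧
    PowerSeries.coeff 4 (expT (lieL (gauge 2 (litK (-8) 390625 L_qc2))) (tauVF qcert 1 certD1)).2 = _
  rw [h.1, h.2, lv1_1_4.1, lv1_1_4.2, e1.1, e1.2, e2.1, e2.2, e3.1, e3.2, e4.1, e4.2]
  simp only [smul_zero, add_zero, Z1_2_4A, Z1_2_4B,  and_self]

theorem lv1_2_5 : PowerSeries.coeff 5 (tauVF qcert 2 certD1).1 = Z1_2_5A ∧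
    PowerSeries.coeff 5 (tauVF qcert 2 certD1).2 = Z1_2_5B := by
  have hY := low_tau 1 low_certD1
  have e1 : _ ∧ _ := it1_2_1_5
  simp only [Function.iterate_one] at e1
  have e2 := it_zero (n := 2) (q := (litK (-8) 390625 L_qc2)) hY 2 5 (by norm_num)
  have e3 := it_zero (n := 2) (q := (litK (-8) 390625 L_qc2)) hY 3 5 (by norm_num)
  have e4 := it_zero (n := 2) (q := (litK (-8) 390625 L_qc2)) hY 4 5 (by norm_num)
  have h := coeff_expT_six 2 (by norm_num) (litK (-8) 390625 L_qc2) hY (m := 5) (by norm_num)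
  show PowerSeries.coeff 5 (expT (lieL (gauge 2 (litK (-8) 390625 L_qc2))) (tauVF qcert 1 certD1)).1 = _ ∧
    PowerSeries.coeff 5 (expT (lieL (gauge 2 (litK (-8) 390625 L_qc2))) (tauVF qcert 1 certD1)).2 = _
  rw [h.1, h.2, lv1_1_5.1, lv1_1_5.2, e1.1, e1.2, e2.1, e2.2, e3.1, e3.2, e4.1, e4.2]
  simp only [smul_zero, add_zero, Z1_2_5A, Z1_2_5B,  and_self]

theorem lv1_2_6 : PowerSeries.coeff 6 (tauVF qcert 2 certD1).1 = Z1_2_6A ∧
    PowerSeries.coeff 6 (tauVF qcert 2 certD1).2 = Z1_2_6B := by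
  have hY := low_tau 1 low_certD1
  have e1 : _ ∧ _ := it1_2_1_6
  simp only [Function.iterate_one] at e1
  have e2 : _ ∧ _ := it1_2_2_6
  have e3 := it_zero (n := 2) (q := (litK (-8) 390625 L_qc2)) hY 3 6 (by norm_num)
  have e4 := it_zero (n := 2) (q := (litK (-8) 390625 L_qc2)) hY 4 6 (by norm_num)
  have h := coeff_expT_six 2 (by norm_num) (litK (-8) 390625 L_qc2) hY (m := 6) (by norm_num)
  show PowerSeries.coeff 6 (expT (lieL (gauge 2 (litK (-8) 390625 L_qc2))) (tauVF qcert 1 certD1)).1 = _ ∧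
    PowerSeries.coeff 6 (expT (lieL (gauge 2 (litK (-8) 390625 L_qc2))) (tauVF qcert 1 certD1)).2 = _
  rw [h.1, h.2, lv1_1_6.1, lv1_1_6.2, e1.1, e1.2, e2.1, e2.2, e3.1, e3.2, e4.1, e4.2]
  simp only [smul_zero, add_zero, Z1_2_6A, Z1_2_6B,  and_self]

theorem it1_3_1_5 : PowerSeries.coeff 5 ((lie (gauge 3 (litK (-10) 75012207031250000 L_qc3)))^[1] (tauVF qcert 2 certD1)).1 = I1_3_1_5A ∧
    PowerSeries.coeff 5 ((lie (gauge 3 (litK (-10) 75012207031250000 L_qc3)))^[1] (tauVF qcert 2 certD1)).2 = I1_3_1_5B := by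
  have h := it_step (Y := (tauVF qcert 2 certD1)) 3 2 0 5 hphi3 (rfl : dd phi3 = dphi3) (rfl : dd (litK (-10) 75012207031250000 L_qc3) = dq3)
    lv1_2_2 rfl
  exact ⟨h.1.trans rfl, h.2.trans rfl⟩

theorem it1_3_1_6 : PowerSeries.coeff 6 ((lie (gauge 3 (litK (-10) 75012207031250000 L_qc3)))^[1] (tauVF qcert 2 certD1)).1 = I1_3_1_6A ∧
    PowerSeries.coeff 6 ((lie (gauge 3 (litK (-10) 75012207031250000 L_qc3)))^[1] (tauVF qcert 2 certD1)).2 = I1_3_1_6B := by
  have h := it_step (Y := (tauVF qcert 2 certD1)) 3 3 0 6 hphi3 (rfl : dd phi3 = dphi3) (rfl : dd (litK (-10) 75012207031250000 L_qc3) = dq3)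
    lv1_2_3 rfl
  exact ⟨h.1.trans rfl, h.2.trans rfl⟩

theorem lv1_3_2 : PowerSeries.coeff 2 (tauVF qcert 3 certD1).1 = D1_2 ∧
    PowerSeries.coeff 2 (tauVF qcert 3 certD1).2 = (0 : K) := by
  have hY := low_tau 2 low_certD1
  have e1 := it_zero (n := 3) (q := (litK (-10) 75012207031250000 L_qc3)) hY 1 2 (by norm_num)
  simp only [Function.iterate_one] at e1
  have e2 := it_zero (n := 3) (q := (litK (-10) 75012207031250000 L_qc3)) hY 2 2 (by norm_num)
  have e3 := it_zero (n := 3) (q := (litK (-10) 75012207031250000 L_qc3)) hY 3 2 (by norm_num)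
  have e4 := it_zero (n := 3) (q := (litK (-10) 75012207031250000 L_qc3)) hY 4 2 (by norm_num)
  have h := coeff_expT_six 3 (by norm_num) (litK (-10) 75012207031250000 L_qc3) hY (m := 2) (by norm_num)
  show PowerSeries.coeff 2 (expT (lieL (gauge 3 (litK (-10) 75012207031250000 L_qc3))) (tauVF qcert 2 certD1)).1 = _ ∧
    PowerSeries.coeff 2 (expT (lieL (gauge 3 (litK (-10) 75012207031250000 L_qc3))) (tauVF qcert 2 certD1)).2 = _
  rw [h.1, h.2, lv1_2_2.1, lv1_2_2.2, e1.1, e1.2, e2.1, e2.2, e3.1, e3.2, e4.1, e4.2]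
  simp only [smul_zero, add_zero,  and_self]

theorem lv1_3_3 : PowerSeries.coeff 3 (tauVF qcert 3 certD1).1 = Z1_1_3A ∧
    PowerSeries.coeff 3 (tauVF qcert 3 certD1).2 = Z1_1_3B := by
  have hY := low_tau 2 low_certD1
  have e1 := it_zero (n := 3) (q := (litK (-10) 75012207031250000 L_qc3)) hY 1 3 (by norm_num)
  simp only [Function.iterate_one] at e1
  have e2 := it_zero (n := 3) (q := (litK (-10) 75012207031250000 L_qc3)) hY 2 3 (by norm_num)
  have e3 := it_zero (n := 3) (q := (litK (-10) 75012207031250000 L_qc3)) hY 3 3 (by norm_num)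
  have e4 := it_zero (n := 3) (q := (litK (-10) 75012207031250000 L_qc3)) hY 4 3 (by norm_num)
  have h := coeff_expT_six 3 (by norm_num) (litK (-10) 75012207031250000 L_qc3) hY (m := 3) (by norm_num)
  show PowerSeries.coeff 3 (expT (lieL (gauge 3 (litK (-10) 75012207031250000 L_qc3))) (tauVF qcert 2 certD1)).1 = _ ∧
    PowerSeries.coeff 3 (expT (lieL (gauge 3 (litK (-10) 75012207031250000 L_qc3))) (tauVF qcert 2 certD1)).2 = _
  rw [h.1, h.2, lv1_2_3.1, lv1_2_3.2, e1.1, e1.2, e2.1, e2.2, e3.1, e3.2, e4.1, e4.2]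
  simp only [smul_zero, add_zero,  and_self]

theorem lv1_3_4 : PowerSeries.coeff 4 (tauVF qcert 3 certD1).1 = Z1_2_4A ∧
    PowerSeries.coeff 4 (tauVF qcert 3 certD1).2 = Z1_2_4B := by
  have hY := low_tau 2 low_certD1
  have e1 := it_zero (n := 3) (q := (litK (-10) 75012207031250000 L_qc3)) hY 1 4 (by norm_num)
  simp only [Function.iterate_one] at e1
  have e2 := it_zero (n := 3) (q := (litK (-10) 75012207031250000 L_qc3)) hY 2 4 (by norm_num)
  have e3 := it_zero (n := 3) (q := (litK (-10) 75012207031250000 L_qc3)) hY 3 4 (by norm_num)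
  have e4 := it_zero (n := 3) (q := (litK (-10) 75012207031250000 L_qc3)) hY 4 4 (by norm_num)
  have h := coeff_expT_six 3 (by norm_num) (litK (-10) 75012207031250000 L_qc3) hY (m := 4) (by norm_num)
  show PowerSeries.coeff 4 (expT (lieL (gauge 3 (litK (-10) 75012207031250000 L_qc3))) (tauVF qcert 2 certD1)).1 = _ ∧
    PowerSeries.coeff 4 (expT (lieL (gauge 3 (litK (-10) 75012207031250000 L_qc3))) (tauVF qcert 2 certD1)).2 = _
  rw [h.1, h.2, lv1_2_4.1, lv1_2_4.2, e1.1, e1.2, e2.1, e2.2, e3.1, e3.2, e4.1, e4.2]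
  simp only [smul_zero, add_zero,  and_self]

theorem lv1_3_5 : PowerSeries.coeff 5 (tauVF qcert 3 certD1).1 = Z1_3_5A ∧
    PowerSeries.coeff 5 (tauVF qcert 3 certD1).2 = Z1_3_5B := by
  have hY := low_tau 2 low_certD1
  have e1 : _ ∧ _ := it1_3_1_5
  simp only [Function.iterate_one] at e1
  have e2 := it_zero (n := 3) (q := (litK (-10) 75012207031250000 L_qc3)) hY 2 5 (by norm_num)
  have e3 := it_zero (n := 3) (q := (litK (-10) 75012207031250000 L_qc3)) hY 3 5 (by norm_num)
  have e4 := it_zero (n := 3) (q := (litK (-10) 75012207031250000 L_qc3)) hY 4 5 (by norm_num)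
  have h := coeff_expT_six 3 (by norm_num) (litK (-10) 75012207031250000 L_qc3) hY (m := 5) (by norm_num)
  show PowerSeries.coeff 5 (expT (lieL (gauge 3 (litK (-10) 75012207031250000 L_qc3))) (tauVF qcert 2 certD1)).1 = _ ∧
    PowerSeries.coeff 5 (expT (lieL (gauge 3 (litK (-10) 75012207031250000 L_qc3))) (tauVF qcert 2 certD1)).2 = _
  rw [h.1, h.2, lv1_2_5.1, lv1_2_5.2, e1.1, e1.2, e2.1, e2.2, e3.1, e3.2, e4.1, e4.2]
  simp only [smul_zero, add_zero, Z1_3_5A, Z1_3_5B,  and_self]

theorem lv1_3_6 : PowerSeries.coeff 6 (tauVF qcert 3 certD1).1 = Z1_3_6A ∧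
    PowerSeries.coeff 6 (tauVF qcert 3 certD1).2 = Z1_3_6B := by
  have hY := low_tau 2 low_certD1
  have e1 : _ ∧ _ := it1_3_1_6
  simp only [Function.iterate_one] at e1
  have e2 := it_zero (n := 3) (q := (litK (-10) 75012207031250000 L_qc3)) hY 2 6 (by norm_num)
  have e3 := it_zero (n := 3) (q := (litK (-10) 75012207031250000 L_qc3)) hY 3 6 (by norm_num)
  have e4 := it_zero (n := 3) (q := (litK (-10) 75012207031250000 L_qc3)) hY 4 6 (by norm_num)
  have h := coeff_expT_six 3 (by norm_num) (litK (-10) 75012207031250000 L_qc3) hY (m := 6) (by norm_num)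
  show PowerSeries.coeff 6 (expT (lieL (gauge 3 (litK (-10) 75012207031250000 L_qc3))) (tauVF qcert 2 certD1)).1 = _ ∧
    PowerSeries.coeff 6 (expT (lieL (gauge 3 (litK (-10) 75012207031250000 L_qc3))) (tauVF qcert 2 certD1)).2 = _
  rw [h.1, h.2, lv1_2_6.1, lv1_2_6.2, e1.1, e1.2, e2.1, e2.2, e3.1, e3.2, e4.1, e4.2]
  simp only [smul_zero, add_zero, Z1_3_6A, Z1_3_6B,  and_self]

theorem it1_4_1_6 : PowerSeries.coeff 6 ((lie (gauge 4 (litK (-17) 236326910555362701416015625000000 L_qc4)))^[1] (tauVF qcert 3 certD1)).1 = I1_4_1_6A ∧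
    PowerSeries.coeff 6 ((lie (gauge 4 (litK (-17) 236326910555362701416015625000000 L_qc4)))^[1] (tauVF qcert 3 certD1)).2 = I1_4_1_6B := by
  have h := it_step (Y := (tauVF qcert 3 certD1)) 4 2 0 6 hphi4 (rfl : dd phi4 = dphi4) (rfl : dd (litK (-17) 236326910555362701416015625000000 L_qc4) = dq4)
    lv1_3_2 rfl
  exact ⟨h.1.trans rfl, h.2.trans rfl⟩

theorem lv1_4_2 : PowerSeries.coeff 2 (tauVF qcert 4 certD1).1 = D1_2 ∧
    PowerSeries.coeff 2 (tauVF qcert 4 certD1).2 = (0 : K) := by
  have hY := low_tau 3 low_certD1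
  have e1 := it_zero (n := 4) (q := (litK (-17) 236326910555362701416015625000000 L_qc4)) hY 1 2 (by norm_num)
  simp only [Function.iterate_one] at e1
  have e2 := it_zero (n := 4) (q := (litK (-17) 236326910555362701416015625000000 L_qc4)) hY 2 2 (by norm_num)
  have e3 := it_zero (n := 4) (q := (litK (-17) 236326910555362701416015625000000 L_qc4)) hY 3 2 (by norm_num)
  have e4 := it_zero (n := 4) (q := (litK (-17) 236326910555362701416015625000000 L_qc4)) hY 4 2 (by norm_num)
  have h := coeff_expT_six 4 (by norm_num) (litK (-17) 236326910555362701416015625000000 L_qc4) hY (m := 2) (by norm_num)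
  show PowerSeries.coeff 2 (expT (lieL (gauge 4 (litK (-17) 236326910555362701416015625000000 L_qc4))) (tauVF qcert 3 certD1)).1 = _ ∧
    PowerSeries.coeff 2 (expT (lieL (gauge 4 (litK (-17) 236326910555362701416015625000000 L_qc4))) (tauVF qcert 3 certD1)).2 = _
  rw [h.1, h.2, lv1_3_2.1, lv1_3_2.2, e1.1, e1.2, e2.1, e2.2, e3.1, e3.2, e4.1, e4.2]
  simp only [smul_zero, add_zero,  and_self]

theorem lv1_4_3 : PowerSeries.coeff 3 (tauVF qcert 4 certD1).1 = Z1_1_3A ∧
    PowerSeries.coeff 3 (tauVF qcert 4 certD1).2 = Z1_1_3B := by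
  have hY := low_tau 3 low_certD1
  have e1 := it_zero (n := 4) (q := (litK (-17) 236326910555362701416015625000000 L_qc4)) hY 1 3 (by norm_num)
  simp only [Function.iterate_one] at e1
  have e2 := it_zero (n := 4) (q := (litK (-17) 236326910555362701416015625000000 L_qc4)) hY 2 3 (by norm_num)
  have e3 := it_zero (n := 4) (q := (litK (-17) 236326910555362701416015625000000 L_qc4)) hY 3 3 (by norm_num)
  have e4 := it_zero (n := 4) (q := (litK (-17) 236326910555362701416015625000000 L_qc4)) hY 4 3 (by norm_num)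
  have h := coeff_expT_six 4 (by norm_num) (litK (-17) 236326910555362701416015625000000 L_qc4) hY (m := 3) (by norm_num)
  show PowerSeries.coeff 3 (expT (lieL (gauge 4 (litK (-17) 236326910555362701416015625000000 L_qc4))) (tauVF qcert 3 certD1)).1 = _ ∧
    PowerSeries.coeff 3 (expT (lieL (gauge 4 (litK (-17) 236326910555362701416015625000000 L_qc4))) (tauVF qcert 3 certD1)).2 = _
  rw [h.1, h.2, lv1_3_3.1, lv1_3_3.2, e1.1, e1.2, e2.1, e2.2, e3.1, e3.2, e4.1, e4.2]
  simp only [smul_zero, add_zero,  and_self]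

theorem lv1_4_4 : PowerSeries.coeff 4 (tauVF qcert 4 certD1).1 = Z1_2_4A ∧
    PowerSeries.coeff 4 (tauVF qcert 4 certD1).2 = Z1_2_4B := by
  have hY := low_tau 3 low_certD1
  have e1 := it_zero (n := 4) (q := (litK (-17) 236326910555362701416015625000000 L_qc4)) hY 1 4 (by norm_num)
  simp only [Function.iterate_one] at e1
  have e2 := it_zero (n := 4) (q := (litK (-17) 236326910555362701416015625000000 L_qc4)) hY 2 4 (by norm_num)
  have e3 := it_zero (n := 4) (q := (litK (-17) 236326910555362701416015625000000 L_qc4)) hY 3 4 (by norm_num)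
  have e4 := it_zero (n := 4) (q := (litK (-17) 236326910555362701416015625000000 L_qc4)) hY 4 4 (by norm_num)
  have h := coeff_expT_six 4 (by norm_num) (litK (-17) 236326910555362701416015625000000 L_qc4) hY (m := 4) (by norm_num)
  show PowerSeries.coeff 4 (expT (lieL (gauge 4 (litK (-17) 236326910555362701416015625000000 L_qc4))) (tauVF qcert 3 certD1)).1 = _ ∧
    PowerSeries.coeff 4 (expT (lieL (gauge 4 (litK (-17) 236326910555362701416015625000000 L_qc4))) (tauVF qcert 3 certD1)).2 = _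
  rw [h.1, h.2, lv1_3_4.1, lv1_3_4.2, e1.1, e1.2, e2.1, e2.2, e3.1, e3.2, e4.1, e4.2]
  simp only [smul_zero, add_zero,  and_self]

theorem lv1_4_5 : PowerSeries.coeff 5 (tauVF qcert 4 certD1).1 = Z1_3_5A ∧
    PowerSeries.coeff 5 (tauVF qcert 4 certD1).2 = Z1_3_5B := by
  have hY := low_tau 3 low_certD1
  have e1 := it_zero (n := 4) (q := (litK (-17) 236326910555362701416015625000000 L_qc4)) hY 1 5 (by norm_num)
  simp only [Function.iterate_one] at e1
  have e2 := it_zero (n := 4) (q := (litK (-17) 236326910555362701416015625000000 L_qc4)) hY 2 5 (by norm_num)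
  have e3 := it_zero (n := 4) (q := (litK (-17) 236326910555362701416015625000000 L_qc4)) hY 3 5 (by norm_num)
  have e4 := it_zero (n := 4) (q := (litK (-17) 236326910555362701416015625000000 L_qc4)) hY 4 5 (by norm_num)
  have h := coeff_expT_six 4 (by norm_num) (litK (-17) 236326910555362701416015625000000 L_qc4) hY (m := 5) (by norm_num)
  show PowerSeries.coeff 5 (expT (lieL (gauge 4 (litK (-17) 236326910555362701416015625000000 L_qc4))) (tauVF qcert 3 certD1)).1 = _ ∧
    PowerSeries.coeff 5 (expT (lieL (gauge 4 (litK (-17) 236326910555362701416015625000000 L_qc4))) (tauVF qcert 3 certD1)).2 = _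
  rw [h.1, h.2, lv1_3_5.1, lv1_3_5.2, e1.1, e1.2, e2.1, e2.2, e3.1, e3.2, e4.1, e4.2]
  simp only [smul_zero, add_zero,  and_self]

theorem lv1_4_6 : PowerSeries.coeff 6 (tauVF qcert 4 certD1).1 = Z1_4_6A ∧
    PowerSeries.coeff 6 (tauVF qcert 4 certD1).2 = Z1_4_6B := by
  have hY := low_tau 3 low_certD1
  have e1 : _ ∧ _ := it1_4_1_6
  simp only [Function.iterate_one] at e1
  have e2 := it_zero (n := 4) (q := (litK (-17) 236326910555362701416015625000000 L_qc4)) hY 2 6 (by norm_num)
  have e3 := it_zero (n := 4) (q := (litK (-17) 236326910555362701416015625000000 L_qc4)) hY 3 6 (by norm_num)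
  have e4 := it_zero (n := 4) (q := (litK (-17) 236326910555362701416015625000000 L_qc4)) hY 4 6 (by norm_num)
  have h := coeff_expT_six 4 (by norm_num) (litK (-17) 236326910555362701416015625000000 L_qc4) hY (m := 6) (by norm_num)
  show PowerSeries.coeff 6 (expT (lieL (gauge 4 (litK (-17) 236326910555362701416015625000000 L_qc4))) (tauVF qcert 3 certD1)).1 = _ ∧
    PowerSeries.coeff 6 (expT (lieL (gauge 4 (litK (-17) 236326910555362701416015625000000 L_qc4))) (tauVF qcert 3 certD1)).2 = _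
  rw [h.1, h.2, lv1_3_6.1, lv1_3_6.2, e1.1, e1.2, e2.1, e2.2, e3.1, e3.2, e4.1, e4.2]
  simp only [smul_zero, add_zero, Z1_4_6A, Z1_4_6B,  and_self]

theorem reg1_2A : Reg D1_2 :=
  fun p _ hk => t_D1_2.zero_below 0 (Nat.zero_le _) rfl p (by omega)

theorem reg1_2B : Reg (0 : K) := fun _ _ _ => rfl

theorem reg1_3A : Reg Z1_1_3A :=
  fun p _ hk => t_Z1_1_3A.zero_below 0 (Nat.zero_le _) rfl p (by omega)

theorem reg1_3B : Reg Z1_1_3B :=
  fun p _ hk => r_Z1_1_3B.zero_below 0 (Nat.zero_le _) rfl p (by omega)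

theorem reg1_4A : Reg Z1_2_4A :=
  fun p _ hk => t_Z1_2_4A.zero_below 0 (Nat.zero_le _) rfl p (by omega)

theorem reg1_4B : Reg Z1_2_4B :=
  fun p _ hk => t_Z1_2_4B.zero_below 0 (Nat.zero_le _) rfl p (by omega)

theorem reg1_5A : Reg Z1_3_5A :=
  fun p _ hk => t_Z1_3_5A.zero_below 0 (Nat.zero_le _) rfl p (by omega)

theorem reg1_5B : Reg Z1_3_5B :=
  fun p _ hk => t_Z1_3_5B.zero_below 0 (Nat.zero_le _) rfl p (by omega)

theorem reg1_6A : Reg Z1_4_6A :=
  fun p _ hk => t_Z1_4_6A.zero_below 0 (Nat.zero_le _) rfl p (by omega)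

theorem reg1_6B : Reg Z1_4_6B :=
  fun p _ hk => t_Z1_4_6B.zero_below 0 (Nat.zero_le _) rfl p (by omega)

theorem tau_small1 : ∀ m < 3, PowerSeries.coeff m (tauVF qcert 4 certD1).2 = 0 := by
  intro m hm
  interval_cases m
  · exact (low_VF.1 (low_tau 4 low_certD1) 0 (by norm_num)).2
  · exact (low_VF.1 (low_tau 4 low_certD1) 1 (by norm_num)).2
  · exact lv1_4_2.2

theorem tau_reg1 : ∀ n ≤ 6, Reg (PowerSeries.coeff n (tauVF qcert 4 certD1).1) ∧
    Reg (PowerSeries.coeff n (tauVF qcert 4 certD1).2) := by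
  intro n hn
  have h0 : Reg (0 : K) := fun _ _ _ => rfl
  interval_cases n
  · rw [(low_VF.1 (low_tau 4 low_certD1) 0 (by norm_num)).1, (low_VF.1 (low_tau 4 low_certD1) 0 (by norm_num)).2]
    exact ⟨h0, h0⟩
  · rw [(low_VF.1 (low_tau 4 low_certD1) 1 (by norm_num)).1, (low_VF.1 (low_tau 4 low_certD1) 1 (by norm_num)).2]
    exact ⟨h0, h0⟩
  · rw [lv1_4_2.1, lv1_4_2.2]
    exact ⟨reg1_2A, reg1_2B⟩
  · rw [lv1_4_3.1, lv1_4_3.2]
    exact ⟨reg1_3A, reg1_3B⟩
  · rw [lv1_4_4.1, lv1_4_4.2]
    exact ⟨reg1_4A, reg1_4B⟩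
  · rw [lv1_4_5.1, lv1_4_5.2]
    exact ⟨reg1_5A, reg1_5B⟩
  · rw [lv1_4_6.1, lv1_4_6.2]
    exact ⟨reg1_6A, reg1_6B⟩

theorem glob_A1_2 : A1_2 ∈ G (2 : ℤ) :=
  (litK_mono_mem_G (1) 1 0 1 (2) [1] (by norm_num))

theorem glob_A1_3 : A1_3 ∈ G (3 : ℤ) :=
  (add_mem (add_mem (litK_mono_mem_G (0) 1953125 0 1 (3) [1257766800, 473264643462] (by norm_num))
    (litK_mono_mem_G (-1) 15625 1 2 (3) [1875000, -37624086] (by norm_num)))
    (litK_mono_mem_G (-1) 1 4 0 (3) [-20] (by norm_num)))

theorem glob_A1_4 : A1_4 ∈ G (4 : ℤ) :=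
  (add_mem (add_mem (add_mem (add_mem (litK_mono_mem_G (-7) 750122070312500 0 1 (4) [-112518310546875000, -697613525390625000, 0, 0, 4838287353515625000, -32370530663671875000, 148346984108531250000, -31884450180487909986422949] (by norm_num))
    (litK_mono_mem_G (-6) 600097656250000 1 2 (4) [-2700439453125000000, 0, 0, 0, -46769715749250000000, 13250124300725505000000, 62071112857143259470228489] (by norm_num)))
    (litK_mono_mem_G (-6) 78125 2 3 (4) [-351562500, 0, 0, -1511718750, 25396258050, -42531580476] (by norm_num)))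
    (litK_mono_mem_G (-8) 1 3 4 (4) [-1125, 900, 0, 0, 0, -48375] (by norm_num)))
    (litK_mono_mem_G (-7) 1500244140625000 4 0 (4) [-135021972656250000, 135021972656250000, 0, 0, 0, 30379154023125000000, -5515380165036075000000, -1587399327967552115217257] (by norm_num)))

theorem glob_B1_4 : B1_4 ∈ G (-2 : ℤ) :=
  (add_mem (add_mem (litK_mono_mem_G (-6) 1 0 1 (-2) [-12] (by norm_num))
    (litK_mono_mem_G (-6) 1 1 2 (-2) [-30] (by norm_num)))
    (litK_mono_mem_G (-7) 1 4 0 (-2) [-1, 1] (by norm_num)))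

theorem glob_A1_5 : A1_5 ∈ G (5 : ℤ) :=
  (add_mem (add_mem (add_mem (add_mem (litK_mono_mem_G (-9) 450073242187500 0 1 (5) [-80293066406250000000, 1122246885246093750000, -80283381623639584375000, -450301040508548133125000, 0, -5158943599294687500000, 603826993437358266622500, 1430090273498566415604843639, -5590147418287009476076823611] (by norm_num))
    (litK_mono_mem_G (-9) 187530517578125 1 2 (5) [-73699493408203125000, 1170637625461425781250, -2385150099649414062500, -936393757053626859375000, -543885383605957031250, 9485238949511474609375, -41974035010068289376250, 1383909315990790211518149940, -348155974944096478224981796] (by norm_num)))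
    (litK_mono_mem_G (-10) 375061035156250 2 3 (5) [49695587158203125000, -53633728027343750000, -1385100402832031250000, 12624913205742187500000, -1933780026995403671875000, -960156250000000000000, 13351107838568750000000, -1621697523372368946393750, -6731924021892398208702519975, 22619588844301520479022966704] (by norm_num)))
    (litK_mono_mem_G (-9) 7501220703125 3 4 (5) [-21872506470937500000, -8145755040578769531250, 7545515459903826093750, 0, 43510830688476562500, -156551933747431640625, -60974649829280108273750, -20675636040724533436271876] (by norm_num)))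
    (litK_mono_mem_G (-10) 562591552734375 4 0 (5) [-4969558715820312500, 100898875270507812500, -383787691579345703125, -54675916790429954296875, 54963775165454612500000, 278342170715332031250, -2255238735062500000000, -5825669412587958843125, -690992036305436381430258345, 920119094380829787244500757] (by norm_num)))

theorem glob_B1_5 : B1_5 ∈ G (-1 : ℤ) :=
  (add_mem (add_mem (add_mem (add_mem (litK_mono_mem_G (-8) 1953125 0 1 (-1) [644531250, 22886170350, 6878650617024, 0, 0, -410156250, -2886604500] (by norm_num))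
    (litK_mono_mem_G (-7) 390625 1 2 (-1) [13312225800, 3439325308512] (by norm_num)))
    (litK_mono_mem_G (-7) 1 2 3 (-1) [9900] (by norm_num)))
    (litK_mono_mem_G (-8) 1 3 4 (-1) [1800] (by norm_num)))
    (litK_mono_mem_G (-8) 1953125 4 0 (-1) [1960891800, 571259992952, -573220884752] (by norm_num)))

theorem glob_A1_6 : A1_6 ∈ G (6 : ℤ) :=
  (add_mem (add_mem (add_mem (add_mem (litK_mono_mem_G (-16) 4726538211107254028320312500000 0 1 (6) [518442160030826926231384277343750000, 32757568480717018246650695800781250000, 420639508813770487904548645019531250000, -157717549379060044884681701660156250000, 626114177523041144013404846191406250000, -596098965569810621738433837890625000000, 6932923716241095751255668640136718750000, 586232297162574056583250960327148437500000, -653077892633487037350038598383267211914062500, 4444998083075454951102116319788353637695312500, 3429373410146760301503697179092480859375000000, -45581893194786732341999752807617187500000, 5594420429848765876947595861946819238281250000,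 -40293481667994334984660629755774074557363281250, -1188390032775438632723958894366720602426963671875, -8688338479117662452440983127412437465149418827419] (by norm_num))
    (litK_mono_mem_G (-17) 586032867431640625000 1 2 (6) [321402400732040405273437500, -866138264536857604980468750, 2591657102108001708984375000, 183555548205971717834472656250, 94296497583389282226562500000, 193264482915401458740234375000, 42384186163544654846191406250, -651890845674888610839843750000, 104087824038900119683454589843750, -301949878619783359738383634130859375, 1303029718380322103376155517480468750, 2221628221888812781104030332305078125, -428626419294222872783642578125000, -1739395373988944300252449030850062500, 11324463742669549001343387767719003125, -414074219544239379787831099588726006875, 4757269574025273919732142248164944913] (by norm_num)))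
    (litK_mono_mem_G (-16) 1172065734863281250000 2 3 (6) [17820526957511901855468750000, -27662362933158874511718750000, 273664749383926391601562500000, 1382564345598220825195312500000, 0, -287406885420730590820312500000, -72905432039506166381835937500000, 12718806098376374296498517285156250, -11596109051612868102234862470703125, -2216498154228714384650530127548828125, 5009960502421579151676207301921875000, -112137920697689966238808593750000, -4437030011092378546705730917545937500, 72512411397426918047932366462861235625, 1672385576379129044658567490922267056875, -8568367648802329433657205049806838774296] (by norm_num)))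
    (litK_mono_mem_G (-17) 157551273703575134277343750000 3 4 (6) [93053721031174063682556152343750000, 5058134407480247318744659423828125000, 12295321093736216425895690917968750000, -14562375605829991400241851806640625000, 297665560190007090568542480468750000000, -24661451638047583401203155517578125000, 368479293672382867991924285888671875000, 47638449648063193667243634063720703125000, 91134614053266667319328565322625732421875000, 59423786535625002278630615667142089843750000, -892830671312259431571960431088542175292968750, 61807935349218814679773375974838256835937500, 183825133406260819657515895660400390625000, -93877907797122934710402629246953234863281250, -17823698666388460782658092209728893048281250000, 92471799918808866901797568309156284253020703125, 7459695582483645380151194860467064676796256312147] (by norm_num)))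
    (litK_mono_mem_G (-16) 14064788818359375000000 4 0 (6) [838613033294677734375000000, 87076514053344726562500000000, -103219023799896240234375000000, 165225755023956298828125000000, -149921858310699462890625000000, 270711637811224365234375000000, 50499969151975610675156250000000, -164978605950410447312995439355468750, 1109386973379859122532978994273437500, 66802103718478996462855012126406250, -1011280877374851241544002004544375000, 1400431631231344884985781250000000, 4002111911623095269058907403463140625, 22204548229436184723897320759944158750, 1470164830686624338586735792453927251230, -999136317252075054918573149534807943424] (by norm_num)))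

theorem glob_B1_6 : B1_6 ∈ G (0 : ℤ) :=
  (add_mem (add_mem (add_mem (add_mem (litK_mono_mem_G (-15) 75012207031250000 0 1 (0) [-67510986328125000000, -324052734375000000000, 135021972656250000000, 0, 0, 2497906494140625000000, -253944572177118750000000, -76018329863001193229496000, -41051259985244393347110777900, -75156562915288231894563810372, 3375549316406250000000, 191975830384228125000000, 72136527930326323007976000, 10210722627937700818693478625] (by norm_num))
    (litK_mono_mem_G (-15) 1875305175781250 1 2 (0) [-4219436645507812500, -16033859252929687500, -36287155151367187500, 0, 0, 150211944580078125000, -6985965420247851562500, -4378014699307752428406000, -2419515536441768157892805775, -5559425303436334124887746642, 153587493896484375000, 5601741814100390625000, 4273163487266289218923500] (by norm_num)))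
    (litK_mono_mem_G (-15) 15002441406250 2 3 (0) [3375549316406250, -3375549316406250, -1215197753906250000, 0, 0, 519834594726562500, -12432148132324218750, -770309231562506250000, -40661558930746327500000, -14269905454854945624455313, -1265830993652343750] (by norm_num)))
    (litK_mono_mem_G (-15) 150024414062500 3 4 (0) [-405065917968750000, 810131835937500000, -10126647949218750000, 0, 0, 27544482421875000000, 2963471432687156250000, -80856136414798650000000, 14269905454854945624455313] (by norm_num)))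
    (litK_mono_mem_G (-16) 18753051757812500 4 0 (0) [-1406478881835937500, -2531661987304687500, 3938140869140625000, 0, 0, 71730422973632812500, -2518092325860351562500, -1442942777647715431864500, -804382091680906594045424925, -809482524066118667382391739, 1615310060864435360648743664, 1629784946109375000000, 1426331636564059352524500] (by norm_num)))

theorem glob_certD1 : GlobV certD1 := by
  intro n
  match n with
  | 0 | 1 | 2 | 3 | 4 | 5 | 6 => ?_
  | n + 7 => simp [certD1, certA1, certB1]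
  · simp [certD1, certA1, certB1]
  · simp [certD1, certA1, certB1]
  · simpa [certD1, certA1, certB1, D1_2] using glob_A1_2
  · simpa [certD1, certA1, certB1, D1_3] using glob_A1_3
  · refine ⟨?_, by simpa [certD1, certB1] using glob_B1_4⟩
    simpa [certD1, certA1, certB1, D1_4] using glob_A1_4
  · refine ⟨?_, by simpa [certD1, certB1] using glob_B1_5⟩
    simpa [certD1, certA1, certB1, D1_5] using glob_A1_5
  · refine ⟨?_, by simpa [certD1, certB1] using glob_B1_6⟩
    simpa [certD1, certA1, certB1, D1_6] using glob_A1_6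

end

end P266
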