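import Vale.Agent.P266.Gauge

/-!
P266: the finite certificate (levels through `T^6`).
-/

namespace P266

noncomputable section

/-- A solution of the finitely many obstruction levels. -/
structure Cert where
  q : ℕ → K
  q_one : q 1 = q1K
  D : Fin 2 → VF
  glob : ∀ i, GlobV (D i)
  high : ∀ i, ∀ n, 6 < n → PowerSeries.coeff n (D i).1 = 0 ∧ PowerSeries.coeff n (D i).2 = 0
  lead_low : ∀ i, ∀ n < 2, PowerSeries.coeff n (D i).1 = 0
  lead_horizontal : ∀ i, ∀ n < 4, PowerSeries.coeff n (D i).2 = 0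
  lead_x : PowerSeries.coeff 2 (D 0).1 = wK * xK
  lead_y : PowerSeries.coeff 2 (D 1).1 = wK * yK
  reg : ∀ i, ∀ n ≤ 6, Reg (PowerSeries.coeff n (tauVF q 4 (D i)).1) ∧
    Reg (PowerSeries.coeff n (tauVF q 4 (D i)).2)
  det : ∀ n ≤ 8, PowerSeries.coeff n (det2 (D 0) (D 1)) = if n = 6 then -1 else 0
  cross_five : ∀ p, ((PowerSeries.coeff 9
    (det2 (truncV 6 (tauVF q 4 (D 0))) (truncV 6 (tauVF q 4 (D 1))))) p).coeff 0 = 0

end

end P266
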