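import Vale.Agent.P266.CertBase
import Vale.Agent.P266.CertData

/-!
P266: the two series of the curve.
-/

namespace P266

noncomputable section

/-- Certificate node. -/
def w2n : K := (wK * wK)

theorem r_w2n : Rep one' (2) 1 20 (.lit L_w2n) w2n :=
  (((((rep_wK 20)).oneMul ((rep_wK 20)) 20 (by norm_num) (by norm_num))).norm L_w2n Q_w2n 1 2 20 (by norm_num) (by norm_num) (by decide +kernel)).cast
    (by norm_num) rfl rfl

/-- Certificate node. -/
def w4n : K := (w2n * w2n)

theorem r_w4n : Rep one' (4) 1 20 (.lit L_w4n) w4n :=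
  ((((r_w2n).oneMul (r_w2n) 20 (by norm_num) (by norm_num))).norm L_w4n Q_w4n 1 2 20 (by norm_num) (by norm_num) (by decide +kernel)).cast
    (by norm_num) rfl rfl

/-- Certificate node. -/
def w5n : K := (w4n * wK)

theorem r_w5n : Rep one' (5) 1 20 (.lit L_w5n) w5n :=
  ((((r_w4n).oneMul ((rep_wK 20)) 20 (by norm_num) (by norm_num))).norm L_w5n Q_w5n 1 2 20 (by norm_num) (by norm_num) (by decide +kernel)).cast
    (by norm_num) rfl rfl

/-- Certificate node. -/
def tx2 : K := ((litK (0) 125 L_xs) * (litK (0) 125 L_xs))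

theorem r_tx2 : Rep one' (0) 125 20 (.lit L_tx2) tx2 :=
  (((((rep_litK (0) 125 L_xs (by norm_num) 20)).oneMul ((rep_litK (0) 125 L_xs (by norm_num) 20)) 20 (by norm_num) (by norm_num))).norm L_tx2 Q_tx2 125 23 20 (by norm_num) (by norm_num) (by decide +kernel)).cast
    (by norm_num) rfl rfl

/-- Certificate node. -/
def tx4 : K := (tx2 * tx2)

theorem r_tx4 : Rep one' (0) 125 20 (.lit L_tx4) tx4 :=
  ((((r_tx2).oneMul (r_tx2) 20 (by norm_num) (by norm_num))).norm L_tx4 Q_tx4 125 24 20 (by norm_num) (by norm_num) (by decide +kernel)).cast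
    (by norm_num) rfl rfl

/-- Certificate node. -/
def tx5 : K := (tx4 * (litK (0) 125 L_xs))

theorem r_tx5 : Rep one' (0) 1 20 (.lit L_tx5) tx5 :=
  ((((r_tx4).oneMul ((rep_litK (0) 125 L_xs (by norm_num) 20)) 20 (by norm_num) (by norm_num))).norm L_tx5 Q_tx5 1 17 20 (by norm_num) (by norm_num) (by decide +kernel)).cast
    (by norm_num) rfl rfl

/-- Certificate node. -/
def Zx : K := (tx5 - (((1 : ℕ) : K) - w5n))

theorem r_Zx : Rep one' (0) 1 20 (.lit L_Zx) Zx :=
  ((((((r_tx5).cast (lo' := (0)) (den' := 1) (N' := 20) (by norm_num) (by norm_num) (by norm_num))).sub ((((((((((((rep_const 1 40)).mono (N' := 25) (by norm_num))).cast (lo' := (0)) (den' := 1) (N' := 25) (by norm_num) (by norm_num) (by norm_num))).sub (((((r_w5n).shift 1 (by norm_num) (0) 5 (by norm_num))).cast (lo' := (0)) (den' := 1) (N' := 25) (by norm_num) (by norm_num) (by norm_num))))).mono (N' := 20) (by norm_num))).cast (lo' := (0)) (den' := 1) (N' := 20) (by norm_num) (by norm_num) (by norm_num))))).norm L_Zx Q_Zx 1 3 20 (by norm_num) (by norm_num)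 (by decide +kernel)).cast
    (by norm_num) rfl rfl

theorem rep_xsK : Rep one' 0 125 20 (.lit L_xs) xsK := by
  refine rep_xsK_of (N := 20) (lo' := 0) (by norm_num) ?_ (by decide +kernel)
    (r_Zx.congr ?_) (by norm_num) (by decide +kernel)
  · simp [L_xs, rowVal]
  · simp only [Zx, tx5, tx4, tx2, w5n, w4n, w2n, Nat.cast_one]
    ring

/-- Certificate node. -/
def ty2 : K := ((litK (0) 298023223876953125 L_ys) * (litK (0) 298023223876953125 L_ys))

theorem r_ty2 : Rep one' (0) 298023223876953125 20 (.lit L_ty2) ty2 :=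
  (((((rep_litK (0) 298023223876953125 L_ys (by norm_num) 20)).oneMul ((rep_litK (0) 298023223876953125 L_ys (by norm_num) 20)) 20 (by norm_num) (by norm_num))).norm L_ty2 Q_ty2 298023223876953125 248 20 (by norm_num) (by norm_num) (by decide +kernel)).cast
    (by norm_num) rfl rfl

/-- Certificate node. -/
def ty4 : K := (ty2 * ty2)

theorem r_ty4 : Rep one' (0) 298023223876953125 20 (.lit L_ty4) ty4 :=
  ((((r_ty2).oneMul (r_ty2) 20 (by norm_num) (by norm_num))).norm L_ty4 Q_ty4 298023223876953125 250 20 (by norm_num) (by norm_num) (by decide +kernel)).cast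
    (by norm_num) rfl rfl

/-- Certificate node. -/
def ty5 : K := (ty4 * (litK (0) 298023223876953125 L_ys))

theorem r_ty5 : Rep one' (0) 59604644775390625 20 (.lit L_ty5) ty5 :=
  ((((r_ty4).oneMul ((rep_litK (0) 298023223876953125 L_ys (by norm_num) 20)) 20 (by norm_num) (by norm_num))).norm L_ty5 Q_ty5 59604644775390625 248 20 (by norm_num) (by norm_num) (by decide +kernel)).cast
    (by norm_num) rfl rfl

/-- Certificate node. -/
def txy : K := (xsK * (litK (0) 298023223876953125 L_ys))

theorem r_txy : Rep one' (0) 298023223876953125 20 (.lit L_txy) txy :=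
  ((((rep_xsK).oneMul ((rep_litK (0) 298023223876953125 L_ys (by norm_num) 20)) 20 (by norm_num) (by norm_num))).norm L_txy Q_txy 298023223876953125 162 20 (by norm_num) (by norm_num) (by decide +kernel)).cast
    (by norm_num) rfl rfl

/-- Certificate node. -/
def txy2 : K := (txy * txy)

theorem r_txy2 : Rep one' (0) 298023223876953125 20 (.lit L_txy2) txy2 :=
  ((((r_txy).oneMul (r_txy) 20 (by norm_num) (by norm_num))).norm L_txy2 Q_txy2 298023223876953125 248 20 (by norm_num) (by norm_num) (by decide +kernel)).cast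
    (by norm_num) rfl rfl

/-- Certificate node. -/
def tin : K := ((((1 : ℕ) : K) - ((((12 : ℕ) : K) * (litK (0) 1 L_s1)) * txy)) - ((((30 : ℕ) : K) * (litK (0) 1 L_s2)) * txy2))

theorem r_tin : Rep one' (0) 298023223876953125 20 (.lit L_tin) tin :=
  (((((((((((((((rep_const 1 40)).shift 298023223876953125 (by norm_num) (0) 0 (by norm_num))).mono (N' := 20) (by norm_num))).cast (lo' := (0)) (den' := 298023223876953125) (N' := 20) (by norm_num) (by norm_num) (by norm_num))).sub ((((((((rep_const 12 40)).oneMul ((rep_litK (0) 1 L_s1 (by norm_num) 40)) 40 (by norm_num) (by norm_num))).oneMul (r_txy) 20 (by norm_num) (by norm_num))).cast (lo' := (0)) (den' := 298023223876953125) (N' := 20) (by norm_num) (by norm_num) (by norm_num))))).cast (lo' := (0)) (den' := 298023223876953125) (N' := 20) (by norm_num) (by norm_num) (by norm_num))).sub ((((((((rep_const 30 40)).oneMul ((rep_litK (0) 1 L_s2 (by norm_num) 40)) 40 (by norm_num) (by norm_num))).oneMul (r_txy2) 20 (by norm_num) (by norm_num))).cast (lo' := (0)) (den'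 := 298023223876953125) (N' := 20) (by norm_num) (by norm_num) (by norm_num))))).norm L_tin Q_tin 298023223876953125 160 20 (by norm_num) (by norm_num) (by decide +kernel)).cast
    (by norm_num) rfl rfl

/-- Certificate node. -/
def Zy : K := (ty5 - ((((1 : ℕ) : K) - w5n) - (wK * tin)))

theorem r_Zy : Rep one' (0) 1 20 (.lit L_Zy) Zy :=
  ((((((((r_ty5).shift 5 (by norm_num) (0) 0 (by norm_num))).cast (lo' := (0)) (den' := 298023223876953125) (N' := 20) (by norm_num) (by norm_num) (by norm_num))).sub ((((((((((((((((((((rep_const 1 40)).mono (N' := 25) (by norm_num))).cast (lo' := (0)) (den' := 1) (N' := 25) (by norm_num) (by norm_num) (by norm_num))).sub (((((r_w5n).shift 1 (by norm_num) (0) 5 (by norm_num))).cast (lo' := (0)) (den' := 1) (N' := 25) (by norm_num) (by norm_num) (by norm_num))))).shift 298023223876953125 (by norm_num) (0) 0 (by norm_num))).mono (N' := 21) (by norm_num))).cast (lo' := (0)) (den' := 298023223876953125) (N' := 21) (by norm_num) (by norm_num) (by norm_num))).sub ((((((((rep_wK 20)).oneMul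 (r_tin) 20 (by norm_num) (by norm_num))).shift 1 (by norm_num) (0) 1 (by norm_num))).cast (lo' := (0)) (den' := 298023223876953125) (N' := 21) (by norm_num) (by norm_num) (by norm_num))))).mono (N' := 20) (by norm_num))).cast (lo' := (0)) (den' := 298023223876953125) (N' := 20) (by norm_num) (by norm_num) (by norm_num))))).norm L_Zy Q_Zy 1 101 20 (by norm_num) (by norm_num) (by decide +kernel)).cast
    (by norm_num) rfl rfl

theorem rep_ysK : Rep one' 0 298023223876953125 20 (.lit L_ys) ysK := by
  refine rep_ysK_of (N := 20) (lo' := 0) (by norm_num) ?_ (r_Zy.congr ?_) (by norm_num)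
    (by decide +kernel)
  · intro s
    simp [L_ys, rowVal]
  · simp only [Zy, ty5, ty4, ty2, tin, txy2, txy, w5n, w4n, w2n, L_s1, L_s2, Nat.cast_one]
    ring

theorem rep_xK : Rep pa 0 125 20 (.lit L_xs) xK :=
  (rep_xsK.scale pa).congr xK_eq.symm

theorem rep_yK : Rep pb 0 298023223876953125 20 (.lit L_ys) yK :=
  (rep_ysK.scale pb).congr yK_eq.symm

end

end P266
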