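import Mathlib

/-!
P266: fifth roots `X`, `Y` in `ℂ((w))` of `1 - w^5` and of a perturbed equation are independent
over `ℂ(w)` unless their product is a polynomial of low degree in `X` and `w`.

The key object is `s = X Y`, a root of an Eisenstein quintic at `w = 1`.
-/

namespace P266.IrredField

open Polynomial
open scoped RatFunc

noncomputable section

/-- Laurent series over `ℂ`. -/
abbrev Ls : Type := LaurentSeries ℂ

/-- Rational functions over `ℂ`. -/
abbrev Fw : Type := RatFunc ℂ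

/-- The inclusion of rational functions in Laurent series. -/
abbrev toLs : Fw →+* Ls := algebraMap Fw Ls

/-- `1 - w^5`. -/
def uP : ℂ[X] := 1 - X ^ 5

/-- `1 - w^5` as a rational function. -/
def uF : Fw := 1 - RatFunc.X ^ 5

theorem uP_map : algebraMap ℂ[X] Fw uP = uF := by simp [uP, uF]

theorem uP_sep : Squarefree uP := by
  have h : uP = -(X ^ 5 - C (1 : ℂ)) := by simp [uP]
  rw [h]
  exact ((separable_X_pow_sub_C (1 : ℂ) (by norm_num) one_ne_zero).squarefree).squarefree_of_dvd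
    (neg_dvd.2 dvd_rfl)

theorem natDegree_uP : uP.natDegree = 5 := by
  have h : uP = -(X ^ 5 - C (1 : ℂ)) := by simp [uP]
  rw [h, natDegree_neg, natDegree_X_pow_sub_C]

theorem uP_ne : uP ≠ 0 := fun h => by simpa [h] using natDegree_uP

theorem uF_ne : uF ≠ 0 := by
  rw [← uP_map]; simpa using uP_ne

/-- The equation of `s = X Y`. -/
def Rel (t : Ls) : Prop :=
  90 * t ^ 5 = toLs uF ^ 2 - toLs uF * toLs RatFunc.X * (1 - 12 * t - 30 * t ^ 2)

/-- The constant coefficient of the monic quintic of `s`. -/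
def a0 : ℂ[X] := C (1 / 90 : ℂ) * (uP * (uP - X))

/-- The linear coefficient of the monic quintic of `s`. -/
def a1 : ℂ[X] := C (2 / 15 : ℂ) * (uP * X)

/-- The quadratic coefficient of the monic quintic of `s`. -/
def a2 : ℂ[X] := C (1 / 3 : ℂ) * (uP * X)

/-- The monic quintic of `s`. -/
def sPoly : ℂ[X][X] := X ^ 5 - (C a2 * X ^ 2 + C a1 * X + C a0)

theorem sPoly_monic : sPoly.Monic :=
  monic_X_pow_sub (lt_of_le_of_lt degree_quadratic_le (by norm_num))

theorem sPoly_natDegree : sPoly.natDegree = 5 := by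
  rw [sPoly, natDegree_sub_eq_left_of_natDegree_lt, natDegree_X_pow]
  rw [natDegree_X_pow]
  exact lt_of_le_of_lt natDegree_quadratic_le (by norm_num)

theorem sPoly_irreducible : Irreducible sPoly := by
  have hu : X - C (1 : ℂ) ∣ uP := dvd_iff_isRoot.2 (by simp [uP])
  refine IsEisensteinAt.irreducible (𝓟 := Ideal.span {X - C (1 : ℂ)}) ⟨?_, ?_, ?_⟩
    ((Ideal.span_singleton_prime (X_sub_C_ne_zero 1)).2 (prime_X_sub_C 1))
    sPoly_monic.isPrimitive (by rw [sPoly_natDegree]; norm_num)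
  · rw [sPoly_monic.leadingCoeff, Ideal.mem_span_singleton]
    exact (prime_X_sub_C (1 : ℂ)).not_dvd_one
  · intro n hn
    rw [sPoly_natDegree] at hn
    rw [Ideal.mem_span_singleton]
    interval_cases n <;> simp [sPoly, coeff_X_pow] <;>
      simp only [a0, a1, a2] <;> exact Dvd.dvd.mul_left (Dvd.dvd.mul_right hu _) _
  · rw [Ideal.span_singleton_pow, Ideal.mem_span_singleton]
    have h0 : sPoly.coeff 0 = -a0 := by simp [sPoly]
    rw [h0, dvd_neg]
    rintro ⟨q, hq⟩
    have := congrArg (fun f => (derivative f).eval 1) hq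
    simp [a0, uP, derivative_pow] at this

theorem map_C_Fw (c : ℂ) : algebraMap ℂ[X] Fw (C c) = RatFunc.C c := by simp

theorem algebraMap_Ls (q : ℂ[X]) : algebraMap ℂ[X] Ls q = toLs (algebraMap ℂ[X] Fw q) :=
  IsScalarTower.algebraMap_apply ℂ[X] Fw Ls q

theorem aeval_sPoly {t : Ls} (h : Rel t) : aeval t sPoly = 0 := by
  have h1 : algebraMap ℂ[X] Ls (C (1 / 90 : ℂ)) * 90 = 1 := by
    rw [← map_ofNat (algebraMap ℂ[X] Ls) 90, ← map_mul, ← map_ofNat (C : ℂ →+* ℂ[X]) 90, ← map_mul]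
    norm_num
  have h2 : algebraMap ℂ[X] Ls (C (2 / 15 : ℂ)) = 12 * algebraMap ℂ[X] Ls (C (1 / 90 : ℂ)) := by
    rw [← map_ofNat (algebraMap ℂ[X] Ls) 12, ← map_mul, ← map_ofNat (C : ℂ →+* ℂ[X]) 12, ← map_mul]
    norm_num
  have h3 : algebraMap ℂ[X] Ls (C (1 / 3 : ℂ)) = 30 * algebraMap ℂ[X] Ls (C (1 / 90 : ℂ)) := by
    rw [← map_ofNat (algebraMap ℂ[X] Ls) 30, ← map_mul, ← map_ofNat (C : ℂ →+* ℂ[X]) 30, ← map_mul]
    norm_num
  have hX : algebraMap ℂ[X] Ls X = toLs RatFunc.X := by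
    rw [algebraMap_Ls, RatFunc.algebraMap_X]
  have hU : algebraMap ℂ[X] Ls uP = toLs uF := by rw [algebraMap_Ls, uP_map]
  simp only [sPoly, a0, a1, a2, map_sub, map_add, map_mul, map_pow, aeval_X, aeval_C, h2, h3,
    hX, hU]
  simp only [Rel] at h
  linear_combination (algebraMap ℂ[X] Ls (C (1 / 90 : ℂ))) * h - t ^ 5 * h1

theorem isIntegral_of_rel {t : Ls} (h : Rel t) : IsIntegral ℂ[X] t :=
  ⟨sPoly, sPoly_monic, by rw [← aeval_def]; exact aeval_sPoly h⟩

theorem minpoly_s {t : Ls} (h : Rel t) :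
    minpoly Fw t = sPoly.map (algebraMap ℂ[X] Fw) :=
  (minpoly.eq_of_irreducible_of_monic
    ((sPoly_monic.irreducible_iff_irreducible_map_fraction_map (K := Fw)).1 sPoly_irreducible)
    (by rw [aeval_map_algebraMap]; exact aeval_sPoly h) (sPoly_monic.map _)).symm

theorem natDegree_minpoly_s {t : Ls} (h : Rel t) : (minpoly Fw t).natDegree = 5 := by
  rw [minpoly_s h, sPoly_monic.natDegree_map, sPoly_natDegree]

theorem poly_of_isIntegral {r : Fw} (h : IsIntegral ℂ[X] (toLs r)) :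
    ∃ q, algebraMap ℂ[X] Fw q = r :=
  IsIntegrallyClosed.isIntegral_iff.1 ((isIntegral_algebraMap_iff (toLs).injective).1 h)

theorem not_fifth_Fw (b : Fw) : b ^ 5 ≠ uF := by
  intro hb
  have hint : IsIntegral ℂ[X] b :=
    IsIntegral.of_pow (n := 5) (by norm_num) (by rw [hb, ← uP_map]; exact isIntegral_algebraMap)
  obtain ⟨q, rfl⟩ := IsIntegrallyClosed.isIntegral_iff.1 hint
  rw [← map_pow, ← uP_map] at hb
  have hq : q ^ 5 = uP := IsFractionRing.injective ℂ[X] Fw hb
  have h0 : q.eval 1 = 0 := by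
    have := congrArg (Polynomial.eval 1) hq
    simpa [uP] using this
  have := congrArg (fun f => (derivative f).eval 1) hq
  simp [uP, derivative_pow, h0] at this

section Pair

variable {X0 s0 : Ls} (hX : X0 ^ 5 = toLs uF) (hs : Rel s0)

include hX

theorem X0_ne : X0 ≠ 0 := fun h => by
  rw [h, zero_pow (by norm_num)] at hX
  exact uF_ne ((map_eq_zero toLs).1 hX.symm)

theorem minpoly_X0 : minpoly Fw X0 = X ^ 5 - C uF :=
  (minpoly.eq_of_irreducible_of_monic
    (X_pow_sub_C_irreducible_of_prime Nat.prime_five not_fifth_Fw)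
    (by simp only [map_sub, map_pow, aeval_X, aeval_C, hX, toLs, sub_self])
    (monic_X_pow_sub_C _ (by norm_num))).symm

theorem natDegree_minpoly_X0 : (minpoly Fw X0).natDegree = 5 := by
  rw [minpoly_X0 hX, natDegree_X_pow_sub_C]

theorem isIntegral_X0 : IsIntegral Fw X0 :=
  IsIntegral.of_pow (n := 5) (by norm_num) (by rw [hX]; exact isIntegral_algebraMap)

/-- The roots of `T^5 = 1` in Laurent series are constants. -/
theorem fifth_root {m : Ls} (hm : m ^ 5 = toLs uF) :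
    ∃ k : ℕ, m = toLs (RatFunc.C (Complex.exp (2 * Real.pi * Complex.I / 5) ^ k)) * X0 := by
  have hz : IsPrimitiveRoot (toLs (RatFunc.C (Complex.exp (2 * Real.pi * Complex.I / 5)))) 5 :=
    IsPrimitiveRoot.map_of_injective (f := toLs.comp RatFunc.C)
      (Complex.isPrimitiveRoot_exp 5 (by norm_num)) (toLs.comp RatFunc.C).injective
  have h1 : (m / X0) ^ 5 = 1 := by
    rw [div_pow, hm, hX, div_self]
    simpa using uF_ne
  obtain ⟨k, -, hk⟩ := hz.eq_pow_of_pow_eq_one h1
  refine ⟨k, ?_⟩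
  rw [map_pow, map_pow, hk, div_mul_cancel₀ _ (X0_ne hX)]

include hs

/-- `u` stays a non-fifth-power over `ℂ(w)(s)` unless `s` is in `ℂ(w)(X)`. -/
theorem indep_or_mem :
    (∀ d : Fin 5 → Fin 5 → Fw,
      ∑ m : Fin 5, (∑ j : Fin 5, toLs (d m j) * s0 ^ (j : ℕ)) * X0 ^ (m : ℕ) = 0 → d = 0) ∨
    ∃ r : Fin 5 → Fw, s0 = ∑ l : Fin 5, toLs (r l) * X0 ^ (l : ℕ) := by
  classical
  have his : IsIntegral Fw s0 := (isIntegral_of_rel hs).tower_top
  let Me := IntermediateField.adjoin Fw ({s0} : Set Ls)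
  by_cases hpow : ∃ b : Me, b ^ 5 = algebraMap Fw Me uF
  · right
    obtain ⟨b, hb⟩ := hpow
    have hb' : (b : Ls) ^ 5 = toLs uF := by
      have := congrArg Subtype.val hb
      simpa using this
    obtain ⟨k, hk⟩ := fifth_root hX hb'
    have hX0 : X0 ∈ Me := by
      set c : Fw := RatFunc.C (Complex.exp (2 * Real.pi * Complex.I / 5) ^ k) with hc
      have hc0 : c ≠ 0 := by simp [hc]
      have e : X0 = toLs c⁻¹ * (b : Ls) := by
        rw [hk, ← mul_assoc, ← map_mul, inv_mul_cancel₀ hc0, map_one, one_mul]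
      rw [e]
      exact mul_mem (IntermediateField.algebraMap_mem _ _) b.2
    have hle : IntermediateField.adjoin Fw ({X0} : Set Ls) ≤ Me := by
      rw [IntermediateField.adjoin_simple_le_iff]; exact hX0
    have : FiniteDimensional Fw Me := IntermediateField.adjoin.finiteDimensional his
    have heq := IntermediateField.eq_of_le_of_finrank_eq hle (by
      rw [IntermediateField.adjoin.finrank (isIntegral_X0 hX),
        IntermediateField.adjoin.finrank his, natDegree_minpoly_X0 hX, natDegree_minpoly_s hs])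
    have hsmem : s0 ∈ (IntermediateField.adjoin Fw ({X0} : Set Ls)).toSubalgebra := by
      show s0 ∈ IntermediateField.adjoin Fw ({X0} : Set Ls)
      rw [heq]; exact IntermediateField.mem_adjoin_simple_self _ _
    rw [IntermediateField.adjoin_simple_toSubalgebra_of_isAlgebraic (isIntegral_X0 hX).isAlgebraic,
      Algebra.adjoin_singleton_eq_range_aeval] at hsmem
    obtain ⟨Q, hQ⟩ := hsmem
    refine ⟨fun l => (Q %ₘ minpoly Fw X0).coeff l, ?_⟩
    have hdeg : (Q %ₘ minpoly Fw X0).natDegree < 5 := by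
      rw [← natDegree_minpoly_X0 hX]
      exact natDegree_modByMonic_lt _ (minpoly.monic (isIntegral_X0 hX))
        (minpoly.ne_one Fw X0)
    rw [show s0 = aeval X0 (Q %ₘ minpoly Fw X0) by
      rw [minpoly.aeval_modByMonic_minpoly _ _]; exact hQ.symm,
      aeval_eq_sum_range' hdeg, ← Fin.sum_univ_eq_sum_range
        (fun i => (Q %ₘ minpoly Fw X0).coeff i • X0 ^ i)]
    simp [Algebra.smul_def, toLs]
  · left
    push Not at hpow
    intro d hd
    have hirr := X_pow_sub_C_irreducible_of_prime Nat.prime_five hpow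
    have hmin : minpoly Me X0 = X ^ 5 - C (algebraMap Fw Me uF) :=
      (minpoly.eq_of_irreducible_of_monic hirr
        (by
          simp only [map_sub, map_pow, aeval_X, aeval_C]
          exact sub_eq_zero.2 hX)
        (monic_X_pow_sub_C _ (by norm_num))).symm
    have hdegX : (minpoly Me X0).natDegree = 5 := by rw [hmin, natDegree_X_pow_sub_C]
    have li : LinearIndependent Me fun i : Fin 5 => X0 ^ (i : ℕ) := by
      have := linearIndependent_pow (K := Me) X0
      rwa [hdegX] at this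
    have lis : LinearIndependent Fw fun i : Fin 5 => s0 ^ (i : ℕ) := by
      have := linearIndependent_pow (K := Fw) s0
      rwa [natDegree_minpoly_s hs] at this
    let sM : Me := ⟨s0, IntermediateField.mem_adjoin_simple_self _ _⟩
    have h5 := Fintype.linearIndependent_iff.1 li
      (fun m => ∑ j : Fin 5, algebraMap Fw Me (d m j) * sM ^ (j : ℕ)) (by
        rw [← hd]
        refine Finset.sum_congr rfl fun m _ => ?_
        rw [IntermediateField.smul_def, smul_eq_mul]
        congr 1)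
    funext m j
    refine Fintype.linearIndependent_iff.1 lis (d m) ?_ j
    have := congrArg Me.val (h5 m)
    simp only [map_sum, map_mul, map_pow, map_zero, AlgHom.commutes] at this
    simpa [Algebra.smul_def, sM] using this

omit hs

/-- A polynomial relation of `s` on the root `X0` holds on its conjugates. -/
theorem rel_conj {r : Fin 5 → Fw} (hr : Rel (∑ l : Fin 5, toLs (r l) * X0 ^ (l : ℕ)))
    {z : Ls} (hz : z ^ 5 = toLs uF) : Rel (∑ l : Fin 5, toLs (r l) * z ^ (l : ℕ)) := by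
  let Q : Fw[X] := ∑ l : Fin 5, C (r l) * X ^ (l : ℕ)
  let E : Fw[X] := 90 * Q ^ 5 -
    (C uF ^ 2 - C uF * C RatFunc.X * (1 - 12 * Q - 30 * Q ^ 2))
  have hE : ∀ t : Ls, aeval t E = 90 * (∑ l : Fin 5, toLs (r l) * t ^ (l : ℕ)) ^ 5 -
      (toLs uF ^ 2 - toLs uF * toLs RatFunc.X * (1 - 12 * (∑ l : Fin 5, toLs (r l) * t ^ (l : ℕ))
        - 30 * (∑ l : Fin 5, toLs (r l) * t ^ (l : ℕ)) ^ 2)) := by
    intro t
    simp [E, Q, map_ofNat, toLs]
  have h0 : aeval X0 E = 0 := by rw [hE, sub_eq_zero]; exact hr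
  have hd : minpoly Fw X0 ∣ E := minpoly.dvd Fw X0 h0
  have : aeval z E = 0 := by
    refine aeval_eq_zero_of_dvd_aeval_eq_zero hd ?_
    rw [minpoly_X0 hX]
    simp [hz, toLs]
  rw [hE, sub_eq_zero] at this
  exact this

end Pair

open scoped Classical in
/-- The valuation ring at `w = ∞`. -/
def Oinf : Subring Fw := (RatFunc.inftyValuation ℂ).integer

theorem mem_Oinf {r : Fw} : r ∈ Oinf ↔ r = 0 ∨ r.intDegree ≤ 0 := by
  classical
  rw [Oinf, Valuation.mem_integer_iff, RatFunc.inftyValuation_apply, RatFunc.inftyValuationDef]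
  split_ifs with h
  · simp [h]
  · rw [← WithZero.exp_zero, WithZero.exp_le_exp]; simp [h]

theorem Oinf_of_isIntegral {r : Fw} (h : IsIntegral Oinf (toLs r)) : r ∈ Oinf := by
  classical
  have h' : IsIntegral Oinf r := (isIntegral_algebraMap_iff (toLs).injective).1 h
  exact (Valuation.integer.integers (RatFunc.inftyValuation ℂ)).mem_of_integral h'

/-- A polynomial of degree at most `n` divided by `w^n` is integral at infinity. -/
theorem div_X_pow_mem {q : ℂ[X]} {n : ℕ} :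
    algebraMap ℂ[X] Fw q / RatFunc.X ^ n ∈ Oinf ↔ q = 0 ∨ q.natDegree ≤ n := by
  rw [mem_Oinf]
  rcases eq_or_ne q 0 with rfl | hq
  · simp
  have hq' : algebraMap ℂ[X] Fw q ≠ 0 := by simpa using hq
  have hX : (RatFunc.X : Fw) ^ n ≠ 0 := pow_ne_zero _ RatFunc.X_ne_zero
  rw [div_eq_mul_inv, RatFunc.intDegree_mul hq' (inv_ne_zero hX), RatFunc.intDegree_inv,
    RatFunc.intDegree_polynomial, ← RatFunc.algebraMap_X, ← map_pow, RatFunc.intDegree_polynomial,
    natDegree_X_pow]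
  simp only [mul_eq_zero, inv_eq_zero, hq, hq', hX, false_or, or_self,
    map_pow, RatFunc.algebraMap_X]
  omega

theorem isIntegral_quintic {A : Type*} [CommRing A] [Algebra A Ls] (t : Ls) (b0 b1 b2 : A)
    (h : t ^ 5 = algebraMap A Ls b2 * t ^ 2 + algebraMap A Ls b1 * t + algebraMap A Ls b0) :
    IsIntegral A t :=
  ⟨X ^ 5 - (C b2 * X ^ 2 + C b1 * X + C b0),
    monic_X_pow_sub (lt_of_le_of_lt degree_quadratic_le (by norm_num)), by simp [h]⟩

theorem quintic_scale {t W c0 c1 c2 : Ls} (hW : W ≠ 0) (h : t ^ 5 = c2 * t ^ 2 + c1 * t + c0) :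
    (t / W ^ 2) ^ 5
      = c2 / W ^ 6 * (t / W ^ 2) ^ 2 + c1 / W ^ 8 * (t / W ^ 2) + c0 / W ^ 10 := by
  rw [div_pow, h]
  field_simp

theorem algebraMap_subring {F L : Type*} [CommRing F] [CommRing L] [Algebra F L] (T : Subring F)
    (x : T) : algebraMap T L x = algebraMap F L (x : F) := rfl

theorem isIntegral_inf_of_rel {t : Ls} (h : Rel t) :
    IsIntegral Oinf (t / toLs RatFunc.X ^ 2) := by
  have hu5 : uP.natDegree = 5 := natDegree_uP
  have m0 : algebraMap ℂ[X] Fw a0 / RatFunc.X ^ 10 ∈ Oinf := by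
    refine div_X_pow_mem.2 (Or.inr ?_)
    refine (natDegree_C_mul_le _ _).trans (natDegree_mul_le.trans ?_)
    have h1 := natDegree_sub_le uP (X : ℂ[X])
    rw [hu5, natDegree_X] at h1
    simp at h1
    omega
  have m1 : algebraMap ℂ[X] Fw a1 / RatFunc.X ^ 8 ∈ Oinf := by
    refine div_X_pow_mem.2 (Or.inr ?_)
    refine (natDegree_C_mul_le _ _).trans (natDegree_mul_le.trans ?_)
    rw [hu5, natDegree_X]; norm_num
  have m2 : algebraMap ℂ[X] Fw a2 / RatFunc.X ^ 6 ∈ Oinf := by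
    refine div_X_pow_mem.2 (Or.inr ?_)
    refine (natDegree_C_mul_le _ _).trans (natDegree_mul_le.trans ?_)
    rw [hu5, natDegree_X]
  have key := aeval_sPoly h
  simp only [sPoly, map_sub, map_add, map_mul, map_pow, aeval_X, aeval_C] at key
  have hW : toLs RatFunc.X ≠ 0 := by simpa using RatFunc.X_ne_zero
  have ha : ∀ (q : ℂ[X]) (n : ℕ) (hm : algebraMap ℂ[X] Fw q / RatFunc.X ^ n ∈ Oinf),
      algebraMap Oinf Ls ⟨_, hm⟩ = algebraMap ℂ[X] Ls q / toLs RatFunc.X ^ n := by
    intro q n hm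
    rw [algebraMap_subring Oinf, map_div₀, map_pow, ← algebraMap_Ls]
  have key' : t ^ 5 = algebraMap ℂ[X] Ls a2 * t ^ 2 + algebraMap ℂ[X] Ls a1 * t
      + algebraMap ℂ[X] Ls a0 := by linear_combination key
  have hq := quintic_scale hW key'
  rw [← ha a0 10 m0, ← ha a1 8 m1, ← ha a2 6 m2] at hq
  exact isIntegral_quintic (A := Oinf) (t / toLs RatFunc.X ^ 2) ⟨_, m0⟩ ⟨_, m1⟩ ⟨_, m2⟩ hq

/-- If `s` is a rational combination of powers of `X`, the combination is polynomial of total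
degree at most `2`. -/
theorem low_degree {X0 : Ls} (hX : X0 ^ 5 = toLs uF) {r : Fin 5 → Fw}
    (hr : Rel (∑ l : Fin 5, toLs (r l) * X0 ^ (l : ℕ))) (l : Fin 5) :
    ∃ q : ℂ[X], algebraMap ℂ[X] Fw q = r l ∧ (q ≠ 0 → q.natDegree + (l : ℕ) ≤ 2) := by
  set η : Fw := RatFunc.C (Complex.exp (2 * Real.pi * Complex.I / 5)) with hη
  have hη1 : IsPrimitiveRoot (toLs η) 5 :=
    IsPrimitiveRoot.map_of_injective (f := toLs.comp RatFunc.C)
      (Complex.isPrimitiveRoot_exp 5 (by norm_num)) (toLs.comp RatFunc.C).injective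
  let z : Fin 5 → Ls := fun k =>
    ∑ m : Fin 5, toLs (r m) * (toLs η ^ (k : ℕ) * X0) ^ (m : ℕ)
  have hzk : ∀ k, Rel (z k) := fun k => by
    refine rel_conj hX hr ?_
    rw [mul_pow, ← pow_mul, mul_comm (k : ℕ), pow_mul, hη1.pow_eq_one, one_pow, one_mul, hX]
  have hsum : toLs (5 * r l) * X0 ^ (l : ℕ)
      = ∑ k : Fin 5, toLs (η ^ ((5 - (l : ℕ)) * k)) * z k := by
    simp only [z, Finset.mul_sum]
    rw [Finset.sum_comm, Finset.sum_eq_single l]
    · have e : ∀ k : Fin 5, toLs (η ^ ((5 - (l : ℕ)) * k)) *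
          (toLs (r l) * (toLs η ^ (k : ℕ) * X0) ^ (l : ℕ)) = toLs (r l) * X0 ^ (l : ℕ) := by
        intro k
        have h5 : (5 - (l : ℕ)) * k + k * l = 5 * k := by
          rw [mul_comm (k : ℕ), ← add_mul, Nat.sub_add_cancel (by omega)]
        calc _ = (toLs η ^ ((5 - (l : ℕ)) * k + k * l)) * (toLs (r l) * X0 ^ (l : ℕ)) := by
              rw [map_pow, pow_add, mul_pow, ← pow_mul]; ring
          _ = _ := by rw [h5, pow_mul, hη1.pow_eq_one, one_pow, one_mul]
      simp only [e]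
      rw [Finset.sum_const, Finset.card_univ, Fintype.card_fin, map_mul, map_ofNat, nsmul_eq_mul]
      push_cast; ring
    · intro m _ hm
      have e : ∀ k : Fin 5, toLs (η ^ ((5 - (l : ℕ)) * k)) *
          (toLs (r m) * (toLs η ^ (k : ℕ) * X0) ^ (m : ℕ))
          = (toLs η ^ ((5 - (l : ℕ)) + m)) ^ (k : ℕ) * (toLs (r m) * X0 ^ (m : ℕ)) := by
        intro k
        rw [map_pow, mul_pow, ← pow_mul, ← pow_mul, add_mul, pow_add, mul_comm (k : ℕ)]
        ring
      simp only [e, ← Finset.sum_mul]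
      rw [Fin.sum_univ_eq_sum_range (fun k => (toLs η ^ ((5 - (l : ℕ)) + m)) ^ k)]
      have hne : toLs η ^ ((5 - (l : ℕ)) + m) ≠ 1 := by
        rw [ne_eq, hη1.pow_eq_one_iff_dvd]
        intro hd
        exact hm (Fin.ext (by omega))
      have hgs := geom_sum_mul (toLs η ^ ((5 - (l : ℕ)) + m)) 5
      rw [← pow_mul, mul_comm _ 5, pow_mul, hη1.pow_eq_one, one_pow, sub_self, mul_eq_zero]
        at hgs
      rw [hgs.resolve_right (sub_ne_zero.2 hne), zero_mul]
    · simp
  have hint : IsIntegral ℂ[X] (toLs (5 * r l) * X0 ^ (l : ℕ)) := by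
    rw [hsum]
    refine IsIntegral.sum _ fun k _ => IsIntegral.mul ?_ (isIntegral_of_rel (hzk k))
    rw [hη, ← map_pow, ← map_C_Fw, ← algebraMap_Ls]
    exact isIntegral_algebraMap
  have hinf : IsIntegral Oinf (toLs (5 * r l) * X0 ^ (l : ℕ) / toLs RatFunc.X ^ 2) := by
    rw [hsum, Finset.sum_div]
    refine IsIntegral.sum _ fun k _ => ?_
    rw [mul_div_assoc]
    refine IsIntegral.mul ?_ (isIntegral_inf_of_rel (hzk k))
    have hm : η ^ ((5 - (l : ℕ)) * k) ∈ Oinf := by
      refine pow_mem (mem_Oinf.2 (Or.inr ?_)) _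
      simp [hη]
    exact isIntegral_algebraMap (x := (⟨_, hm⟩ : Oinf))
  have hpow : (toLs (5 * r l) * X0 ^ (l : ℕ)) ^ 5 = toLs ((5 * r l) ^ 5 * uF ^ (l : ℕ)) := by
    rw [mul_pow, ← pow_mul, mul_comm (l : ℕ), pow_mul, hX]; simp only [map_mul, map_pow]
  obtain ⟨R, hR⟩ := poly_of_isIntegral (r := (5 * r l) ^ 5 * uF ^ (l : ℕ))
    (by rw [← hpow]; exact hint.pow 5)
  have hRinf : algebraMap ℂ[X] Fw R / RatFunc.X ^ 10 ∈ Oinf := by
    refine Oinf_of_isIntegral ?_
    have e : toLs (algebraMap ℂ[X] Fw R / RatFunc.X ^ 10)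
        = (toLs (5 * r l) * X0 ^ (l : ℕ) / toLs RatFunc.X ^ 2) ^ 5 := by
      rw [div_pow, hpow, ← pow_mul, map_div₀, map_pow, hR]
    rw [e]; exact hinf.pow 5
  have hl : uF ^ (l : ℕ) * uF ^ (5 - (l : ℕ)) = uF ^ 5 := by
    rw [← pow_add, Nat.add_sub_cancel' (by omega)]
  obtain ⟨N, hN⟩ := IsIntegrallyClosed.isIntegral_iff.1
    (show IsIntegral ℂ[X] (5 * r l * uF) from IsIntegral.of_pow (n := 5) (by norm_num) (by
      have e : (5 * r l * uF) ^ 5
          = algebraMap ℂ[X] Fw (R * uP ^ (5 - (l : ℕ))) := by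
        rw [map_mul, map_pow, hR, uP_map, mul_pow, mul_assoc ((5 * r l) ^ 5), hl]
      rw [e]; exact isIntegral_algebraMap))
  have hN5 : N ^ 5 = R * uP ^ (5 - (l : ℕ)) := by
    refine IsFractionRing.injective ℂ[X] Fw ?_
    rw [map_pow, hN, map_mul, map_pow, hR, uP_map, mul_pow, mul_assoc ((5 * r l) ^ 5), hl]
  obtain ⟨q, hq⟩ := uP_sep.isRadical 5 N (by
    rw [hN5]; exact Dvd.dvd.mul_left (dvd_pow_self _ (by omega)) _)
  refine ⟨C (1 / 5 : ℂ) * q, ?_, fun hq0 => ?_⟩
  · rw [hq, map_mul, uP_map] at hN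
    have : algebraMap ℂ[X] Fw q = 5 * r l := by
      refine mul_left_cancel₀ uF_ne ?_
      rw [hN]; ring
    rw [map_mul, this, map_C_Fw, map_div₀, map_one, map_ofNat]
    field_simp
  · have hRq : R = q ^ 5 * uP ^ (l : ℕ) := by
      have : N ^ 5 = q ^ 5 * uP ^ 5 := by rw [hq, mul_pow, mul_comm]
      have e : uP ^ 5 = uP ^ (l : ℕ) * uP ^ (5 - (l : ℕ)) := by
        rw [← pow_add, Nat.add_sub_cancel' (by omega)]
      rw [hN5, e, ← mul_assoc] at this
      exact mul_right_cancel₀ (pow_ne_zero _ uP_ne) this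
    have hq' : q ≠ 0 := fun h => hq0 (by rw [h, mul_zero])
    have hd := div_X_pow_mem.1 hRinf
    rw [hRq] at hd
    have hne : q ^ 5 * uP ^ (l : ℕ) ≠ 0 :=
      mul_ne_zero (pow_ne_zero _ hq') (pow_ne_zero _ uP_ne)
    have hd' := hd.resolve_left hne
    rw [natDegree_mul (pow_ne_zero _ hq') (pow_ne_zero _ uP_ne), natDegree_pow, natDegree_pow,
      natDegree_uP] at hd'
    rw [natDegree_C_mul (by norm_num)]
    omega

end

end P266.IrredField
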