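import Vale.Agent.P266.Curve
import Vale.Agent.P266.IrredField

/-!
P266: the curve is irreducible. On each branch the monomials `x^i y^j` (`i, j < 5`) are
independent over `ℂ(w)`.
-/

namespace P266

open Finset IrredField
open scoped RatFunc

noncomputable section

theorem toLs_C (c : ℂ) : toLs (RatFunc.C c) = HahnSeries.C c := by
  rw [← map_C_Fw, ← algebraMap_Ls]
  simp [Polynomial.algebraMap_hahnSeries_apply]

theorem toLs_poly (q : Polynomial ℂ) :
    toLs (algebraMap (Polynomial ℂ) Fw q) = HahnSeries.ofPowerSeries ℤ ℂ (q : PowerSeries ℂ) :=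
  (RatFunc.coe_coe q).symm

theorem toLs_X : toLs RatFunc.X = HahnSeries.single 1 1 := RatFunc.coe_X

theorem wK_toLs (p : Pt) : wK p = toLs RatFunc.X := toLs_X.symm

theorem toLs_uF : toLs uF = 1 - (HahnSeries.single 1 1 : IrredField.Ls) ^ 5 := by
  rw [← toLs_X, uF, map_sub, map_pow, map_one]

theorem xK_branch_pow (p : Pt) : (xK p : IrredField.Ls) ^ 5 = toLs uF := by
  have h := congrFun xK_pow p
  rw [toLs_uF]
  exact h

theorem s_branch_rel (p : Pt) : IrredField.Rel (xK p * yK p) := by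
  have hy := congrFun yK_pow p
  simp only [Pi.mul_apply, Pi.sub_apply, Pi.pow_apply, Pi.one_apply, Pi.ofNat_apply] at hy
  have hx := xK_branch_pow p
  rw [wK_toLs, show (1 : IrredField.Ls) - toLs RatFunc.X ^ 5 = toLs uF by
    rw [uF, map_sub, map_pow, map_one]] at hy
  simp only [IrredField.Rel]
  linear_combination (xK p) ^ 5 * hy + (toLs uF - toLs RatFunc.X *
    (1 - 12 * xK p * yK p - 30 * xK p ^ 2 * yK p ^ 2)) * hx

section Coefficients

variable (f g : PowerSeries ℂ)

theorem coeff_mul_zero' : PowerSeries.coeff 0 (f * g)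
    = PowerSeries.coeff 0 f * PowerSeries.coeff 0 g := by
  simp [PowerSeries.coeff_mul]

theorem coeff_mul_one' : PowerSeries.coeff 1 (f * g)
    = PowerSeries.coeff 0 f * PowerSeries.coeff 1 g
      + PowerSeries.coeff 1 f * PowerSeries.coeff 0 g := by
  simp [PowerSeries.coeff_mul, Nat.sum_antidiagonal_eq_sum_range_succ_mk, sum_range_succ]

theorem coeff_mul_two' : PowerSeries.coeff 2 (f * g)
    = PowerSeries.coeff 0 f * PowerSeries.coeff 2 g
      + PowerSeries.coeff 1 f * PowerSeries.coeff 1 g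
      + PowerSeries.coeff 2 f * PowerSeries.coeff 0 g := by
  simp [PowerSeries.coeff_mul, Nat.sum_antidiagonal_eq_sum_range_succ_mk, sum_range_succ]

theorem coeff_mul_three' : PowerSeries.coeff 3 (f * g)
    = PowerSeries.coeff 0 f * PowerSeries.coeff 3 g
      + PowerSeries.coeff 1 f * PowerSeries.coeff 2 g
      + PowerSeries.coeff 2 f * PowerSeries.coeff 1 g
      + PowerSeries.coeff 3 f * PowerSeries.coeff 0 g := by
  simp [PowerSeries.coeff_mul, Nat.sum_antidiagonal_eq_sum_range_succ_mk, sum_range_succ]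

end Coefficients

theorem coeff_xs (k : ℕ) (hk : k < 5) :
    PowerSeries.coeff k xs = if k = 0 then 1 else 0 := by
  have h := xs_unique (u := 1) (map_one _) (N := 5) (fun j hj => by
    rw [one_pow, map_sub, PowerSeries.coeff_X_pow, if_neg (show j ≠ 5 by omega), sub_zero]) k hk
  rw [← h, PowerSeries.coeff_one]

/-- The `w^3` coefficient of `ys`. -/
theorem coeff_ys_three {s : ℂ} (hs : 90 * s ^ 5 = 1) :
    125 * PowerSeries.coeff 3 (ys s) = -(246 + 156 * s + 798 * s ^ 2 + 432 * s ^ 3) := by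
  obtain ⟨h0, h⟩ := ys_spec s
  have c0 : PowerSeries.coeff 0 (ys s) = 1 := by
    rwa [PowerSeries.coeff_zero_eq_constantCoeff_apply]
  have x0 := coeff_xs 0 (by norm_num)
  have x1 := coeff_xs 1 (by norm_num)
  have x2 := coeff_xs 2 (by norm_num)
  have x3 := coeff_xs 3 (by norm_num)
  simp only [yEqn, pow_succ, pow_zero, one_mul] at h
  have e1 := congrArg (PowerSeries.coeff 1) h
  have e2 := congrArg (PowerSeries.coeff 2) h
  have e3 := congrArg (PowerSeries.coeff 3) h
  simp [coeff_mul_zero', coeff_mul_one', coeff_mul_two', coeff_mul_three', c0, x0, x1, x2, x3,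
    h0, xs_spec.1, PowerSeries.coeff_C, PowerSeries.coeff_X, PowerSeries.coeff_one] at e1 e2 e3
  generalize PowerSeries.coeff 1 (ys s) = u at e1 e2 e3
  generalize PowerSeries.coeff 2 (ys s) = v at e2 e3
  generalize PowerSeries.coeff 3 (ys s) = z at e3 ⊢
  have hu : 5 * u = -1 + 12 * s + 30 * s ^ 2 := by linear_combination e1
  have hu' : u = (-1 + 12 * s + 30 * s ^ 2) / 5 := by linear_combination hu / 5
  subst hu'
  have hv : v = ((-2 + 36 * s - 84 * s ^ 2 - 360 * s ^ 3) / 25) := by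
    linear_combination e2 / 5
  subst hv
  linear_combination 25 * e3 - (240 + 300 * s) * hs

theorem ps_pow (p : Pt) : 90 * ps p ^ 5 = 1 := by
  rw [ps, mul_pow, pa_pow, one_mul, pb_pow]

theorem cubic_ne {s : ℂ} (hs : 90 * s ^ 5 = 1) : 246 + 156 * s + 798 * s ^ 2 + 432 * s ^ 3 ≠ 0 := by
  intro h
  have : (1 : ℂ) = 0 := by
    linear_combination ((18472816890 / 5114286305489 : ℂ) + -18681469095 / 5114286305489 * s
      + -51208358820 / 5114286305489 * s ^ 2 + 60634387875 / 5114286305489 * s ^ 3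
      + 160470327150 / 5114286305489 * s ^ 4) * h - ((569973350549 / 5114286305489 : ℂ) + 1713881962530 / 5114286305489 * s
      + 770257570320 / 5114286305489 * s ^ 2) * hs
  exact one_ne_zero this

theorem not_mem_branch (p : Pt) (r : Fin 5 → Fw) :
    xK p * yK p ≠ ∑ l : Fin 5, toLs (r l) * (xK p) ^ (l : ℕ) := by
  intro h
  have hlow := low_degree (xK_branch_pow p) (r := r) (h ▸ s_branch_rel p)
  choose q hq hdeg using hlow
  have e : HahnSeries.ofPowerSeries ℤ ℂ (PowerSeries.C (ps p) * (xs * ys (ps p)))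
      = HahnSeries.ofPowerSeries ℤ ℂ
        (∑ l : Fin 5, (q l : PowerSeries ℂ) * (PowerSeries.C (pa p) * xs) ^ (l : ℕ)) := by
    simp only [← hq, toLs_poly] at h
    rw [map_sum]
    simp only [map_mul, map_pow] at h ⊢
    calc _ = xK p * yK p := by
          simp only [xK, yK, ps, map_mul]; ring
      _ = _ := h.trans (sum_congr rfl fun l _ => by simp only [xK, map_mul])
  have e' := congrArg (PowerSeries.coeff 3) (HahnSeries.ofPowerSeries_injective e)
  have x0 := coeff_xs 0 (by norm_num)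
  have x1 := coeff_xs 1 (by norm_num)
  have x2 := coeff_xs 2 (by norm_num)
  have x3 := coeff_xs 3 (by norm_num)
  have hq3 : ∀ l, (q l).coeff 3 = 0 := fun l => by
    rcases eq_or_ne (q l) 0 with h0 | h0
    · rw [h0, Polynomial.coeff_zero]
    · exact Polynomial.coeff_eq_zero_of_natDegree_lt (by have := hdeg l h0; omega)
  have hpx : ∀ (l : ℕ) (k : ℕ), k < 4 →
      PowerSeries.coeff k ((PowerSeries.C (pa p) * xs) ^ l) = if k = 0 then pa p ^ l else 0 := by
    intro l
    induction l with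
    | zero => intro k _; simp [PowerSeries.coeff_one]
    | succ n ih =>
      intro k hk
      rw [pow_succ]
      interval_cases k <;>
        simp [coeff_mul_zero', coeff_mul_one', coeff_mul_two', coeff_mul_three', ih,
          PowerSeries.coeff_C, x0, x1, x2, x3, pow_succ]
  simp [coeff_mul_zero', coeff_mul_one', coeff_mul_two', coeff_mul_three', map_sum,
    PowerSeries.coeff_C, hpx, hq3, Polynomial.coeff_coe, x0, x1, x2, x3] at e'
  rcases e' with h1 | h1
  · simpa [h1] using ps_pow p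
  · have := coeff_ys_three (ps_pow p)
    rw [h1, mul_zero, eq_comm, neg_eq_zero] at this
    exact cubic_ne (ps_pow p) this

theorem shift_mod : ∀ i j : Fin 5,
    ((i : ℕ) + 4 - j) % 5 = ((i + 4 - j : Fin 5) : ℕ) ∧ (i + 4 - j) + j + 1 = i := by decide

theorem shift_inv : ∀ i j : Fin 5, (i + j + 1) + 4 - j = i := by decide

/-- On one branch the monomials `x^i y^j`, `i, j < 5`, are independent over `ℂ(w)`. -/
theorem branch_indep (p : Pt) (c : Fin 5 → Fin 5 → Fw)
    (h : ∑ i : Fin 5, ∑ j : Fin 5, toLs (c i j) * xK p ^ (i : ℕ) * yK p ^ (j : ℕ) = 0) :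
    c = 0 := by
  have hX := xK_branch_pow p
  rcases indep_or_mem hX (s_branch_rel p) with hind | ⟨r, hr⟩
  swap
  · exact absurd hr (not_mem_branch p r)
  let d : Fin 5 → Fin 5 → Fw := fun m j =>
    c (m + j + 1) j * uF ^ ((((m + j + 1 : Fin 5) : ℕ) + 4 - j) / 5)
  have key : ∑ m : Fin 5, (∑ j : Fin 5, toLs (d m j) * (xK p * yK p) ^ (j : ℕ))
      * xK p ^ (m : ℕ) = 0 := by
    simp only [sum_mul]
    rw [sum_comm] at h ⊢
    have e : xK p ^ 4 *
        ∑ j : Fin 5, ∑ i : Fin 5, toLs (c i j) * xK p ^ (i : ℕ) * yK p ^ (j : ℕ) = 0 := by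
      rw [h, mul_zero]
    refine Eq.trans ?_ e
    rw [mul_sum]
    refine sum_congr rfl fun j _ => ?_
    rw [mul_sum]
    refine Fintype.sum_equiv ⟨fun m => m + j + 1, fun i => i + 4 - j,
      fun m => shift_inv m j, fun i => (shift_mod i j).2⟩ _ _ fun m => ?_
    obtain ⟨hm, -⟩ := shift_mod (m + j + 1) j
    rw [shift_inv m j] at hm
    show toLs (d m j) * (xK p * yK p) ^ (j : ℕ) * xK p ^ (m : ℕ) =
      xK p ^ 4 * (toLs (c (m + j + 1) j) * xK p ^ ((m + j + 1 : Fin 5) : ℕ) * yK p ^ (j : ℕ))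
    simp only [d]
    rw [map_mul, map_pow, ← hX, ← pow_mul]
    have hjle : (j : ℕ) ≤ 4 := by omega
    have hd := Nat.mod_add_div (((m + j + 1 : Fin 5) : ℕ) + 4 - j) 5
    rw [hm] at hd
    generalize ((m + j + 1 : Fin 5) : ℕ) = i at hd ⊢
    have hpow : xK p ^ (4 : ℕ) * xK p ^ i
        = xK p ^ (5 * ((i + 4 - (j : ℕ)) / 5)) * xK p ^ (m : ℕ) * xK p ^ (j : ℕ) := by
      rw [← pow_add, ← pow_add, ← pow_add]
      congr 1
      omega
    linear_combination (-(toLs (c (m + j + 1) j) * yK p ^ (j : ℕ))) * hpow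
  have hd := hind d key
  funext i j
  have := congrFun (congrFun hd (i + 4 - j)) j
  simp only [d, (shift_mod i j).2, Pi.zero_apply] at this
  exact (mul_eq_zero.1 this).resolve_right (pow_ne_zero _ uF_ne)

/-- The same with polynomial coefficients. -/
theorem branch_indep_poly (p : Pt) (c : Fin 5 → Fin 5 → Polynomial ℂ)
    (h : ∑ i : Fin 5, ∑ j : Fin 5,
      HahnSeries.ofPowerSeries ℤ ℂ (c i j : PowerSeries ℂ) * xK p ^ (i : ℕ) * yK p ^ (j : ℕ) = 0) :
    c = 0 := by
  have := branch_indep p (fun i j => algebraMap (Polynomial ℂ) Fw (c i j))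
    (by simpa only [toLs_poly] using h)
  funext i j
  simpa using congrFun (congrFun this i) j

/-- The coefficient polynomial of a combination of standard monomials. -/
def monoPoly (c : Fin 5 → Fin 5 → ℕ → ℂ) (N : ℕ) (i j : Fin 5) : Polynomial ℂ :=
  ∑ k ∈ range N, Polynomial.monomial k (c i j k)

theorem coeff_monoPoly (c : Fin 5 → Fin 5 → ℕ → ℂ) (N : ℕ) (i j : Fin 5) (k : ℕ) :
    (monoPoly c N i j).coeff k = if k < N then c i j k else 0 := by
  simp [monoPoly, Polynomial.coeff_monomial]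

theorem mono_sum_branch (c : Fin 5 → Fin 5 → ℕ → ℂ) (N : ℕ) (p : Pt) :
    (∑ i : Fin 5, ∑ j : Fin 5, ∑ k ∈ range N, c i j k • mono i j (k : ℤ)) p
      = ∑ i : Fin 5, ∑ j : Fin 5, HahnSeries.ofPowerSeries ℤ ℂ (monoPoly c N i j : PowerSeries ℂ)
          * xK p ^ (i : ℕ) * yK p ^ (j : ℕ) := by
  rw [Finset.sum_apply]
  refine sum_congr rfl fun i _ => ?_
  rw [Finset.sum_apply]
  refine sum_congr rfl fun j _ => ?_
  rw [Finset.sum_apply, ← toLs_poly, monoPoly, map_sum, map_sum, sum_mul, sum_mul]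
  refine sum_congr rfl fun k _ => ?_
  rw [toLs_poly, Polynomial.coe_monomial, HahnSeries.ofPowerSeries_apply]
  show c i j k • (xK p ^ (i : ℕ) * yK p ^ (j : ℕ) * HahnSeries.single (k : ℤ) 1) = _
  rw [← HahnSeries.C_mul_eq_smul, ← HahnSeries.ofPowerSeries_apply,
    PowerSeries.monomial_eq_C_mul_X_pow, map_mul, map_pow, HahnSeries.ofPowerSeries_C,
    HahnSeries.ofPowerSeries_X, HahnSeries.single_pow]
  simp only [nsmul_eq_mul, mul_one, one_pow]
  ring

/-- A combination of standard monomials that vanishes on one branch is trivial. -/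
theorem mono_indep_branch (p : Pt) (N : ℕ) (c : Fin 5 → Fin 5 → ℕ → ℂ)
    (h : (∑ i : Fin 5, ∑ j : Fin 5, ∑ k ∈ range N, c i j k • mono i j (k : ℤ)) p = 0) :
    ∀ i j, ∀ k < N, c i j k = 0 := by
  rw [mono_sum_branch] at h
  intro i j k hk
  have h' := congrArg (fun q => Polynomial.coeff q k)
    (congrFun (congrFun (branch_indep_poly p _ h) i) j)
  simpa [coeff_monoPoly, hk] using h'

/-- A regular section that vanishes on one branch vanishes. -/
theorem eq_zero_of_branch {n : ℤ} {f : K} (hf : f ∈ G n) (hr : Reg f) {p : Pt} (h : f p = 0) :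
    f = 0 := by
  obtain ⟨c, -, hc⟩ := reg_mem_G hf hr
  have h0 := mono_indep_branch p _ c (hc ▸ h)
  rw [hc]
  exact sum_eq_zero fun i _ => sum_eq_zero fun j _ => sum_eq_zero fun k hk => by
    rw [h0 i j k (mem_range.1 hk)]; exact zero_smul ℂ (mono i j (k : ℤ))

end

end P266
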