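import Vale.Agent.P266.Smooth
import Vale.Agent.P266.Irred

/-!
P266: the sections of degree zero form an integrally closed domain, since the affine curve
in the chart `w = 1` has no singular point.
-/

namespace P266

open MvPolynomial (X C pderiv aeval eval)

noncomputable section

theorem eq_zero_of_branch' {n : ℤ} {f : K} (hf : f ∈ G n) {p : Pt} (h : f p = 0) : f = 0 := by
  obtain ⟨N, hN⟩ : ∃ N : ℕ, ∀ p, ∀ k < -(N : ℤ), (f p).coeff k = 0 := by
    refine ⟨Finset.univ.sup fun p => (-(f p).order).toNat, fun q k hk => ?_⟩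
    refine HahnSeries.coeff_eq_zero_of_lt_order (lt_of_lt_of_le hk ?_)
    have := Finset.le_sup (f := fun p => (-(f p).order).toNat) (Finset.mem_univ q)
    omega
  have hr : Reg (wpow N * f) := by
    intro q k hk
    show (HahnSeries.single (N : ℤ) (1 : ℂ) * f q).coeff k = 0
    rw [HahnSeries.coeff_single_mul, one_mul]
    exact hN q _ (by omega)
  have h0 := eq_zero_of_branch (mul_mem_G (wpow_mem_G N) hf) hr (p := p) (by simp [h])
  calc f = wpow (-(N : ℤ)) * (wpow N * f) := by
        rw [← mul_assoc, wpow_mul, neg_add_cancel, wpow_zero, one_mul]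
    _ = 0 := by rw [h0, mul_zero]

/-- The three affine coordinates. -/
def chV : Fin 3 → K := ![chX, chY, iwK]

/-- The equations satisfied on the affine curve `w ≠ 0`. -/
def chI : Ideal (MvPolynomial (Fin 3) ℂ) := RingHom.ker (aeval (R := ℂ) chV)

/-- The coordinate ring of the affine curve `w ≠ 0`. -/
abbrev ChRing : Type := MvPolynomial (Fin 3) ℂ ⧸ chI

/-- A polynomial as a function on the affine curve. -/
def chPol : MvPolynomial (Fin 3) ℂ →ₐ[ℂ] ChRing := Ideal.Quotient.mkₐ ℂ chI

/-- A function on the affine curve seen on the branches. -/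
def chMap : ChRing →ₐ[ℂ] K := Ideal.kerLiftAlg (aeval (R := ℂ) chV)

theorem chPol_surjective : Function.Surjective chPol := Ideal.Quotient.mkₐ_surjective _ _

theorem chMap_pol (P : MvPolynomial (Fin 3) ℂ) : chMap (chPol P) = aeval chV P := rfl

theorem chMap_injective : Function.Injective chMap := Ideal.kerLiftAlg_injective _

theorem chV_mem (i : Fin 3) : chV i ∈ G 0 := by
  fin_cases i
  · simpa [chV, chX, mono, iwK_eq] using
      mono_mem_G (i := 1) (j := 0) (k := -1) (n := 0) (by norm_num)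
  · simpa [chV, chY, mono, iwK_eq] using
      mono_mem_G (i := 0) (j := 1) (k := -1) (n := 0) (by norm_num)
  · exact G_mono (by norm_num) iwK_mem_G

theorem chMap_mem (a : ChRing) : chMap a ∈ G 0 := by
  obtain ⟨P, rfl⟩ := chPol_surjective a
  rw [chMap_pol]
  induction P using MvPolynomial.induction_on with
  | C r =>
    rw [MvPolynomial.aeval_C, Algebra.algebraMap_eq_smul_one]
    exact Submodule.smul_mem _ _ (one_mem_G le_rfl)
  | add P Q hP hQ => rw [map_add]; exact Submodule.add_mem _ hP hQ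
  | mul_X P i hP =>
    rw [map_mul, MvPolynomial.aeval_X]
    simpa using mul_mem_G hP (chV_mem i)

theorem exists_chMap {f : K} (hf : f ∈ G 0) : ∃ a : ChRing, chMap a = f := by
  have hle : G 0 ≤ chMap.toLinearMap.range := by
    rw [G, Submodule.span_le]
    rintro _ ⟨i, j, k, hk, rfl⟩
    obtain ⟨m, hm⟩ : ∃ m : ℕ, k = -((i : ℤ) + j + m) := ⟨(-((i : ℤ) + j + k)).toNat, by omega⟩
    refine ⟨chPol (X 0 ^ i * X 1 ^ j * X 2 ^ m), ?_⟩
    show chMap _ = _
    simp only [chMap_pol, map_mul, map_pow, MvPolynomial.aeval_X, chV, Matrix.cons_val_zero,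
      Matrix.cons_val_one, Matrix.cons_val]
    rw [chX, chY, mul_pow, mul_pow, iwK_eq, wpow_pow, wpow_pow, wpow_pow, mono, hm,
      show -((i : ℤ) + j + m) = (i : ℤ) * -1 + ((j : ℤ) * -1 + (m : ℤ) * -1) by ring,
      ← wpow_mul, ← wpow_mul]
    ring
  exact hle hf

/-- The value on one branch. -/
def chEval (p : Pt) : ChRing →+* LaurentSeries ℂ :=
  (Pi.evalRingHom _ p).comp chMap.toRingHom

theorem chEval_injective (p : Pt) : Function.Injective (chEval p) := by
  rw [injective_iff_map_eq_zero]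
  intro a h
  refine chMap_injective ?_
  rw [eq_zero_of_branch' (chMap_mem a) (p := p) h, map_zero]

instance : IsDomain ChRing := (chEval_injective (0, 0)).isDomain _

/-- The first equation of the affine curve. -/
def chF : MvPolynomial (Fin 3) ℂ := X 0 ^ 5 - X 2 ^ 5 + 1

/-- The second equation of the affine curve. -/
def chG : MvPolynomial (Fin 3) ℂ :=
  C 90 * X 1 ^ 5 - X 2 ^ 5 + 1 + X 2 ^ 4 - C 12 * X 0 * X 1 * X 2 ^ 2
    - C 30 * X 0 ^ 2 * X 1 ^ 2

theorem chPol_F : chPol chF = 0 := by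
  apply chMap_injective
  rw [chMap_pol, map_zero]
  simpa [chF, chV] using chart_f

theorem chPol_G : chPol chG = 0 := by
  apply chMap_injective
  rw [chMap_pol, map_zero]
  simp only [chG, chV, map_add, map_sub, map_mul, map_pow, map_one, MvPolynomial.aeval_X,
    map_ofNat, Matrix.cons_val_zero, Matrix.cons_val_one, Matrix.cons_val]
  exact chart_g

section point

variable (v : Fin 3 → ℂ)

/-- A coordinate minus its value at a point. -/
def chU (i : Fin 3) : ChRing := chPol (X i - C (v i))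

/-- The ideal of a point. -/
def chIdeal : Ideal ChRing := Ideal.span (Set.range (chU v))

theorem chU_mem (i : Fin 3) : chU v i ∈ chIdeal v := Ideal.subset_span ⟨i, rfl⟩

theorem smul_mem_chIdeal {I : Ideal ChRing} (c : ℂ) {a : ChRing} (h : a ∈ I) : c • a ∈ I :=
  Submodule.smul_of_tower_mem I c h

theorem smul_chRing (c : ℂ) (x : ChRing) : c • x = algebraMap ℂ ChRing c * x := Algebra.smul_def c x

theorem chPol_taylor (P : MvPolynomial (Fin 3) ℂ) :
    chPol P - algebraMap ℂ ChRing (eval v P) - ∑ i, eval v (pderiv i P) • chU v i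
      ∈ chIdeal v * chIdeal v := by
  induction P using MvPolynomial.induction_on with
  | C r => rw [← MvPolynomial.algebraMap_eq, AlgHom.commutes]; simp
  | add P Q hP hQ =>
    convert add_mem hP hQ using 1
    simp only [map_add, add_smul, Finset.sum_add_distrib]
    ring
  | mul_X P i hP =>
    have hlin : chPol P - algebraMap ℂ ChRing (eval v P) ∈ chIdeal v := by
      have h1 := (Ideal.mul_le_right : chIdeal v * chIdeal v ≤ chIdeal v) hP
      have h2 : ∑ j, eval v (pderiv j P) • chU v j ∈ chIdeal v :=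
        Ideal.sum_mem _ fun j _ => smul_mem_chIdeal _ (chU_mem v j)
      have := add_mem h1 h2
      rwa [sub_add_cancel] at this
    have h := add_mem (Ideal.mul_mem_mul hlin (chU_mem v i))
      ((chIdeal v * chIdeal v).mul_mem_left (algebraMap ℂ ChRing (v i)) hP)
    convert h using 1
    have hi : chPol (X i) = chU v i + algebraMap ℂ ChRing (v i) := by
      simp [chU, ← MvPolynomial.algebraMap_eq]
    simp only [map_mul, map_add, Derivation.leibniz, smul_eq_mul, MvPolynomial.pderiv_X,
      MvPolynomial.eval_X, hi, add_smul, Finset.sum_add_distrib]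
    rw [Finset.sum_eq_single i (fun j _ hj => by simp [hj.symm]) (by simp)]
    simp only [Pi.single_eq_same, map_one, mul_one, smul_chRing, map_mul, mul_assoc,
      ← Finset.mul_sum]
    ring

theorem exists_uniformiser (hF : eval v chF = 0) (hG : eval v chG = 0) :
    ∃ π ∈ chIdeal v, chIdeal v ≤ Ideal.span {π} ⊔ chIdeal v * chIdeal v := by
  obtain ⟨X₀, rfl⟩ : ∃ x, v 0 = x := ⟨_, rfl⟩
  have e1 := chPol_taylor v chF
  have e2 := chPol_taylor v chG
  rw [chPol_F, hF] at e1
  rw [chPol_G, hG] at e2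
  simp only [map_zero, sub_zero, zero_sub, neg_mem_iff, Fin.sum_univ_three] at e1 e2
  simp only [chF, chG, map_add, map_sub, map_mul, map_pow, map_one, Derivation.map_one_eq_zero,
    MvPolynomial.pderiv_C, MvPolynomial.pderiv_X, Derivation.leibniz, Derivation.leibniz_pow,
    MvPolynomial.eval_X, MvPolynomial.eval_C, smul_eq_mul, nsmul_eq_mul, map_natCast, map_zero,
    Pi.single_apply, Fin.isValue, Fin.reduceEq, if_true, if_false] at e1 e2
  simp only [chF, chG, map_add, map_sub, map_mul, map_pow, map_one, MvPolynomial.eval_X,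
    MvPolynomial.eval_C] at hF hG
  norm_num at e1 e2
  obtain ⟨A, hA⟩ : ∃ A, A = v 0 ^ 4 := ⟨_, rfl⟩
  obtain ⟨Z, hZ⟩ : ∃ Z, Z = v 2 ^ 4 := ⟨_, rfl⟩
  obtain ⟨a, ha⟩ : ∃ a, a = -12 * v 1 * v 2 ^ 2 - 60 * v 0 * v 1 ^ 2 := ⟨_, rfl⟩
  obtain ⟨b, hb⟩ : ∃ b, b = 450 * v 1 ^ 4 - 12 * v 0 * v 2 ^ 2 - 60 * v 0 ^ 2 * v 1 := ⟨_, rfl⟩
  obtain ⟨c, hc⟩ : ∃ c, c = -5 * v 2 ^ 4 + 4 * v 2 ^ 3 - 24 * v 0 * v 1 * v 2 := ⟨_, rfl⟩
  replace e1 : A • chU v 0 + (-Z) • chU v 2 ∈ chIdeal v * chIdeal v := by
    convert smul_mem_chIdeal (1 / 5 : ℂ) e1 using 1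
    simp only [smul_add, smul_neg, neg_smul, smul_smul, hA, hZ]
    ring_nf
  replace e2 : a • chU v 0 + b • chU v 1 + c • chU v 2 ∈ chIdeal v * chIdeal v := by
    convert e2 using 1
    simp only [ha, hb, hc]
    ring_nf
  have key : ∀ π ∈ chIdeal v, (∀ j, chU v j ∈ Ideal.span {π} ⊔ chIdeal v * chIdeal v) →
      ∃ π ∈ chIdeal v, chIdeal v ≤ Ideal.span {π} ⊔ chIdeal v * chIdeal v := fun π hπ h =>
    ⟨π, hπ, Ideal.span_le.2 (by rintro _ ⟨j, rfl⟩; exact h j)⟩
  have solve : ∀ (J : Ideal ChRing) (r : ℂ) (x y : ChRing), r ≠ 0 → r • x + y ∈ J → y ∈ J →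
      x ∈ J := fun J r x y hr h hy => by
    have := smul_mem_chIdeal r⁻¹ ((add_mem_cancel_right hy).1 h)
    rwa [smul_smul, inv_mul_cancel₀ hr, one_smul] at this
  have inl : ∀ π : ChRing, π ∈ Ideal.span {π} ⊔ chIdeal v * chIdeal v := fun π =>
    Ideal.mem_sup_left (Ideal.mem_span_singleton_self π)
  by_cases h1 : A * b = 0
  swap
  · have f0 := solve _ A _ _ (left_ne_zero_of_mul h1) (Ideal.mem_sup_right e1)
      (smul_mem_chIdeal (-Z) (inl (chU v 2)))
    refine key _ (chU_mem v 2) fun j => ?_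
    fin_cases j
    · exact f0
    · refine solve _ b _ (a • chU v 0 + c • chU v 2) (right_ne_zero_of_mul h1) ?_
        (add_mem (smul_mem_chIdeal a f0) (smul_mem_chIdeal c (inl _)))
      convert Ideal.mem_sup_right e2 using 1
      simp only [smul_chRing, Fin.mk_one]
      ring
    · exact inl _
  by_cases h2 : Z * b = 0
  swap
  · have f2 := solve (Ideal.span {chU v 0} ⊔ chIdeal v * chIdeal v) (-Z) _ (A • chU v 0)
      (neg_ne_zero.2 (left_ne_zero_of_mul h2))
      (by rw [add_comm]; exact Ideal.mem_sup_right e1) (smul_mem_chIdeal A (inl _))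
    refine key _ (chU_mem v 0) fun j => ?_
    fin_cases j
    · exact inl _
    · refine solve _ b _ (a • chU v 0 + c • chU v 2) (right_ne_zero_of_mul h2) ?_
        (add_mem (smul_mem_chIdeal a (inl _)) (smul_mem_chIdeal c f2))
      convert Ideal.mem_sup_right e2 using 1
      simp only [smul_chRing, Fin.mk_one]
      ring
    · exact f2
  have h3 : Z * a + A * c ≠ 0 := fun h => no_common_zero (v 0) (v 1) (v 2) hF hG
    (by rw [← hA, ← hb]; exact h1) (by rw [← hZ, ← hb]; exact h2)
    (by rw [← ha, ← hc, ← hA, ← hZ]; exact h)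
  refine key _ (chU_mem v 1) fun j => ?_
  fin_cases j
  · refine solve _ (Z * a + A * c) _ ((Z * b) • chU v 1) h3 ?_ (smul_mem_chIdeal _ (inl _))
    convert Ideal.mem_sup_right (add_mem (smul_mem_chIdeal Z e2) (smul_mem_chIdeal c e1)) using 1
    simp only [smul_chRing, map_add, map_mul, map_neg, Fin.zero_eta, Fin.reduceFinMk]
    ring
  · exact inl _
  · refine solve _ (Z * a + A * c) _ ((A * b) • chU v 1) h3 ?_ (smul_mem_chIdeal _ (inl _))
    convert Ideal.mem_sup_right (sub_mem (smul_mem_chIdeal A e2) (smul_mem_chIdeal a e1)) using 1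
    simp only [smul_chRing, map_add, map_mul, map_neg, Fin.zero_eta, Fin.reduceFinMk]
    ring

end point

/-- The affine curve is normal. -/
theorem isIntegrallyClosed_chRing : IsIntegrallyClosed ChRing := by
  refine IsIntegrallyClosed.of_localization_maximal fun m _ _ => ?_
  obtain ⟨v, hv⟩ := MvPolynomial.isMaximal_iff_eq_vanishingIdeal_singleton.1
    (Ideal.comap_isMaximal_of_surjective chPol chPol_surjective (K := m))
  have hmem : ∀ P, chPol P ∈ m ↔ eval v P = 0 := fun P => by
    rw [← Ideal.mem_comap, hv, MvPolynomial.mem_vanishingIdeal_singleton_iff]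
    simp [MvPolynomial.aeval_eq_eval]
  have hm : m = chIdeal v := by
    refine le_antisymm (fun a ha => ?_) (Ideal.span_le.2 ?_)
    · obtain ⟨P, rfl⟩ := chPol_surjective a
      have h := chPol_taylor v P
      rw [(hmem P).1 ha, map_zero, sub_zero] at h
      have h' := add_mem ((Ideal.mul_le_right : chIdeal v * chIdeal v ≤ chIdeal v) h)
        (Ideal.sum_mem (chIdeal v) (t := Finset.univ) fun j _ =>
          smul_mem_chIdeal (eval v (pderiv j P)) (chU_mem v j))
      rwa [sub_add_cancel] at h'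
    · rintro _ ⟨i, rfl⟩
      exact (hmem _).2 (by simp)
  obtain ⟨π, hπ, hle⟩ := exists_uniformiser v
    ((hmem _).1 (by rw [chPol_F]; exact zero_mem _)) ((hmem _).1 (by rw [chPol_G]; exact zero_mem _))
  rw [← hm] at hπ hle
  let L := Localization.AtPrime m
  have hmax : IsLocalRing.maximalIdeal L = Ideal.span {algebraMap ChRing L π} := by
    have hmap : m.map (algebraMap ChRing L) = IsLocalRing.maximalIdeal L :=
      IsLocalization.AtPrime.map_eq_maximalIdeal m L
    refine le_antisymm ?_ ?_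
    · refine Submodule.le_of_le_smul_of_le_jacobson_bot (R := L) (M := L)
        (I := IsLocalRing.maximalIdeal L) (IsNoetherian.noetherian _)
        (IsLocalRing.maximalIdeal_le_jacobson (R := L) ⊥) ?_
      have h := Ideal.map_mono (f := algebraMap ChRing L) hle
      rwa [Ideal.map_sup, Ideal.map_mul, Ideal.map_span, Set.image_singleton, hmap,
        ← smul_eq_mul] at h
    · rw [Ideal.span_singleton_le_iff_mem, ← hmap]
      exact Ideal.mem_map_of_mem _ hπ
  have : IsPrincipalIdealRing L :=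
    have hp : (IsLocalRing.maximalIdeal L).IsPrincipal := ⟨⟨algebraMap ChRing L π, hmax⟩⟩
    ((tfae_of_isNoetherianRing_of_isLocalRing_of_isDomain L).out 4 0 rfl rfl).1 hp
  infer_instance

theorem G_complete {a c : K} {m n : ℤ} (hc : c ∈ G m) (hc0 : c ≠ 0)
    (h : ∀ k : ℕ, c * a ^ k ∈ G (m + k * n)) : a ∈ G n := by
  obtain ⟨a', rfl⟩ : ∃ a', a = wpow n * a' :=
    ⟨wpow (-n) * a, by rw [← mul_assoc, wpow_mul, add_neg_cancel, wpow_zero, one_mul]⟩
  obtain ⟨c', rfl⟩ : ∃ c', c = wpow m * c' :=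
    ⟨wpow (-m) * c, by rw [← mul_assoc, wpow_mul, add_neg_cancel, wpow_zero, one_mul]⟩
  have h0 : ∀ k : ℕ, c' * a' ^ k ∈ G 0 := fun k => by
    have := mul_mem_G (wpow_mem_G (-(m + k * n))) (h k)
    rw [neg_add_cancel] at this
    convert this using 1
    rw [mul_pow, wpow_pow]
    calc c' * a' ^ k = (wpow (-(m + k * n)) * (wpow m * wpow (k * n))) * (c' * a' ^ k) := by
          rw [wpow_mul, wpow_mul, neg_add_cancel, wpow_zero, one_mul]
      _ = _ := by ring
  choose e he using fun k => exists_chMap (h0 k)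
  have he0 : e 0 ≠ 0 := fun hz => hc0 (by
    have hz' := he 0
    rw [hz, map_zero, pow_zero, mul_one] at hz'
    rw [← hz', mul_zero])
  suffices hs : ∃ b : ChRing, chMap b = a' by
    obtain ⟨b, rfl⟩ := hs
    simpa using mul_mem_G (wpow_mem_G n) (chMap_mem b)
  let F := FractionRing ChRing
  let x : F := algebraMap ChRing F (e 1) / algebraMap ChRing F (e 0)
  have hd : algebraMap ChRing F (e 0) ≠ 0 :=
    (map_ne_zero_iff _ (IsFractionRing.injective ChRing F)).2 he0
  have hx : IsAlmostIntegral ChRing x := by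
    refine ⟨e 0, mem_nonZeroDivisors_of_ne_zero he0, fun k => ⟨e k, ?_⟩⟩
    have hk : e k * e 0 ^ k = e 0 * e 1 ^ k := chMap_injective (by
      simp only [map_mul, map_pow, he, pow_zero, pow_one, mul_one]
      ring)
    rw [Algebra.smul_def, div_pow, eq_comm, ← mul_div_assoc,
      div_eq_iff (pow_ne_zero _ hd), ← map_pow, ← map_pow, ← map_mul, ← map_mul, hk]
  have := isIntegrallyClosed_chRing
  obtain ⟨b, hb⟩ := IsIntegrallyClosed.isIntegral_iff.1 hx.isIntegral
  refine ⟨b, funext fun p => ?_⟩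
  have hb' : b * e 0 = e 1 := IsFractionRing.injective ChRing F (by
    rw [map_mul, hb, div_mul_cancel₀ _ hd])
  have hp := congrFun (congrArg chMap hb') p
  have hne : (c' p : LaurentSeries ℂ) ≠ 0 := fun hz => he0 (chEval_injective p (by
    show chMap (e 0) p = chEval p 0
    rw [he, map_zero]; simp [hz]))
  rw [map_mul, he, he, pow_zero, mul_one, pow_one] at hp
  simp only [Pi.mul_apply] at hp
  rw [mul_comm] at hp
  exact mul_left_cancel₀ hne hp

end

end P266
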