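import Vale.Agent.P266.Gauge

/-!
P266: a kernel-checkable test for identities of truncated polynomials in (s, w),
by evaluation at a large integer.
-/

namespace P266

open Polynomial

/-- Expressions in integer polynomials in `s` (inner list) and `w` (outer list). -/
inductive Ex : Type
  | lit (L : List (List ℤ))
  | add (a b : Ex)
  | sub (a b : Ex)
  | mul (a b : Ex)

/-- Horner evaluation of a list of integers. -/
def hor (B : ℤ) : List ℤ → ℤ
  | [] => 0
  | a :: l => a + B * hor B l

/-- Horner evaluation of a list of rows. -/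
def hor2 (B W : ℤ) : List (List ℤ) → ℤ
  | [] => 0
  | r :: l => hor B r + W * hor2 B W l

/-- The value of an expression at `s = B`, `w = W`. -/
def Ex.num (B W : ℤ) : Ex → ℤ
  | .lit L => hor2 B W L
  | .add a b => a.num B W + b.num B W
  | .sub a b => a.num B W - b.num B W
  | .mul a b => a.num B W * b.num B W

/-- Sum of absolute values of a list. -/
def abs1 : List ℤ → ℕ
  | [] => 0
  | a :: l => a.natAbs + abs1 l

/-- Sum of absolute values of all entries. -/
def abs2 : List (List ℤ) → ℕ
  | [] => 0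
  | r :: l => abs1 r + abs2 l

/-- A bound for the coefficients. -/
def Ex.bnd : Ex → ℕ
  | .lit L => abs2 L
  | .add a b => a.bnd + b.bnd
  | .sub a b => a.bnd + b.bnd
  | .mul a b => a.bnd * b.bnd

/-- The largest row length. -/
def maxLen : List (List ℤ) → ℕ
  | [] => 0
  | r :: l => max r.length (maxLen l)

/-- A strict bound for the degree in `s`. -/
def Ex.sdeg : Ex → ℕ
  | .lit L => maxLen L
  | .add a b => max a.sdeg b.sdeg
  | .sub a b => max a.sdeg b.sdeg
  | .mul a b => a.sdeg + b.sdeg - 1

/-- The first `N` powers of `w` in `e` vanish identically. -/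
def Ex.chk (e : Ex) (M N : ℕ) : Bool :=
  decide (e.bnd < 2 ^ M) && decide (e.sdeg < 16) &&
    decide (e.num (2 ^ (M + 1) : ℤ) ((2 ^ (M + 1) : ℤ) ^ 16) % (((2 ^ (M + 1) : ℤ) ^ 16) ^ N) = 0)

noncomputable section

/-- A list as a polynomial. -/
def pol : List ℤ → ℤ[X]
  | [] => 0
  | a :: l => C a + X * pol l

/-- A list of rows as a polynomial in `w` over polynomials in `s`. -/
def pol2 : List (List ℤ) → ℤ[X][X]
  | [] => 0
  | r :: l => C (pol r) + X * pol2 l

/-- The polynomial of an expression. -/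
def Ex.poly : Ex → ℤ[X][X]
  | .lit L => pol2 L
  | .add a b => a.poly + b.poly
  | .sub a b => a.poly - b.poly
  | .mul a b => a.poly * b.poly

theorem eval_pol (B : ℤ) (l : List ℤ) : (pol l).eval B = hor B l := by
  induction l with
  | nil => simp [pol, hor]
  | cons a l ih => simp [pol, hor, ih]

theorem Ex.eval_poly (B W : ℤ) (e : Ex) :
    (e.poly.eval₂ (evalRingHom B) W) = e.num B W := by
  induction e with
  | lit L =>
    show (pol2 L).eval₂ _ W = hor2 B W L
    induction L with
    | nil => simp [pol2, hor2]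
    | cons r L ih => simp [pol2, hor2, ih, eval_pol]
  | add a b ha hb => simp [Ex.poly, Ex.num, ha, hb]
  | sub a b ha hb => simp [Ex.poly, Ex.num, ha, hb]
  | mul a b ha hb => simp [Ex.poly, Ex.num, ha, hb]

/-- The `ℓ¹` norm of a polynomial. -/
def nrm (p : ℤ[X]) : ℕ := ∑ i ∈ p.support, (p.coeff i).natAbs

/-- The `ℓ¹` norm of a polynomial over polynomials. -/
def nrm2 (p : ℤ[X][X]) : ℕ := ∑ i ∈ p.support, nrm (p.coeff i)

theorem nrm_eq {p : ℤ[X]} {s : Finset ℕ} (h : p.support ⊆ s) :
    nrm p = ∑ i ∈ s, (p.coeff i).natAbs :=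
  Finset.sum_subset h fun i _ hi => by simp [Polynomial.notMem_support_iff.1 hi]

theorem nrm_zero : nrm 0 = 0 := by simp [nrm]

theorem nrm2_eq {p : ℤ[X][X]} {s : Finset ℕ} (h : p.support ⊆ s) :
    nrm2 p = ∑ i ∈ s, nrm (p.coeff i) :=
  Finset.sum_subset h fun i _ hi => by simp [Polynomial.notMem_support_iff.1 hi, nrm_zero]

theorem nrm_add (p q : ℤ[X]) : nrm (p + q) ≤ nrm p + nrm q := by
  classical
  rw [nrm_eq (Polynomial.support_add (p := p) (q := q)), nrm_eq (Finset.subset_union_left (s₂ := q.support)),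
    nrm_eq (Finset.subset_union_right (s₁ := p.support)), ← Finset.sum_add_distrib]
  exact Finset.sum_le_sum fun i _ => by rw [coeff_add]; exact Int.natAbs_add_le _ _

theorem nrm_neg (p : ℤ[X]) : nrm (-p) = nrm p := by
  simp [nrm, Polynomial.support_neg]

theorem nrm_monomial (n : ℕ) (a : ℤ) : nrm (monomial n a) = a.natAbs := by
  rw [nrm_eq (Polynomial.support_monomial_subset n a)]
  simp

theorem nrm_sum {ι : Type*} (s : Finset ι) (F : ι → ℤ[X]) :
    nrm (∑ i ∈ s, F i) ≤ ∑ i ∈ s, nrm (F i) :=
  Finset.le_sum_of_subadditive nrm nrm_zero.le nrm_add s F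

theorem nrm_mul (p q : ℤ[X]) : nrm (p * q) ≤ nrm p * nrm q := by
  classical
  have e : p * q = ∑ i ∈ p.support, ∑ j ∈ q.support, monomial (i + j) (p.coeff i * q.coeff j) := by
    conv_lhs => rw [p.as_sum_support, q.as_sum_support]
    simp [Finset.sum_mul_sum, monomial_mul_monomial]
  rw [e, show nrm p * nrm q = _ from Finset.sum_mul_sum _ _ _ _]
  refine (nrm_sum _ _).trans (Finset.sum_le_sum fun i _ => ?_)
  refine (nrm_sum _ _).trans (Finset.sum_le_sum fun j _ => ?_)
  rw [nrm_monomial, Int.natAbs_mul]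

theorem nrm2_add (p q : ℤ[X][X]) : nrm2 (p + q) ≤ nrm2 p + nrm2 q := by
  classical
  rw [nrm2_eq (Polynomial.support_add (p := p) (q := q)), nrm2_eq (Finset.subset_union_left (s₂ := q.support)),
    nrm2_eq (Finset.subset_union_right (s₁ := p.support)), ← Finset.sum_add_distrib]
  exact Finset.sum_le_sum fun i _ => by rw [coeff_add]; exact nrm_add _ _

theorem nrm2_neg (p : ℤ[X][X]) : nrm2 (-p) = nrm2 p := by
  simp [nrm2, Polynomial.support_neg, nrm_neg]

theorem nrm2_monomial (n : ℕ) (a : ℤ[X]) : nrm2 (monomial n a) = nrm a := by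
  rw [nrm2_eq (Polynomial.support_monomial_subset n a)]
  simp

theorem nrm2_zero : nrm2 0 = 0 := by simp [nrm2]

theorem nrm2_sum {ι : Type*} (s : Finset ι) (F : ι → ℤ[X][X]) :
    nrm2 (∑ i ∈ s, F i) ≤ ∑ i ∈ s, nrm2 (F i) :=
  Finset.le_sum_of_subadditive nrm2 nrm2_zero.le nrm2_add s F

theorem nrm2_mul (p q : ℤ[X][X]) : nrm2 (p * q) ≤ nrm2 p * nrm2 q := by
  classical
  have e : p * q = ∑ i ∈ p.support, ∑ j ∈ q.support, monomial (i + j) (p.coeff i * q.coeff j) := by
    conv_lhs => rw [p.as_sum_support, q.as_sum_support]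
    simp [Finset.sum_mul_sum, monomial_mul_monomial]
  rw [e, show nrm2 p * nrm2 q = _ from Finset.sum_mul_sum _ _ _ _]
  refine (nrm2_sum _ _).trans (Finset.sum_le_sum fun i _ => ?_)
  refine (nrm2_sum _ _).trans (Finset.sum_le_sum fun j _ => ?_)
  rw [nrm2_monomial]
  exact nrm_mul _ _

theorem nrm_pol (l : List ℤ) : nrm (pol l) ≤ abs1 l := by
  induction l with
  | nil => simp [pol, nrm_zero, abs1]
  | cons a l ih =>
    refine (nrm_add _ _).trans (Nat.add_le_add ?_ ?_)
    · rw [← monomial_zero_left, nrm_monomial]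
    · refine (nrm_mul _ _).trans ?_
      rw [← monomial_one_one_eq_X, nrm_monomial]
      simpa using ih

theorem Ex.nrm_poly (e : Ex) : nrm2 e.poly ≤ e.bnd := by
  induction e with
  | lit L =>
    show nrm2 (pol2 L) ≤ abs2 L
    induction L with
    | nil => simp [pol2, abs2, nrm2_zero]
    | cons r L ih =>
      refine (nrm2_add _ _).trans (Nat.add_le_add ?_ ?_)
      · rw [← monomial_zero_left, nrm2_monomial]; exact nrm_pol r
      · refine (nrm2_mul _ _).trans ?_
        rw [← monomial_one_one_eq_X, nrm2_monomial, ← monomial_zero_one, nrm_monomial]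
        simpa using ih
  | add a b ha hb => exact (nrm2_add _ _).trans (Nat.add_le_add ha hb)
  | sub a b ha hb =>
    show nrm2 (a.poly - b.poly) ≤ _
    rw [sub_eq_add_neg]
    exact (nrm2_add _ _).trans (Nat.add_le_add ha (by rwa [nrm2_neg]))
  | mul a b ha hb => exact (nrm2_mul _ _).trans (Nat.mul_le_mul ha hb)

theorem pol_coeff_of_le : ∀ (l : List ℤ) (n : ℕ), l.length ≤ n → (pol l).coeff n = 0
  | [], n, _ => by simp [pol]
  | a :: l, 0, h => by simp at h
  | a :: l, n + 1, h => by
    rw [pol, coeff_add, coeff_C_succ, coeff_X_mul, pol_coeff_of_le l n (by simpa using h), add_zero]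

/-- Degree below `d`. -/
def SBound (p : ℤ[X][X]) (d : ℕ) : Prop := ∀ i j, d ≤ j → (p.coeff i).coeff j = 0

theorem Ex.sbound (e : Ex) : SBound e.poly e.sdeg := by
  induction e with
  | lit L =>
    show SBound (pol2 L) (maxLen L)
    induction L with
    | nil => intro i j _; simp [pol2]
    | cons r L ih =>
      intro i j h
      simp only [maxLen] at h
      rcases i with _ | i
      · simp [pol2, pol_coeff_of_le r j (by omega)]
      · simp [pol2, ih i j (by omega)]
  | add a b ha hb =>
    intro i j h; simp only [Ex.sdeg] at h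
    simp [Ex.poly, ha i j (by omega), hb i j (by omega)]
  | sub a b ha hb =>
    intro i j h; simp only [Ex.sdeg] at h
    simp [Ex.poly, ha i j (by omega), hb i j (by omega)]
  | mul a b ha hb =>
    intro i j h; simp only [Ex.sdeg] at h
    simp only [Ex.poly, coeff_mul, finsetSum_coeff]
    refine Finset.sum_eq_zero fun u _ => Finset.sum_eq_zero fun v hv => ?_
    rw [Finset.HasAntidiagonal.mem_antidiagonal] at hv
    rcases Nat.lt_or_ge v.1 a.sdeg with h1 | h1
    · rw [hb _ _ (by omega), mul_zero]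
    · rw [ha _ _ h1, zero_mul]

/-- A polynomial with small coefficients whose value at `B` is divisible by `B^N`. -/
theorem coeff_eq_zero_of_dvd {B : ℤ} (hB : 0 < B) :
    ∀ (N : ℕ) (p : ℤ[X]), (∀ i < N, 2 * ((p.coeff i).natAbs : ℤ) < B) →
      B ^ N ∣ p.eval B → ∀ i < N, p.coeff i = 0
  | 0, _, _, _, _, h => by omega
  | N + 1, p, hb, hd, i, hi => by
    have h0 : p.coeff 0 = 0 := by
      have e : p.eval B = B * p.divX.eval B + p.coeff 0 := by
        conv_lhs => rw [← X_mul_divX_add p]
        simp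
      have h1 : B ∣ p.coeff 0 := by
        have : B ∣ p.eval B := (dvd_pow_self B (Nat.succ_ne_zero N)).trans hd
        rw [e] at this
        exact (dvd_add_right (dvd_mul_right _ _)).1 this
      refine Int.eq_zero_of_abs_lt_dvd h1 ?_
      have := hb 0 (by omega)
      rw [Int.abs_eq_natAbs]; omega
    have hd' : B ^ N ∣ p.divX.eval B := by
      have e : p.eval B = B * p.divX.eval B := by
        conv_lhs => rw [← X_mul_divX_add p]
        simp [h0]
      rw [e, pow_succ'] at hd
      exact Int.dvd_of_mul_dvd_mul_left hB.ne' hd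
    rcases i with _ | i
    · exact h0
    · have := coeff_eq_zero_of_dvd hB N p.divX
        (fun k hk => by rw [coeff_divX]; exact hb (k + 1) (by omega)) hd' i (by omega)
      rwa [coeff_divX] at this

theorem Ex.coeff_of_chk {e : Ex} {M N : ℕ} (h : e.chk M N = true) :
    ∀ i < N, e.poly.coeff i = 0 := by
  simp only [Ex.chk, Bool.and_eq_true, decide_eq_true_eq] at h
  obtain ⟨⟨hb, hs⟩, hm⟩ := h
  set B : ℤ := 2 ^ (M + 1) with hB
  have hB0 : 0 < B := by positivity
  have hsmall : ∀ i j, 2 * (((e.poly.coeff i).coeff j).natAbs : ℤ) < B := by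
    intro i j
    have h1 : ((e.poly.coeff i).coeff j).natAbs ≤ nrm (e.poly.coeff i) := by
      by_cases hj : j ∈ (e.poly.coeff i).support
      · exact Finset.single_le_sum (f := fun k => ((e.poly.coeff i).coeff k).natAbs)
          (fun _ _ => Nat.zero_le _) hj
      · simp [Polynomial.notMem_support_iff.1 hj]
    have h2 : nrm (e.poly.coeff i) ≤ nrm2 e.poly := by
      by_cases hi : i ∈ e.poly.support
      · exact Finset.single_le_sum (f := fun k => nrm (e.poly.coeff k))
          (fun _ _ => Nat.zero_le _) hi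
      · simp [Polynomial.notMem_support_iff.1 hi, nrm_zero]
    have h3 := e.nrm_poly
    have h4 : (((e.poly.coeff i).coeff j).natAbs : ℤ) < 2 ^ M := by
      exact_mod_cast lt_of_le_of_lt (h1.trans (h2.trans h3)) hb
    rw [hB, pow_succ]; omega
  -- Kronecker substitution
  set F : ℤ[X] := e.poly.eval₂ (RingHom.id ℤ[X]) (X ^ 16) with hF
  have hdeg : ∀ i, (e.poly.coeff i).natDegree < 16 := fun i =>
    lt_of_le_of_lt (natDegree_le_iff_coeff_eq_zero.2 fun j hj => e.sbound i j (by omega))
      hs
  have hcoeff : ∀ i j, j < 16 → F.coeff (16 * i + j) = (e.poly.coeff i).coeff j := by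
    intro i j hj
    rw [hF, eval₂_eq_sum, Polynomial.sum, finsetSum_coeff]
    rw [Finset.sum_eq_single i]
    · rw [← pow_mul, RingHom.id_apply, coeff_mul_X_pow', if_pos (by omega)]
      congr 1; omega
    · intro k _ hk
      rw [← pow_mul, RingHom.id_apply, coeff_mul_X_pow']
      split
      · exact coeff_eq_zero_of_natDegree_lt (lt_of_lt_of_le (hdeg k) (by omega))
      · rfl
    · intro hi; simp [Polynomial.notMem_support_iff.1 hi]
  have heval : F.eval B = e.num B (B ^ 16) := by
    rw [← Ex.eval_poly, hF, ← coe_evalRingHom, hom_eval₂]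
    simp
  have hdvd : B ^ (16 * N) ∣ F.eval B := by
    rw [heval, pow_mul]; exact Int.dvd_of_emod_eq_zero hm
  intro i hi
  ext j
  rw [coeff_zero]
  by_cases hj : j < 16
  · have := coeff_eq_zero_of_dvd hB0 (16 * N) F (fun k hk => by
      obtain ⟨u, v, hv, rfl⟩ : ∃ u v, v < 16 ∧ k = 16 * u + v :=
        ⟨k / 16, k % 16, Nat.mod_lt _ (by norm_num), (Nat.div_add_mod k 16).symm⟩
      rw [hcoeff u v hv]; exact hsmall u v) hdvd (16 * i + j) (by omega)
    rwa [hcoeff i j hj] at this
  · exact e.sbound i j (by omega)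

end

end P266
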