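import Vale.Agent.P266.Curve.Field

/-!
P266: the curve, its series and the graded pieces `G n`.
-/

namespace P266

noncomputable section

theorem zero_smul_K (f : K) : (0 : ℂ) • f = 0 := by
  funext p; rw [smul_apply_K, map_zero, zero_mul]; rfl

theorem smul_add_K (c : ℂ) (f g : K) : c • (f + g) = c • f + c • g := by
  funext p; simp only [smul_apply_K, Pi.add_apply, mul_add]

theorem mono_mul (i j i' j' : ℕ) (k k' : ℤ) :
    mono i j k * mono i' j' k' = mono (i + i') (j + j') (k + k') := by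
  simp only [mono, pow_add, ← wpow_mul]; ring

theorem G_mono {m n : ℤ} (h : m ≤ n) : G m ≤ G n :=
  Submodule.span_mono fun _ ⟨i, j, k, hk, e⟩ => ⟨i, j, k, hk.trans h, e⟩

theorem mono_mem_G {i j : ℕ} {k n : ℤ} (h : (i : ℤ) + j + k ≤ n) : mono i j k ∈ G n :=
  Submodule.subset_span ⟨i, j, k, h, rfl⟩

theorem one_mem_G {n : ℤ} (h : 0 ≤ n) : (1 : K) ∈ G n := by
  have e : (1 : K) = mono 0 0 0 := by simp [mono, wpow_zero]
  rw [e]
  exact mono_mem_G (by simpa using h)

theorem mul_mem_G {m n : ℤ} {f g : K} (hf : f ∈ G m) (hg : g ∈ G n) : f * g ∈ G (m + n) := by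
  induction hf using Submodule.span_induction with
  | mem a ha =>
    obtain ⟨i, j, k, hk, rfl⟩ := ha
    induction hg using Submodule.span_induction with
    | mem b hb =>
      obtain ⟨i', j', k', hk', rfl⟩ := hb
      rw [mono_mul]
      exact mono_mem_G (by omega)
    | zero => simp
    | add a b _ _ h1 h2 => rw [mul_add]; exact add_mem h1 h2
    | smul c a _ h => rw [mul_smul_comm]; exact Submodule.smul_mem _ c h
  | zero => simp
  | add a b _ _ h1 h2 => rw [add_mul]; exact add_mem h1 h2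
  | smul c a _ h => rw [smul_mul_assoc]; exact Submodule.smul_mem _ c h

theorem mul_mem_G' {m n l : ℤ} {f g : K} (hf : f ∈ G m) (hg : g ∈ G n) (h : m + n ≤ l) :
    f * g ∈ G l :=
  G_mono h (mul_mem_G hf hg)

theorem wpow_mem_G (k : ℤ) : wpow k ∈ G k := by
  have e : wpow k = mono 0 0 k := by simp [mono]
  rw [e]
  exact mono_mem_G (by simp)

theorem iwK_mem_G : iwK ∈ G (-1) := wpow_mem_G (-1)

theorem wK_mem_G : wK ∈ G 1 := wpow_mem_G 1

theorem natCast_mem_G {n : ℤ} (h : 0 ≤ n) (m : ℕ) : (m : K) ∈ G n := by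
  rw [natCast_eq_smul]; exact Submodule.smul_mem _ _ (one_mem_G h)

theorem intCast_mem_G {n : ℤ} (h : 0 ≤ n) (m : ℤ) : (m : K) ∈ G n := by
  obtain ⟨k, rfl | rfl⟩ := m.eq_nat_or_neg
  · rw [Int.cast_natCast]; exact natCast_mem_G h k
  · rw [Int.cast_neg, Int.cast_natCast]; exact neg_mem (natCast_mem_G h k)

theorem ofNat_mul_mem_G {n : ℤ} (m : ℕ) [m.AtLeastTwo] {f : K} (hf : f ∈ G n) :
    (OfNat.ofNat m : K) * f ∈ G n :=
  mul_mem_G' (n := n) (natCast_mem_G le_rfl m) hf (by omega)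

theorem xK_mem_G : xK ∈ G 1 := by
  have e : xK = mono 1 0 0 := by simp [mono, wpow_zero]
  rw [e]; exact mono_mem_G (by simp)

theorem yK_mem_G : yK ∈ G 1 := by
  have e : yK = mono 0 1 0 := by simp [mono, wpow_zero]
  rw [e]; exact mono_mem_G (by simp)

theorem pow_mem_G {m : ℤ} {f : K} (hf : f ∈ G m) (k : ℕ) : f ^ k ∈ G (k * m) := by
  induction k with
  | zero => simpa using one_mem_G le_rfl
  | succ k ih => rw [pow_succ]; exact mul_mem_G' ih hf (by push_cast; ring_nf; exact le_rfl)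

theorem gy_mem_G :
    (450 : K) * yK ^ 4 - wK * ((12 : K) * xK + (60 : K) * xK ^ 2 * yK) ∈ G 4 := by
  refine sub_mem (ofNat_mul_mem_G 450 (pow_mem_G yK_mem_G 4)) (mul_mem_G' (n := 3) wK_mem_G ?_
    (by norm_num))
  refine add_mem (G_mono (by norm_num) (ofNat_mul_mem_G 12 xK_mem_G)) ?_
  exact mul_mem_G' (ofNat_mul_mem_G 60 (pow_mem_G xK_mem_G 2)) yK_mem_G (by norm_num)

theorem jac_mem_G : jac ∈ G 8 :=
  mul_mem_G' (ofNat_mul_mem_G 5 (pow_mem_G xK_mem_G 4)) gy_mem_G (by norm_num)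

theorem kap_mem_G : kap ∈ G 7 :=
  neg_mem (mul_mem_G' jac_mem_G iwK_mem_G (by norm_num))

/-- `f` and its image under the connection have the expected degrees. -/
def Hat (m : ℤ) (f : K) : Prop := f ∈ G m ∧ dd f + (m : K) * kap * f ∈ G (m + 6)

theorem Hat.mul {a b : ℤ} {f g : K} (hf : Hat a f) (hg : Hat b g) : Hat (a + b) (f * g) := by
  refine ⟨mul_mem_G hf.1 hg.1, ?_⟩
  have e : dd (f * g) + ((a + b : ℤ) : K) * kap * (f * g) =
      (dd f + (a : K) * kap * f) * g + f * (dd g + (b : K) * kap * g) := by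
    rw [dd_mul]; push_cast; ring
  rw [e]
  exact add_mem (mul_mem_G' hf.2 hg.1 (by omega)) (mul_mem_G' hf.1 hg.2 (by omega))

theorem hat_wpow (k : ℤ) : Hat k (wpow k) := by
  refine ⟨wpow_mem_G k, ?_⟩
  have e : dd (wpow k) + (k : K) * kap * wpow k = 0 := by rw [dd_wpow, kap]; ring
  rw [e]; exact zero_mem _

theorem hat_xK : Hat 1 xK := by
  refine ⟨xK_mem_G, ?_⟩
  rw [Int.cast_one, hat_x]
  exact neg_mem (mul_mem_G' (ofNat_mul_mem_G 5 iwK_mem_G) gy_mem_G (by norm_num))

theorem hat_yK : Hat 1 yK := by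
  refine ⟨yK_mem_G, ?_⟩
  rw [Int.cast_one, hat_y]
  refine sub_mem (neg_mem ?_) ?_
  · refine mul_mem_G' (ofNat_mul_mem_G 5 (pow_mem_G xK_mem_G 4)) (n := 2) ?_ (by norm_num)
    refine add_mem (sub_mem (G_mono (by norm_num) (ofNat_mul_mem_G 5 iwK_mem_G))
      (natCast_mem_G (by norm_num) 4)) ?_
    exact mul_mem_G' (ofNat_mul_mem_G 24 xK_mem_G) yK_mem_G (by norm_num)
  · refine ofNat_mul_mem_G 5 (add_mem (G_mono (by norm_num) (ofNat_mul_mem_G 12 yK_mem_G)) ?_)
    exact mul_mem_G' (ofNat_mul_mem_G 60 xK_mem_G) (pow_mem_G yK_mem_G 2) (by norm_num)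

theorem Hat.pow {a : ℤ} {f : K} (hf : Hat a f) (k : ℕ) : Hat (k * a) (f ^ k) := by
  induction k with
  | zero => simpa [wpow_zero] using hat_wpow 0
  | succ k ih =>
    rw [pow_succ, show (((k + 1 : ℕ) : ℤ)) * a = (k : ℤ) * a + a by push_cast; ring]
    exact ih.mul hf

theorem hat_mono (i j : ℕ) (k : ℤ) : Hat (i + j + k) (mono i j k) := by
  have h := ((hat_xK.pow i).mul (hat_yK.pow j)).mul (hat_wpow k)
  simpa [mono] using h

/-- The connection maps degree `n` to degree `n + 6`. -/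
theorem hat_mem_G {n : ℤ} {f : K} (hf : f ∈ G n) :
    dd f + (n : K) * kap * f ∈ G (n + 6) := by
  induction hf using Submodule.span_induction with
  | mem a ha =>
    obtain ⟨i, j, k, hk, rfl⟩ := ha
    obtain ⟨h1, h2⟩ := hat_mono i j k
    rcases eq_or_lt_of_le hk with h | h
    · rw [← h]; exact h2
    · have e : dd (mono i j k) + (n : K) * kap * mono i j k =
          (dd (mono i j k) + (((i : ℤ) + j + k : ℤ) : K) * kap * mono i j k) +
            ((n - (i + j + k) : ℤ) : K) * (kap * mono i j k) := by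
        push_cast; ring
      rw [e]
      exact add_mem (G_mono (by omega) h2)
        (mul_mem_G' (intCast_mem_G le_rfl _) (mul_mem_G kap_mem_G h1) (by omega))
  | zero => simp [dd_zero]
  | add a b _ _ h1 h2 =>
    rw [dd_add, mul_add, show dd a + dd b + ((n : K) * kap * a + (n : K) * kap * b) =
      (dd a + (n : K) * kap * a) + (dd b + (n : K) * kap * b) by ring]
    exact add_mem h1 h2
  | smul c a _ h =>
    rw [dd_smul, mul_smul_comm, ← smul_add_K]
    exact Submodule.smul_mem _ c h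

theorem Reg.add {f g : K} (hf : Reg f) (hg : Reg g) : Reg (f + g) := fun p k hk => by
  simp [hf p k hk, hg p k hk]

theorem Reg.smul {f : K} (c : ℂ) (hf : Reg f) : Reg (c • f) := fun p k hk => by
  rw [smul_apply_K, HahnSeries.C_mul_eq_smul, HahnSeries.coeff_smul, hf p k hk, smul_zero]

theorem Reg.mul {f g : K} (hf : Reg f) (hg : Reg g) : Reg (f * g) := fun p k hk => by
  rw [Pi.mul_apply, HahnSeries.coeff_mul]
  refine Finset.sum_eq_zero fun ij hij => ?_
  have e : ij.1 + ij.2 = k := by simp at hij; omega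
  rcases lt_or_ge ij.1 0 with h | h
  · simp [hf p _ h]
  · simp [hg p ij.2 (by omega)]

theorem reg_of_powerSeries (u : Pt → PowerSeries ℂ) :
    Reg (fun p => HahnSeries.ofPowerSeries ℤ ℂ (u p)) := fun p k hk => by
  simp only
  rw [HahnSeries.ofPowerSeries_apply]
  refine HahnSeries.embDomain_of_notMem_range fun ⟨n, hn⟩ => ?_
  simp at hn; omega

theorem reg_jac : Reg jac := by
  have e : jac = fun p => HahnSeries.ofPowerSeries ℤ ℂ
      (5 * (PowerSeries.C (pa p) * xs) ^ 4 *
        (450 * (PowerSeries.C (pb p) * ys (ps p)) ^ 4 - PowerSeries.X *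
        (12 * (PowerSeries.C (pa p) * xs) +
          60 * (PowerSeries.C (pa p) * xs) ^ 2 * (PowerSeries.C (pb p) * ys (ps p))))) := by
    funext p
    simp only [map_mul, map_pow, map_sub, map_add, map_ofNat, HahnSeries.ofPowerSeries_X,
      Pi.mul_apply, Pi.pow_apply, Pi.sub_apply, Pi.add_apply, Pi.ofNat_apply, xK, yK, wK, jac]
  rw [e]; exact reg_of_powerSeries _

theorem coeff_ddw (f : K) (p : Pt) (k : ℤ) :
    (ddw f p).coeff k = ((k + 1 : ℤ) : ℂ) * (f p).coeff (k + 1) := by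
  rw [ddw, derivative_eq_euler, show k = k + 1 + (-1) by ring, HahnSeries.coeff_single_mul_add,
    one_mul]
  simp [eulerL]

theorem Reg.dd {f : K} (hf : Reg f) : Reg (P266.dd f) := by
  refine reg_jac.mul fun p k hk => ?_
  rw [coeff_ddw]
  rcases eq_or_lt_of_le (show k + 1 ≤ 0 by omega) with h | h
  · simp [h]
  · simp [hf p _ h]

theorem coeff_mono_low (i j : ℕ) (k l : ℤ) (p : Pt) (h : l ≤ k) :
    (mono i j k p).coeff l = if l = k then pa p ^ i * pb p ^ j else 0 := by
  have e : mono i j k p = HahnSeries.single k 1 * HahnSeries.ofPowerSeries ℤ ℂ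
      ((PowerSeries.C (pa p) * xs) ^ i * (PowerSeries.C (pb p) * ys (ps p)) ^ j) := by
    simp only [mono, Pi.mul_apply, Pi.pow_apply, map_mul, map_pow, xK, yK, wpow]
    ring
  rw [e, show l = (l - k) + k by ring, HahnSeries.coeff_single_mul_add, one_mul]
  rcases eq_or_lt_of_le h with rfl | h'
  · rw [sub_self, show (0 : ℤ) = ((0 : ℕ) : ℤ) from rfl, HahnSeries.ofPowerSeries_apply_coeff]
    simp [mul_pow, xs_spec.1, (ys_spec (ps p)).1]
  · rw [if_neg (by omega)]
    exact reg_of_powerSeries (fun _ => _) p (l - k) (by omega)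

/-- Values at the points separate the monomials `x^i y^j` with `i, j < 5`. -/
theorem coeff_eq_zero_of_values (c : Fin 5 → Fin 5 → ℂ)
    (h : ∀ p, ∑ i : Fin 5, ∑ j : Fin 5, c i j * (pa p ^ (i : ℕ) * pb p ^ (j : ℕ)) = 0) :
    ∀ i j, c i j = 0 := by
  intro i₀ j₀
  have h1 : ∀ a : Fin 5, ∀ j : Fin 5, ∑ i : Fin 5, c i j * (zeta ^ (a : ℕ)) ^ (i : ℕ) = 0 := by
    intro a
    refine congrFun (Matrix.eq_zero_of_forall_index_sum_mul_pow_eq_zero
      (f := fun b : Fin 5 => beta * zeta ^ (b : ℕ))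
      (v := fun j => ∑ i : Fin 5, c i j * (zeta ^ (a : ℕ)) ^ (i : ℕ)) ?_ fun b => ?_)
    · intro b b' hb; exact pb_inj (p := (a, b)) (q := (a, b')) hb
    · rw [← h (a, b), Finset.sum_comm]
      refine Finset.sum_congr rfl fun j _ => ?_
      rw [Finset.sum_mul]
      exact Finset.sum_congr rfl fun i _ => by simp only [pa, pb]; ring
  exact congrFun (Matrix.eq_zero_of_forall_index_sum_mul_pow_eq_zero
    (f := fun a : Fin 5 => zeta ^ (a : ℕ)) (v := fun i => c i j₀)
    (fun a a' ha => pa_inj (p := (a, 0)) (q := (a', 0)) ha) fun a => h1 a j₀) i₀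

/-- Reduced monomials. -/
def Gred (n : ℤ) : Submodule ℂ K :=
  Submodule.span ℂ (Set.range fun t : {t : (Fin 5 × Fin 5) × ℤ //
    ((t.1.1 : ℕ) : ℤ) + ((t.1.2 : ℕ) : ℤ) + t.2 ≤ n} => mono t.1.1.1 t.1.1.2 t.1.2)

theorem mono_mem_Gred (n : ℤ) : ∀ (j i : ℕ) (k : ℤ), (i : ℤ) + j + k ≤ n → mono i j k ∈ Gred n := by
  intro j
  induction j using Nat.strong_induction_on with
  | _ j ihj =>
    intro i
    induction i using Nat.strong_induction_on with
    | _ i ihi =>
      intro k h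
      by_cases hj : 5 ≤ j
      · obtain ⟨j', rfl⟩ := Nat.exists_eq_add_of_le' hj
        have e : (90 : K) * mono i (j' + 5) k = mono i j' k - mono i j' (k + 5) - mono i j' (k + 1)
            + (12 : K) * mono (i + 1) (j' + 1) (k + 1)
            + (30 : K) * mono (i + 2) (j' + 2) (k + 1) := by
          have w1 : wpow (k + 1) = wpow k * wK := by rw [wK_eq, wpow_mul]
          have w5 : wpow (k + 5) = wpow k * wK ^ 5 := by
            rw [← wpow_nat, wpow_mul]; norm_num
          simp only [mono, w1, w5, pow_add]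
          linear_combination (xK ^ i * yK ^ j' * wpow k) * yK_pow
        have m : mono i (j' + 5) k = ((90 : ℂ)⁻¹) • ((90 : K) * mono i (j' + 5) k) := by
          rw [show (90 : K) = ((90 : ℕ) : K) by simp, natCast_eq_smul, smul_mul_assoc, one_mul,
            smul_smul]
          norm_num
        rw [m, e]
        have hm : ∀ (q : ℕ) [q.AtLeastTwo] (a : K), a ∈ Gred n → (OfNat.ofNat q : K) * a ∈ Gred n :=
          fun q _ a ha => by
            rw [show (OfNat.ofNat q : K) = ((q : ℕ) : K) from rfl, natCast_eq_smul, smul_mul_assoc,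
              one_mul]
            exact Submodule.smul_mem _ _ ha
        refine Submodule.smul_mem _ _ (add_mem (add_mem (sub_mem (sub_mem ?_ ?_) ?_) (hm 12 _ ?_))
          (hm 30 _ ?_)) <;> exact ihj _ (by omega) _ _ (by omega)
      · by_cases hi : 5 ≤ i
        · obtain ⟨i', rfl⟩ := Nat.exists_eq_add_of_le' hi
          have e : mono (i' + 5) j k = mono i' j k - mono i' j (k + 5) := by
            have w5 : wpow (k + 5) = wpow k * wK ^ 5 := by
              rw [← wpow_nat, wpow_mul]; norm_num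
            simp only [mono, w5, pow_add]
            linear_combination (xK ^ i' * yK ^ j * wpow k) * xK_pow
          rw [e]
          exact sub_mem (ihi _ (by omega) _ (by omega)) (ihi _ (by omega) _ (by omega))
        · exact Submodule.subset_span
            ⟨⟨((⟨i, by omega⟩, ⟨j, by omega⟩), k), by simpa using h⟩, rfl⟩

/-- The combination of reduced monomials with coefficients `l`. -/
def comb (l : (Fin 5 × Fin 5) × ℤ →₀ ℂ) : K :=
  Finsupp.linearCombination ℂ (fun t : (Fin 5 × Fin 5) × ℤ => mono t.1.1 t.1.2 t.2) l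

theorem exists_comb {n : ℤ} {f : K} (hf : f ∈ G n) : ∃ l : (Fin 5 × Fin 5) × ℤ →₀ ℂ,
    (∀ t ∈ l.support, ((t.1.1 : ℕ) : ℤ) + ((t.1.2 : ℕ) : ℤ) + t.2 ≤ n) ∧ comb l = f := by
  have h : f ∈ Gred n :=
    Submodule.span_le.2 (by rintro a ⟨i, j, k, hk, rfl⟩; exact mono_mem_Gred n j i k hk) hf
  obtain ⟨l, hl⟩ := Finsupp.mem_span_range_iff_exists_finsupp.1 h
  refine ⟨l.mapDomain Subtype.val, fun t ht => ?_, ?_⟩
  · obtain ⟨⟨a, ha⟩, -, rfl⟩ := Finset.mem_image.1 (Finsupp.mapDomain_support ht)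
    exact ha
  · rw [comb, Finsupp.linearCombination_mapDomain, ← hl]
    rfl

theorem coeff_comb {l : (Fin 5 × Fin 5) × ℤ →₀ ℂ} {m : ℤ} (hm : ∀ t ∈ l.support, m ≤ t.2)
    (p : Pt) : (comb l p).coeff m =
      ∑ i : Fin 5, ∑ j : Fin 5, l ((i, j), m) * (pa p ^ (i : ℕ) * pb p ^ (j : ℕ)) := by
  rw [comb, Finsupp.linearCombination_apply, Finsupp.sum, Finset.sum_apply,
    HahnSeries.coeff_sum]
  rw [← Fintype.sum_prod_type'
    (f := fun i j => l ((i, j), m) * (pa p ^ (i : ℕ) * pb p ^ (j : ℕ)))]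
  refine Finset.sum_bij_ne_zero (fun t _ _ => t.1) (fun _ _ _ => Finset.mem_univ _) ?_ ?_ ?_
  · intro a ha hne b hb hne' e
    rw [smul_apply_K, HahnSeries.C_mul_eq_smul, HahnSeries.coeff_smul,
      coeff_mono_low _ _ _ _ _ (hm a ha)] at hne
    rw [smul_apply_K, HahnSeries.C_mul_eq_smul, HahnSeries.coeff_smul,
      coeff_mono_low _ _ _ _ _ (hm b hb)] at hne'
    split_ifs at hne with h1
    · split_ifs at hne' with h2
      · exact Prod.ext e (h1.symm.trans h2)
      · simp at hne'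
    · simp at hne
  · intro b _ hb
    have hs : (b, m) ∈ l.support := by
      rw [Finsupp.mem_support_iff]; intro h; exact hb (by rw [h, zero_mul])
    refine ⟨(b, m), hs, ?_, rfl⟩
    rw [smul_apply_K, HahnSeries.C_mul_eq_smul, HahnSeries.coeff_smul,
      coeff_mono_low _ _ _ _ _ le_rfl, if_pos rfl]
    simpa using hb
  · intro a ha hne
    rw [smul_apply_K, HahnSeries.C_mul_eq_smul, HahnSeries.coeff_smul,
      coeff_mono_low _ _ _ _ _ (hm a ha)] at hne ⊢
    split_ifs at hne ⊢ with h1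
    · subst h1; simp
    · simp at hne

theorem comb_min {l : (Fin 5 × Fin 5) × ℤ →₀ ℂ} (hne : l.support.Nonempty) :
    ∃ t ∈ l.support, ∃ p, (comb l p).coeff t.2 ≠ 0 := by
  obtain ⟨t, ht, hmin⟩ := l.support.exists_min_image (fun t => t.2) hne
  refine ⟨t, ht, ?_⟩
  by_contra hcon
  push Not at hcon
  have := coeff_eq_zero_of_values (fun i j => l ((i, j), t.2))
    (fun p => by rw [← coeff_comb hmin p, hcon p]) t.1.1 t.1.2
  exact Finsupp.mem_support_iff.1 ht this

theorem comb_eq_zero {l : (Fin 5 × Fin 5) × ℤ →₀ ℂ} (h : comb l = 0) : l = 0 := by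
  by_contra hne
  obtain ⟨t, -, p, hp⟩ := comb_min (Finsupp.support_nonempty_iff.2 hne)
  simp [h] at hp

theorem support_nonneg {l : (Fin 5 × Fin 5) × ℤ →₀ ℂ} (hr : Reg (comb l)) :
    ∀ t ∈ l.support, 0 ≤ t.2 := by
  intro t ht
  by_contra hlt
  push Not at hlt
  classical
  set l₀ := l.filter (fun s => s.2 < 0) with hl₀
  have hne : l₀.support.Nonempty :=
    ⟨t, by rw [hl₀, Finsupp.support_filter]; exact Finset.mem_filter.2 ⟨ht, hlt⟩⟩
  obtain ⟨s, hs, p, hp⟩ := comb_min hne
  have hs0 : s.2 < 0 := by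
    rw [hl₀, Finsupp.support_filter] at hs; exact (Finset.mem_filter.1 hs).2
  set l₁ := l.filter (fun u => ¬ u.2 < 0) with hl₁
  have hsplit : comb l = comb l₀ + comb l₁ := by
    rw [comb, comb, comb, ← map_add, hl₀, hl₁, Finsupp.filter_add_filter_not]
  have h1 : (comb l₁ p).coeff s.2 = 0 := by
    rw [comb, Finsupp.linearCombination_apply, Finsupp.sum, Finset.sum_apply,
      HahnSeries.coeff_sum]
    refine Finset.sum_eq_zero fun u hu => ?_
    rw [hl₁, Finsupp.support_filter] at hu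
    have hu0 := (Finset.mem_filter.1 hu).2
    rw [smul_apply_K, HahnSeries.C_mul_eq_smul, HahnSeries.coeff_smul,
      coeff_mono_low _ _ _ _ _ (by omega), if_neg (by omega), smul_zero]
  have h2 := hr p s.2 hs0
  rw [hsplit, Pi.add_apply, HahnSeries.coeff_add, h1, add_zero] at h2
  exact hp h2

/-- Regular sections are polynomials on the curve. -/
theorem reg_mem_G {n : ℤ} {f : K} (hf : f ∈ G n) (hr : Reg f) :
    ∃ c : Fin 5 → Fin 5 → ℕ → ℂ, (∀ (i j : Fin 5) (k : ℕ),
      n < ((i : ℕ) : ℤ) + ((j : ℕ) : ℤ) + (k : ℤ) → c i j k = 0) ∧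
      f = ∑ i : Fin 5, ∑ j : Fin 5, ∑ k ∈ Finset.range (n.toNat + 1),
        c i j k • mono i j (k : ℤ) := by
  obtain ⟨l, hl, rfl⟩ := exists_comb hf
  refine ⟨fun i j k => l ((i, j), (k : ℤ)), fun i j k hk => ?_, ?_⟩
  · by_contra h
    have := hl _ (Finsupp.mem_support_iff.2 h)
    simp only at this; omega
  · rw [← Fintype.sum_prod_type' (f := fun i j => ∑ k ∈ Finset.range (n.toNat + 1),
      l ((i, j), (k : ℤ)) • mono (i : Fin 5) (j : Fin 5) (k : ℤ)), ← Finset.sum_product', comb,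
      Finsupp.linearCombination_apply, Finsupp.sum]
    refine Finset.sum_bij_ne_zero (fun t _ _ => (t.1, t.2.toNat)) ?_ ?_ ?_ ?_
    · intro t ht _
      have h0 := support_nonneg hr t ht
      have h1 := hl t ht
      simp only [Finset.mem_product, Finset.mem_univ, true_and, Finset.mem_range]
      omega
    · intro a ha _ b hb _ e
      have h0 := support_nonneg hr a ha
      have h0' := support_nonneg hr b hb
      simp only [Prod.mk.injEq] at e
      exact Prod.ext e.1 (by omega)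
    · intro b _ hb
      have hs : ((b.1, (b.2 : ℤ)) : (Fin 5 × Fin 5) × ℤ) ∈ l.support := by
        rw [Finsupp.mem_support_iff]; intro h; exact hb (by rw [h]; exact zero_smul_K _)
      exact ⟨_, hs, hb, by simp⟩
    · intro t ht _
      have h0 := support_nonneg hr t ht
      simp only [Int.toNat_of_nonneg h0]

/-- The standard monomials are independent. -/
theorem mono_indep (N : ℕ) (c : Fin 5 → Fin 5 → ℕ → ℂ)
    (h : ∑ i : Fin 5, ∑ j : Fin 5, ∑ k ∈ Finset.range N, c i j k • mono i j (k : ℤ) = 0) :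
    ∀ i j, ∀ k < N, c i j k = 0 := by
  intro i j k hk
  set l : (Fin 5 × Fin 5) × ℤ →₀ ℂ := ∑ a : Fin 5, ∑ b : Fin 5, ∑ q ∈ Finset.range N,
    Finsupp.single ((a, b), (q : ℤ)) (c a b q) with hl
  have h0 : comb l = 0 := by
    rw [comb, hl]; simpa [map_sum, Finsupp.linearCombination_single] using h
  have h1 := DFunLike.congr_fun (comb_eq_zero h0) ((i, j), (k : ℤ))
  rw [hl] at h1
  simpa [Finsupp.single_apply, Prod.ext_iff, ite_and, hk] using h1

theorem reg_neg_G {n : ℤ} (hn : n < 0) {f : K} (hf : f ∈ G n) (hr : Reg f) : f = 0 := by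
  obtain ⟨c, hc, e⟩ := reg_mem_G hf hr
  rw [e]
  refine Finset.sum_eq_zero fun i _ => Finset.sum_eq_zero fun j _ =>
    Finset.sum_eq_zero fun k _ => ?_
  rw [hc i j k (by omega)]; exact zero_smul_K _

theorem reg_G_zero {f : K} (hf : f ∈ G 0) (hr : Reg f) : ∃ c : ℂ, f = c • (1 : K) := by
  obtain ⟨c, hc, e⟩ := reg_mem_G hf hr
  refine ⟨c 0 0 0, ?_⟩
  rw [e, Fintype.sum_eq_single 0, Fintype.sum_eq_single 0]
  · simp [mono, wpow_zero]
  · intro j hj
    have : 0 < (j : ℕ) := Nat.pos_of_ne_zero fun h => hj (Fin.ext (by simpa using h))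
    simp [hc 0 j 0 (by simp; omega), zero_smul_K]
  · intro i hi
    have : 0 < (i : ℕ) := Nat.pos_of_ne_zero fun h => hi (Fin.ext (by simpa using h))
    refine Finset.sum_eq_zero fun j _ => Finset.sum_eq_zero fun k _ => ?_
    rw [hc i j k (by omega)]; exact zero_smul_K _

end

end P266
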