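import Mathlib

/-!
P266, formal counterexample: definitions.

Curve `C : x^5 - z^5 + w^5 = 0`, `90 y^5 - z^5 + w^5 + w(z^4 - 12xyz^2 - 30x^2y^2) = 0`
in the chart `z = 1`, seen through its 25 branches over `w = 0`.
-/

open scoped PowerSeries

namespace P266

noncomputable section

/-- The `ℂ`-algebra of Laurent series whose scalar multiplication is the coefficientwise one
(the same algebra structure as the default one, with a definitionally compatible action). -/
instance (priority := 10000) laurentAlgebra : Algebra ℂ (LaurentSeries ℂ) :=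
  Algebra.ofModule
    (fun c f g => by rw [← HahnSeries.C_mul_eq_smul, ← HahnSeries.C_mul_eq_smul, mul_assoc])
    (fun c f g => by
      rw [← HahnSeries.C_mul_eq_smul, ← HahnSeries.C_mul_eq_smul, mul_left_comm])

instance laurentSMulCommClass : SMulCommClass ℂ (LaurentSeries ℂ) (LaurentSeries ℂ) :=
  ⟨fun c f g => by
    simp only [smul_eq_mul, ← HahnSeries.C_mul_eq_smul]; rw [mul_left_comm]⟩

instance laurentIsScalarTower : IsScalarTower ℂ (LaurentSeries ℂ) (LaurentSeries ℂ) :=
  ⟨fun c f g => by
    simp only [smul_eq_mul, ← HahnSeries.C_mul_eq_smul]; rw [mul_assoc]⟩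

/-- Index of a point of `C ∩ {w = 0}`. -/
abbrev Pt : Type := Fin 5 × Fin 5

/-- Laurent series in the local parameter `w`, one for each point. -/
abbrev K : Type := Pt → LaurentSeries ℂ

/-- Power series in the transverse parameter `T`. -/
abbrev S : Type := PowerSeries K

/-- A primitive fifth root of unity. -/
def zeta : ℂ := Complex.exp (2 * Real.pi * Complex.I / 5)

/-- The real fifth root of `1/90`. -/
def beta : ℂ := (((1 / 90 : ℝ) ^ ((1 : ℝ) / 5) : ℝ) : ℂ)

/-- `x`-coordinate of a point. -/
def pa (p : Pt) : ℂ := zeta ^ (p.1 : ℕ)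

/-- `y`-coordinate of a point. -/
def pb (p : Pt) : ℂ := beta * zeta ^ (p.2 : ℕ)

/-- The invariant `s = a b`. -/
def ps (p : Pt) : ℂ := pa p * pb p

open Classical in
/-- The fifth root of `1 - w^5` with constant term `1`. -/
def xs : ℂ⟦X⟧ :=
  if h : ∃ u : ℂ⟦X⟧, PowerSeries.constantCoeff u = 1 ∧ u ^ 5 = 1 - PowerSeries.X ^ 5
  then h.choose else 0

/-- The equation of the normalised `y`-series at `s`. -/
def yEqn (s : ℂ) (u : ℂ⟦X⟧) : Prop :=
  u ^ 5 = 1 - PowerSeries.X ^ 5 - PowerSeries.X *
    (1 - PowerSeries.C (12 * s) * (xs * u) - PowerSeries.C (30 * s ^ 2) * (xs * u) ^ 2)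

open Classical in
/-- The normalised `y`-series at `s`. -/
def ys (s : ℂ) : ℂ⟦X⟧ :=
  if h : ∃ u : ℂ⟦X⟧, PowerSeries.constantCoeff u = 1 ∧ yEqn s u then h.choose else 0

/-- The parameter `w`. -/
def wK : K := fun _ => HahnSeries.single 1 1

/-- The inverse of `w`. -/
def iwK : K := fun _ => HahnSeries.single (-1) 1

/-- The function `x` on the branches. -/
def xK : K := fun p => HahnSeries.ofPowerSeries ℤ ℂ (PowerSeries.C (pa p) * xs)

/-- The function `y` on the branches. -/
def yK : K := fun p => HahnSeries.ofPowerSeries ℤ ℂ (PowerSeries.C (pb p) * ys (ps p))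

/-- The integral power `w^k`. -/
def wpow (k : ℤ) : K := fun _ => HahnSeries.single k 1

/-- The monomial `x^i y^j w^k`. -/
def mono (i j : ℕ) (k : ℤ) : K := xK ^ i * yK ^ j * wpow k

/-- Sections of degree `n` over `C` minus the 25 points, read at `z = 1`. -/
def G (n : ℤ) : Submodule ℂ K :=
  Submodule.span ℂ {f | ∃ (i j : ℕ) (k : ℤ), (i : ℤ) + j + k ≤ n ∧ f = mono i j k}

/-- Regular at all 25 points: no negative powers of `w`. -/
def Reg (f : K) : Prop := ∀ (p : Pt) (k : ℤ), k < 0 → (f p).coeff k = 0

/-- The Jacobian `∂(f,g)/∂(x,y)` in the chart `z = 1`. -/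
def jac : K :=
  (5 : K) * xK ^ 4 * ((450 : K) * yK ^ 4 - wK * ((12 : K) * xK + (60 : K) * xK ^ 2 * yK))

/-- `d/dw` on `K`. -/
def ddw (f : K) : K := fun p => LaurentSeries.derivative ℂ (f p)

/-- The derivation dual to the residue form of the curve: `J d/dw`. -/
def dd (f : K) : K := jac * ddw f

/-- The connection `κ = -dd w / w`. -/
def kap : K := -(jac * iwK)

/-- `dd` applied to the coefficients of a series. -/
def dS (f : S) : S := PowerSeries.mk fun n => dd (PowerSeries.coeff n f)

/-- `T d/dT`. -/
def thetaS (f : S) : S := PowerSeries.mk fun n => (n : K) * PowerSeries.coeff n f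

/-- A vector field `A · T∂_T + B · J∂_w`. -/
abbrev VF : Type := S × S

/-- Action of a vector field on a series. -/
def act (D : VF) (f : S) : S := D.1 * thetaS f + D.2 * dS f

/-- Lie bracket of two vector fields. -/
def lie (D E : VF) : VF := (act D E.1 - act E D.1, act D E.2 - act E D.2)

/-- Determinant of two vector fields. -/
def det2 (D E : VF) : S := D.1 * E.2 - E.1 * D.2

/-- All coefficients are sections of the right degree off the points. -/
def Glob (f : S) : Prop := ∀ n : ℕ, PowerSeries.coeff n f ∈ G (n : ℤ)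

/-- All coefficients are regular at the points. -/
def RegS (f : S) : Prop := ∀ n : ℕ, Reg (PowerSeries.coeff n f)

end

end P266
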