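import Vale.Agent.P266.Defs

/-!
P266: exponentials of filtration raising maps on coefficient towers.
-/

namespace P266

open Finset

noncomputable section

/-- A `ℂ`-module of series: `pr n` extracts the `n`-th homogeneous part. -/
class Tower (M : Type*) [AddCommGroup M] [Module ℂ M] where
  pr : ℕ → M →ₗ[ℂ] M
  glue : (ℕ → M) → M
  pr_glue : ∀ u n, pr n (glue u) = pr n (u n)
  sep : ∀ x y, (∀ n, pr n x = pr n y) → x = y

variable {M M' M'' : Type*}
  [AddCommGroup M] [Module ℂ M] [Tower M]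
  [AddCommGroup M'] [Module ℂ M'] [Tower M']
  [AddCommGroup M''] [Module ℂ M''] [Tower M'']

/-- All coefficients below `n` vanish. -/
def Low (n : ℕ) (x : M) : Prop := ∀ m < n, Tower.pr m x = 0

/-- `δ` raises the filtration by at least `j`. -/
def Raises (j : ℕ) (δ : M →ₗ[ℂ] M) : Prop := ∀ n x, Low n x → Low (n + j) (δ x)

theorem low_zero (x : M) : Low 0 x := fun _ h => absurd h (Nat.not_lt_zero _)

theorem Low.mono {m n : ℕ} {x : M} (h : Low n x) (hmn : m ≤ n) : Low m x :=
  fun k hk => h k (by omega)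

theorem Low.add {n : ℕ} {x y : M} (hx : Low n x) (hy : Low n y) : Low n (x + y) := by
  intro m hm; simp [map_add, hx m hm, hy m hm]

theorem Low.smul {n : ℕ} {x : M} (c : ℂ) (hx : Low n x) : Low n (c • x) := by
  intro m hm; simp [map_smul, hx m hm]

theorem Low.sub {n : ℕ} {x y : M} (hx : Low n x) (hy : Low n y) : Low n (x - y) := by
  intro m hm; simp [map_sub, hx m hm, hy m hm]

theorem low_iterate {j : ℕ} {δ : M →ₗ[ℂ] M} (hδ : Raises j δ) {n : ℕ} {x : M} (hx : Low n x)
    (k : ℕ) : Low (n + k * j) (δ^[k] x) := by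
  induction k with
  | zero => simpa using hx
  | succ k ih =>
    rw [Function.iterate_succ_apply']
    have h := hδ _ _ ih
    have e : n + (k + 1) * j = n + k * j + j := by ring
    rw [e]; exact h

theorem low_iterate' {δ : M →ₗ[ℂ] M} (hδ : Raises 1 δ) (x : M) (k : ℕ) :
    Low k (δ^[k] x) := by
  simpa using low_iterate hδ (low_zero x) k

/-- `∑ δ^k/k!`, computed coefficientwise. -/
def expT (δ : M →ₗ[ℂ] M) : M →ₗ[ℂ] M where
  toFun x := Tower.glue fun n => ∑ k ∈ range (n + 1), ((k.factorial : ℂ)⁻¹) • δ^[k] x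
  map_add' x y := by
    refine Tower.sep _ _ fun n => ?_
    have h : ∀ k, δ^[k] (x + y) = δ^[k] x + δ^[k] y := fun k => by
      simp only [← Module.End.coe_pow, map_add]
    simp [map_add, Tower.pr_glue, h, smul_add, sum_add_distrib]
  map_smul' c x := by
    refine Tower.sep _ _ fun n => ?_
    have h : ∀ k, δ^[k] (c • x) = c • δ^[k] x := fun k => by
      simp only [← Module.End.coe_pow, map_smul]
    simp [Tower.pr_glue, h, smul_sum, smul_comm c]

theorem cf_expT (δ : M →ₗ[ℂ] M) (x : M) (n : ℕ) :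
    Tower.pr n (expT δ x)
      = ∑ k ∈ range (n + 1), ((k.factorial : ℂ)⁻¹) • Tower.pr n (δ^[k] x) := by
  simp [expT, Tower.pr_glue, map_sum]

/-- A longer truncation of the exponential has the same coefficient. -/
theorem cf_expT_of_le {δ : M →ₗ[ℂ] M} (hδ : Raises 1 δ) (x : M) {n N : ℕ} (h : n ≤ N) :
    Tower.pr n (expT δ x)
      = ∑ k ∈ range (N + 1), ((k.factorial : ℂ)⁻¹) • Tower.pr n (δ^[k] x) := by
  rw [cf_expT]
  apply sum_subset (range_subset_range.2 (by omega))
  intro k _ hk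
  have hk' : n < k := by simpa using hk
  simp [low_iterate' hδ x k n hk']

theorem low_expT_sub {δ : M →ₗ[ℂ] M} (hδ : Raises 1 δ) (x : M) (N : ℕ) :
    Low (N + 1) (expT δ x - ∑ k ∈ range (N + 1), ((k.factorial : ℂ)⁻¹) • δ^[k] x) := by
  intro m hm
  rw [map_sub, cf_expT_of_le hδ x (by omega : m ≤ N)]
  simp [map_sum]

theorem Low.expT {δ : M →ₗ[ℂ] M} (hδ : Raises 1 δ) {n : ℕ} {x : M} (hx : Low n x) :
    Low n (P266.expT δ x) := by
  intro m hm
  rw [cf_expT]
  exact sum_eq_zero fun k _ => by simp [low_iterate hδ hx k m (by omega)]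

/-- If `δ` raises by `j`, the exponential changes nothing below `n + j`. -/
theorem low_expT_sub_self {j : ℕ} (hj : 1 ≤ j) {δ : M →ₗ[ℂ] M} (hδ : Raises j δ) {n : ℕ} {x : M}
    (hx : Low n x) : Low (n + j) (P266.expT δ x - x) := by
  intro m hm
  rw [map_sub, cf_expT, sub_eq_zero, sum_eq_single 0]
  · simp
  · intro k _ hk
    have hk' : 1 * j ≤ k * j := Nat.mul_le_mul_right j (Nat.one_le_iff_ne_zero.2 hk)
    simp [low_iterate hδ hx k m (by omega)]
  · simp

theorem low_expT_sub_linear {j : ℕ} (hj : 1 ≤ j) {δ : M →ₗ[ℂ] M} (hδ : Raises j δ) {n : ℕ}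
    {x : M} (hx : Low n x) : Low (n + 2 * j) (P266.expT δ x - x - δ x) := by
  intro m hm
  have hδ1 : Raises 1 δ := fun a b h => (hδ a b h).mono (by omega)
  rw [map_sub, map_sub,
    cf_expT_of_le hδ1 x (Nat.le_succ m), sum_range_succ', sum_range_succ']
  have h0 : ∀ k, Tower.pr m (δ^[k + 1 + 1] x) = 0 := by
    intro k
    have hk : 2 * j ≤ (k + 1 + 1) * j := Nat.mul_le_mul_right j (by omega)
    exact low_iterate hδ hx _ m (by omega)
  simp only [h0, smul_zero, sum_const_zero]
  simp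

/-- A bilinear map that intertwines `δ, δ', δ''` intertwines their exponentials. -/
theorem expT_bilin {δ : M →ₗ[ℂ] M} {δ' : M' →ₗ[ℂ] M'} {δ'' : M'' →ₗ[ℂ] M''}
    (hδ : Raises 1 δ) (hδ' : Raises 1 δ') (hδ'' : Raises 1 δ'')
    (μ : M →ₗ[ℂ] M' →ₗ[ℂ] M'')
    (hμ : ∀ a b x y, Low a x → Low b y → Low (a + b) (μ x y))
    (hL : ∀ x y, δ'' (μ x y) = μ (δ x) y + μ x (δ' y)) (x : M) (y : M') :
    expT δ'' (μ x y) = μ (expT δ x) (expT δ' y) := by
  refine Tower.sep _ _ fun n => ?_
  set F : ℕ → ℕ → M'' := fun i j =>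
    ((i.factorial : ℂ)⁻¹ * (j.factorial : ℂ)⁻¹) • Tower.pr n (μ (δ^[i] x) (δ'^[j] y)) with hF
  have hvan : ∀ i j, n < i + j → F i j = 0 := by
    intro i j h
    simp [hF, hμ i j _ _ (low_iterate' hδ x i) (low_iterate' hδ' y j) n h]
  have hleft : Tower.pr n (expT δ'' (μ x y))
      = ∑ i ∈ range (n + 1), ∑ j ∈ range (n + 1), F i j := by
    have hpow : ∀ k, ((k.factorial : ℂ)⁻¹) • Tower.pr n (δ''^[k] (μ x y))
        = ∑ ij ∈ antidiagonal k, F ij.1 ij.2 := by
      intro k
      have key : ∀ k, δ''^[k] (μ x y)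
          = ∑ ij ∈ antidiagonal k, k.choose ij.1 • μ (δ^[ij.1] x) (δ'^[ij.2] y) := by
        intro k
        induction k with
        | zero => simp
        | succ k ih =>
          rw [Function.iterate_succ_apply', ih, map_sum,
            sum_antidiagonal_choose_succ_nsmul
              (fun i j => μ (δ^[i] x) (δ'^[j] y)) k]
          simp only [map_nsmul, hL, smul_add, sum_add_distrib, Function.iterate_succ_apply']
          rw [add_comm]
          refine congrArg₂ (· + ·) rfl (sum_congr rfl fun ij hij => ?_)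
          rw [Nat.choose_symm_of_eq_add (mem_antidiagonal.1 hij).symm]
      have hk : δ''^[k] (μ x y)
          = ∑ ij ∈ antidiagonal k, (k.choose ij.1 : ℂ) • μ (δ^[ij.1] x) (δ'^[ij.2] y) := by
        rw [key k]
        exact sum_congr rfl fun ij _ => (Nat.cast_smul_eq_nsmul ℂ _ _).symm
      rw [hk, map_sum, smul_sum]
      refine sum_congr rfl fun ij hij => ?_
      have hij' : ij.1 + ij.2 = k := by simpa using hij
      simp only [hF, map_smul, smul_smul]
      congr 1
      subst hij'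
      have h1 : ((ij.1 + ij.2).factorial : ℂ)
          = ((ij.1 + ij.2).choose ij.1 : ℂ) * (ij.1.factorial : ℂ) * (ij.2.factorial : ℂ) := by
        rw [← Nat.add_choose_mul_factorial_mul_factorial ij.1 ij.2, Nat.choose_symm_add]
        push_cast; ring
      have a := Nat.cast_ne_zero (R := ℂ).2 (Nat.factorial_ne_zero ij.1)
      have b := Nat.cast_ne_zero (R := ℂ).2 (Nat.factorial_ne_zero ij.2)
      have c : ((ij.1 + ij.2).choose ij.1 : ℂ) ≠ 0 :=
        Nat.cast_ne_zero.2 (Nat.choose_pos (by omega)).ne'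
      rw [h1]; field_simp
    rw [cf_expT]
    simp only [hpow]
    rw [← sum_product', ← sum_fiberwise_of_maps_to (g := fun ij : ℕ × ℕ => ij.1 + ij.2)
      (t := range (2 * n + 1)) (by intro ij h; simp at h ⊢; omega)]
    rw [← sum_subset (range_subset_range.2 (by omega : n + 1 ≤ 2 * n + 1))]
    · refine sum_congr rfl fun k hk => ?_
      apply sum_congr _ (fun _ _ => rfl)
      ext ij; simp at hk ⊢; omega
    · intro k _ hk
      refine sum_eq_zero fun ij hij => hvan _ _ ?_
      simp at hk hij; omega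
  rw [hleft]
  obtain ⟨P, hP⟩ : ∃ P, P = ∑ k ∈ range (n + 1), ((k.factorial : ℂ)⁻¹) • δ^[k] x := ⟨_, rfl⟩
  obtain ⟨Q, hQ⟩ : ∃ Q, Q = ∑ k ∈ range (n + 1), ((k.factorial : ℂ)⁻¹) • δ'^[k] y := ⟨_, rfl⟩
  have h1 : Low (n + 1) (μ (expT δ x - P) (expT δ' y)) := by
    simpa [hP] using hμ (n + 1) 0 _ _ (low_expT_sub hδ x n) (low_zero (expT δ' y))
  have h2 : Low (n + 1) (μ P (expT δ' y - Q)) := by
    simpa [hQ] using hμ 0 (n + 1) P _ (low_zero P) (low_expT_sub hδ' y n)
  have e : Tower.pr n (μ (expT δ x) (expT δ' y)) = Tower.pr n (μ P Q) := by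
    have h3 := h1.add h2 n (Nat.lt_succ_self n)
    have : μ (expT δ x) (expT δ' y)
        = μ P Q + (μ (expT δ x - P) (expT δ' y) + μ P (expT δ' y - Q)) := by
      simp [map_sub]
    rw [this, map_add, h3, add_zero]
  rw [e, hP, hQ]
  simp only [map_sum, LinearMap.sum_apply, map_smul, LinearMap.smul_apply, smul_smul, hF, smul_sum]
  rw [sum_comm]
  refine sum_congr rfl fun i _ => sum_congr rfl fun j _ => ?_
  rw [mul_comm]

theorem raises_neg {j : ℕ} {δ : M →ₗ[ℂ] M} (hδ : Raises j δ) : Raises j (-δ) := by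
  intro n x hx m hm
  simp [hδ n x hx m hm]

theorem expT_neg_cancel {δ : M →ₗ[ℂ] M} (hδ : Raises 1 δ) (x : M) :
    expT δ (expT (-δ) x) = x := by
  refine Tower.sep _ _ fun n => ?_
  obtain ⟨P, hP⟩ : ∃ P, P = ∑ k ∈ range (n + 1), ((k.factorial : ℂ)⁻¹) • (-δ)^[k] x := ⟨_, rfl⟩
  have h1 : Low (n + 1) (P266.expT δ (expT (-δ) x - P)) := by
    refine Low.expT hδ ?_
    simpa [hP] using low_expT_sub (raises_neg hδ) x n
  have h2 := h1 n (Nat.lt_succ_self n)
  rw [map_sub, map_sub, sub_eq_zero] at h2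
  rw [h2, hP]
  simp only [map_sum, map_smul, cf_expT]
  set F : ℕ → ℕ → M := fun i j => ((i.factorial : ℂ)⁻¹ * (j.factorial : ℂ)⁻¹ * (-1) ^ j) •
    Tower.pr n (δ^[i + j] x) with hF
  have hpow : ∀ j, (-δ)^[j] x = ((-1 : ℂ) ^ j) • δ^[j] x := by
    intro j
    induction j with
    | zero => simp
    | succ j ih =>
      rw [Function.iterate_succ_apply', ih, Function.iterate_succ_apply', pow_succ]
      simp
  have hval : ∀ i j, ((j.factorial : ℂ)⁻¹) • ((i.factorial : ℂ)⁻¹) •
      Tower.pr n (δ^[i] ((-δ)^[j] x)) = F i j := by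
    intro i j
    have : δ^[i] ((-δ)^[j] x) = ((-1 : ℂ) ^ j) • δ^[i + j] x := by
      rw [hpow, ← Module.End.coe_pow, map_smul, Module.End.coe_pow, Function.iterate_add_apply]
    rw [this, map_smul, smul_smul, smul_smul, hF]
    congr 1; ring
  simp only [smul_sum, hval]
  rw [sum_comm, ← sum_product', ← sum_fiberwise_of_maps_to (g := fun ij : ℕ × ℕ => ij.1 + ij.2)
    (t := range (2 * n + 1)) (by intro ij h; simp at h ⊢; omega)]
  rw [sum_eq_single 0]
  · rw [show ((range (n + 1) ×ˢ range (n + 1)).filter fun ij => ij.1 + ij.2 = 0) = {(0, 0)} from by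
      ext ij; simp [Prod.ext_iff]; omega]
    simp [hF]
  · intro k _ hk
    by_cases hkn : k ≤ n
    · rw [show ((range (n + 1) ×ˢ range (n + 1)).filter fun ij => ij.1 + ij.2 = k)
          = antidiagonal k from by ext ij; simp; omega]
      have hz : ∑ ij ∈ antidiagonal k,
          ((ij.1.factorial : ℂ)⁻¹ * (ij.2.factorial : ℂ)⁻¹ * (-1) ^ ij.2) = 0 := by
        have h0 := add_pow (1 : ℂ) (-1) k
        rw [add_neg_cancel, zero_pow hk] at h0
        rw [Nat.sum_antidiagonal_eq_sum_range_succ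
          (fun i j => ((i.factorial : ℂ)⁻¹ * (j.factorial : ℂ)⁻¹ * (-1) ^ j)) k]
        have hh : ∀ i ∈ range (k + 1),
            (i.factorial : ℂ)⁻¹ * ((k - i).factorial : ℂ)⁻¹ * (-1) ^ (k - i)
            = (k.factorial : ℂ)⁻¹ * ((1 : ℂ) ^ i * (-1) ^ (k - i) * (k.choose i : ℂ)) := by
          intro i hi
          rw [Nat.cast_choose ℂ (by simp at hi; omega : i ≤ k)]
          have hk0 := Nat.cast_ne_zero (R := ℂ).2 (Nat.factorial_ne_zero k)
          simp only [one_pow, one_mul]
          field_simp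
          try simp [hk0]
        rw [sum_congr rfl hh, ← mul_sum, ← h0, mul_zero]
      have hF' : ∀ ij ∈ antidiagonal k, F ij.1 ij.2
          = ((ij.1.factorial : ℂ)⁻¹ * (ij.2.factorial : ℂ)⁻¹ * (-1) ^ ij.2) •
              Tower.pr n (δ^[k] x) := by
        intro ij hij; simp only [hF]; rw [mem_antidiagonal.1 hij]
      rw [sum_congr rfl hF', ← sum_smul, hz, zero_smul]
    · refine sum_eq_zero fun ij hij => ?_
      have : Tower.pr n (δ^[ij.1 + ij.2] x) = 0 :=
        low_iterate' hδ x _ n (by simp at hij; omega)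
      simp [hF, this]
  · simp

instance : Tower S where
  pr n :=
    { toFun := fun f => PowerSeries.monomial n (PowerSeries.coeff n f)
      map_add' := fun f g => by simp
      map_smul' := fun c f => by refine PowerSeries.ext fun m => ?_; simp [PowerSeries.coeff_monomial] }
  glue u := PowerSeries.mk fun n => PowerSeries.coeff n (u n)
  pr_glue u n := by simp
  sep f g h := by
    refine PowerSeries.ext fun m => ?_
    simpa [PowerSeries.coeff_monomial] using congrArg (PowerSeries.coeff m) (h m)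

instance {A B : Type*} [AddCommGroup A] [Module ℂ A] [Tower A] [AddCommGroup B] [Module ℂ B]
    [Tower B] : Tower (A × B) where
  pr n := (Tower.pr n).prodMap (Tower.pr n)
  glue u := (Tower.glue fun n => (u n).1, Tower.glue fun n => (u n).2)
  pr_glue u n := by simp [Tower.pr_glue]
  sep x y h := by
    refine Prod.ext (Tower.sep _ _ fun n => ?_) (Tower.sep _ _ fun n => ?_)
    · simpa using congrArg Prod.fst (h n)
    · simpa using congrArg Prod.snd (h n)

theorem low_S_iff {n : ℕ} {f : S} : Low n f ↔ ∀ m < n, PowerSeries.coeff m f = 0 := by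
  refine forall₂_congr fun m _ => ⟨fun h => ?_, fun h => by simp [Tower.pr, h]⟩
  simpa [Tower.pr, PowerSeries.coeff_monomial] using congrArg (PowerSeries.coeff m) h

theorem low_prod_iff {A B : Type*} [AddCommGroup A] [Module ℂ A] [Tower A] [AddCommGroup B]
    [Module ℂ B] [Tower B] {n : ℕ} {x : A × B} : Low n x ↔ Low n x.1 ∧ Low n x.2 := by
  constructor
  · intro h
    exact ⟨fun m hm => congrArg Prod.fst (h m hm), fun m hm => congrArg Prod.snd (h m hm)⟩
  · intro h m hm
    exact Prod.ext (h.1 m hm) (h.2 m hm)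

end

end P266
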