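import Vale.Agent.P266.Vf

/-!
P266: gauges, their products and the transformed fields.
-/

namespace P266

noncomputable section

/-- The gauge of level `n` with horizontal part `q` (divergence free for `n < 6`). -/
def gauge (n : ℕ) (q : K) : VF :=
  (if n < 6 then PowerSeries.monomial n ((((6 : ℂ) - n)⁻¹) • dd q) else 0,
    PowerSeries.monomial n q)

/-- The composite `exp δ_n ∘ ⋯ ∘ exp δ_1` on series. -/
def tauS (q : ℕ → K) : ℕ → (S →ₗ[ℂ] S)
  | 0 => LinearMap.id
  | n + 1 => (expT (actL (gauge (n + 1) (q (n + 1))))).comp (tauS q n)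

/-- The same composite on vector fields. -/
def tauVF (q : ℕ → K) : ℕ → (VF →ₗ[ℂ] VF)
  | 0 => LinearMap.id
  | n + 1 => (expT (lieL (gauge (n + 1) (q (n + 1))))).comp (tauVF q n)

/-- The global form of a vector field: `A - κ B` in degree `n`, `B` in degree `n - 6`. -/
def GlobV (D : VF) : Prop :=
  ∀ n : ℕ, PowerSeries.coeff n D.1 - kap * PowerSeries.coeff n D.2 ∈ G (n : ℤ) ∧
    PowerSeries.coeff n D.2 ∈ G ((n : ℤ) - 6)

/-- A vector field regular at all 25 points. -/
def RegV (D : VF) : Prop := RegS D.1 ∧ RegS D.2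

/-- The level-one shear (1 - 6 s²)/w. -/
def q1K : K := fun p => HahnSeries.single (-1) (1 - 6 * ps p ^ 2)

/-- The part of a field through level `N`. -/
def truncV (N : ℕ) (D : VF) : VF :=
  (PowerSeries.mk fun n => if n ≤ N then PowerSeries.coeff n D.1 else 0,
    PowerSeries.mk fun n => if n ≤ N then PowerSeries.coeff n D.2 else 0)

end

end P266
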