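import Vale.Agent.P266.Ring
import Vale.Agent.P266.GaugeLemmas
import Vale.Agent.P266.ChartRing

/-!
P266: the ring of global functions is completely integrally closed.
-/

namespace P266

noncomputable section

theorem eq_monomial_add_low {n : ℕ} {f : S} (h : ∀ j < n, PowerSeries.coeff j f = 0) :
    Low n f := low_S_iff.2 h

theorem low_pow {n : ℕ} {f : S} (hf : Low n f) (k : ℕ) :
    Low (k * n) (f ^ k) ∧ PowerSeries.coeff (k * n) (f ^ k) = PowerSeries.coeff n f ^ k := by
  induction k with
  | zero => simp [Low]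
  | succ k ih =>
    rw [add_one_mul, pow_succ, pow_succ]
    exact ⟨low_mul ih.1 hf, by rw [coeff_mul_low ih.1 hf, ih.2]⟩

theorem exists_lowest_term {f : S} (hf : f ≠ 0) :
    ∃ n, Low n f ∧ PowerSeries.coeff n f ≠ 0 := by
  classical
  have h : ∃ n, PowerSeries.coeff n f ≠ 0 := by
    by_contra! h
    exact hf (PowerSeries.ext fun n => by simp [h n])
  exact ⟨Nat.find h, low_S_iff.2 fun m hm => not_not.1 (Nat.find_min h hm), Nat.find_spec h⟩

theorem lowest_branches {f : S} (hf : Glob f) {n : ℕ} (h : PowerSeries.coeff n f ≠ 0) (p : Pt) :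
    PowerSeries.coeff n f p ≠ 0 := fun hp => h (eq_zero_of_branch' (hf n) hp)

/-- Complete integral closedness of regular coefficients. -/
theorem reg_complete {a c : K} (hc : ∀ p, c p ≠ 0) (h : ∀ k : ℕ, Reg (c * a ^ k)) : Reg a := by
  intro p e he
  by_contra hne
  have ha : a p ≠ 0 := fun h0 => hne (by simp [h0])
  have hord : (a p).order < 0 := lt_of_le_of_lt (HahnSeries.order_le_of_coeff_ne_zero hne) he
  set k := (c p).order.toNat + 1 with hk
  have hpk : c p * a p ^ k ≠ 0 := mul_ne_zero (hc p) (pow_ne_zero _ ha)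
  have hlt : (c p * a p ^ k).order < 0 := by
    rw [HahnSeries.order_mul (hc p) (pow_ne_zero _ ha), HahnSeries.order_pow, nsmul_eq_mul]
    have h1 : (c p).order ≤ ((c p).order.toNat : ℤ) := Int.self_le_toNat _
    have h2 : ((k : ℕ) : ℤ) * (a p).order ≤ ((k : ℕ) : ℤ) * (-1) :=
      mul_le_mul_of_nonneg_left (by omega) (by positivity)
    rw [hk] at h2 ⊢
    push_cast at h2 ⊢
    omega
  exact hpk (HahnSeries.coeff_order_eq_zero.1 (h k p _ hlt))

/-- The lowest coefficient of `r f^k` when the low part of `f` lies in a ring of series. -/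
theorem almost_step {P : S → Prop} (hmul : ∀ f g, P f → P g → P (f * g))
    (hsub : ∀ f g, P f → P g → P (f - g)) {r f t : S} (ht : P t) (h : ∀ k, P (r * f ^ k))
    (k : ℕ) : P (r * (f - t) ^ k) := by
  suffices ∀ i, P (r * f ^ i * (f - t) ^ k) by simpa using this 0
  induction k with
  | zero => intro i; simpa using h i
  | succ k ih =>
    intro i
    convert hsub _ _ (ih (i + 1)) (hmul _ _ (ih i) ht) using 1
    ring

/-- Coefficientwise descent of almost integrality. -/
theorem almost_coeff {P : S → Prop} (Q : ℕ → K → Prop) (hPQ : ∀ f, P f ↔ ∀ n, Q n (PowerSeries.coeff n f))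
    (h0 : ∀ n, Q n 0) (hmul : ∀ f g, P f → P g → P (f * g))
    (hsub : ∀ f g, P f → P g → P (f - g)) {r f : S} {l : ℕ} (hl : Low l r)
    (hQ : ∀ n a, (∀ k : ℕ, Q (l + k * n) (PowerSeries.coeff l r * a ^ k)) → Q n a)
    (h : ∀ k, P (r * f ^ k)) : P f := by
  rw [hPQ]
  intro n
  induction n using Nat.strong_induction_on with
  | _ n ih =>
    obtain ⟨t, ht⟩ : ∃ t : S, t = PowerSeries.mk
        fun j => if j < n then PowerSeries.coeff j f else 0 := ⟨_, rfl⟩
    have hP : P t := (hPQ _).2 fun j => by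
      rw [ht, PowerSeries.coeff_mk]
      split
      · exact ih j ‹_›
      · exact h0 j
    have hlow : Low n (f - t) := low_S_iff.2 fun j hj => by simp [ht, hj]
    have hn : PowerSeries.coeff n (f - t) = PowerSeries.coeff n f := by simp [ht]
    rw [← hn]
    refine hQ n _ fun k => ?_
    rw [← (low_pow hlow k).2, ← coeff_mul_low hl (low_pow hlow k).1]
    exact (hPQ _).1 (almost_step hmul hsub hP h k) _

theorem Model.isIntegrallyClosed (M : Model) : IsIntegrallyClosed M.ring := by
  rw [isIntegrallyClosed_iff (FractionRing M.ring)]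
  intro x hx
  obtain ⟨r, hr, hrx⟩ := hx.isAlmostIntegral
  obtain ⟨g, h, rfl⟩ := IsLocalization.exists_mk'_eq (nonZeroDivisors M.ring) x
  have hy : ∀ k : ℕ, ∃ y : M.ring, (r : S) * (g : S) ^ k = (y : S) * ((h : M.ring) : S) ^ k := by
    intro k
    obtain ⟨y, hy⟩ := hrx k
    refine ⟨y, ?_⟩
    have e : algebraMap M.ring (FractionRing M.ring) (r * g ^ k)
        = algebraMap M.ring (FractionRing M.ring) (y * (h : M.ring) ^ k) := by
      simp only [map_mul, map_pow, hy, Algebra.smul_def]
      rw [mul_assoc, ← mul_pow, IsLocalization.mk'_spec]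
    simpa using congrArg Subtype.val (IsFractionRing.injective M.ring _ e)
  choose y hy using hy
  have hh0 : ((h : M.ring) : S) ≠ 0 := fun h0 => nonZeroDivisors.coe_ne_zero h (Subtype.ext h0)
  have hr0 : (r : S) ≠ 0 := fun h0 => nonZeroDivisors.ne_zero hr (Subtype.ext h0)
  obtain ⟨m, hm, hm0⟩ := exists_lowest_term hh0
  obtain ⟨l, hl, hl0⟩ := exists_lowest_term hr0
  have hglow : Low m (g : S) := by
    by_contra hg
    have hg0 : (g : S) ≠ 0 := fun h0 => hg (by simp [h0, Low])
    obtain ⟨j, hj, hj0⟩ := exists_lowest_term hg0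
    have hjm : j < m := by
      by_contra hle
      exact hg (hj.mono (by omega))
    have h1 : PowerSeries.coeff (l + (l + 1) * j) ((r : S) * (g : S) ^ (l + 1)) = 0 := by
      rw [hy]
      refine low_S_iff.1 (low_mul (low_zero _) (low_pow hm (l + 1)).1) _ ?_
      nlinarith
    rw [coeff_mul_low hl (low_pow hj _).1, (low_pow hj _).2] at h1
    have p : Pt := (0, 0)
    have h2 := congrFun h1 p
    rw [Pi.mul_apply, Pi.pow_apply, Pi.zero_apply, mul_eq_zero] at h2
    rcases h2 with h2 | h2
    · exact lowest_branches r.2.1 hl0 p h2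
    · exact lowest_branches g.2.1 hj0 p (eq_zero_of_pow_eq_zero h2)
  obtain ⟨G', hG⟩ : ∃ G', (g : S) = PowerSeries.X ^ m * G' :=
    PowerSeries.X_pow_dvd_iff.2 (low_S_iff.1 hglow)
  obtain ⟨H, hH⟩ : ∃ H, ((h : M.ring) : S) = PowerSeries.X ^ m * H :=
    PowerSeries.X_pow_dvd_iff.2 (low_S_iff.1 hm)
  have hHu : IsUnit H := by
    rw [PowerSeries.isUnit_iff_constantCoeff, ← PowerSeries.coeff_zero_eq_constantCoeff_apply]
    have e : PowerSeries.coeff m ((h : M.ring) : S) = PowerSeries.coeff 0 H := by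
      rw [hH, PowerSeries.coeff_X_pow_mul', if_pos le_rfl, Nat.sub_self]
    rw [← e, Pi.isUnit_iff]
    exact fun p => isUnit_iff_ne_zero.2 (lowest_branches (h : M.ring).2.1 hm0 p)
  obtain ⟨u, rfl⟩ := hHu
  obtain ⟨f, hf⟩ : ∃ f : S, (g : S) = ((h : M.ring) : S) * f :=
    ⟨(↑u⁻¹ : S) * G', by rw [hG, hH, mul_assoc, ← mul_assoc (u : S), Units.mul_inv, one_mul]⟩
  have hrf : ∀ k, (r : S) * f ^ k = y k := by
    intro k
    have e := hy k
    rw [hf, mul_pow, hH, mul_pow] at e
    have hX : (PowerSeries.X ^ m : S) ^ k * ((u : S) ^ k * ((r : S) * f ^ k))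
        = (PowerSeries.X ^ m : S) ^ k * ((u : S) ^ k * (y k : S)) := by
      linear_combination e
    rw [← pow_mul] at hX
    have hX' : (u : S) ^ k * ((r : S) * f ^ k) = (u : S) ^ k * (y k : S) := by
      refine PowerSeries.ext fun n => ?_
      have := congrArg (PowerSeries.coeff (n + m * k)) hX
      simpa [PowerSeries.coeff_X_pow_mul] using this
    exact (u.isUnit.pow k).mul_left_cancel hX'
  have hglob : Glob f := by
    refine almost_coeff (P := Glob) (fun n a => a ∈ G (n : ℤ)) (fun _ => Iff.rfl)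
      (fun n => zero_mem _) (fun a b => glob_mul) (fun a b ha hb n => ?_) hl ?_
      (fun k => by rw [hrf]; exact (y k).2.1)
    · rw [map_sub]; exact sub_mem (ha n) (hb n)
    · intro n a hk
      exact G_complete (r.2.1 l) hl0 fun k => by simpa using hk k
  have htlow : ∀ {n : ℕ} {s : S}, Low n s →
      Low n (M.tau s) ∧ PowerSeries.coeff n (M.tau s) = PowerSeries.coeff n s := fun {n s} hs => by
    have h1 := M.tau_low n s hs
    refine ⟨by simpa using (h1.mono (Nat.le_succ n)).add hs, ?_⟩
    have := low_S_iff.1 h1 n (Nat.lt_succ_self n)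
    rwa [map_sub, sub_eq_zero] at this
  have hreg : RegS (M.tau f) := by
    refine almost_coeff (P := RegS) (fun _ a => Reg a) (fun _ => Iff.rfl)
      (fun _ _ _ _ => rfl) (fun a b => regS_mul) (fun a b ha hb n p k hk => ?_) (htlow hl).1 ?_
      (fun k => by rw [← map_pow, ← map_mul, hrf]; exact (y k).2.2)
    · simp [ha n p k hk, hb n p k hk]
    · intro n a hk
      refine reg_complete (fun p => ?_) hk
      rw [(htlow hl).2]
      exact lowest_branches r.2.1 hl0 p
  refine ⟨⟨f, hglob, hreg⟩, ?_⟩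
  rw [IsLocalization.eq_mk'_iff_mul_eq, ← map_mul]
  congr 1
  exact Subtype.ext (by rw [Subalgebra.coe_mul, hf, mul_comm])

end

end P266
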