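import Vale.Agent.P266.Check
import Vale.Agent.P266.Curve

/-!
P266: functions on the branches represented by integer expressions in (s, w).
-/

namespace P266

open HahnSeries (single ofPowerSeries)

noncomputable section

/-- The series of an expression at a value of `s`. -/
def sem (s : ℂ) (e : Ex) : PowerSeries ℂ :=
  e.poly.eval₂ (PowerSeries.C.comp (Polynomial.eval₂RingHom (Int.castRingHom ℂ) s)) PowerSeries.X

theorem sem_add (s : ℂ) (a b : Ex) : sem s (.add a b) = sem s a + sem s b :=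
  Polynomial.eval₂_add _ _

theorem sem_sub (s : ℂ) (a b : Ex) : sem s (.sub a b) = sem s a - sem s b :=
  Polynomial.eval₂_sub _

theorem sem_mul (s : ℂ) (a b : Ex) : sem s (.mul a b) = sem s a * sem s b :=
  Polynomial.eval₂_mul _ _

/-- The value of a row at `s`. -/
def rowVal (s : ℂ) : List ℤ → ℂ
  | [] => 0
  | a :: l => (a : ℂ) + s * rowVal s l

theorem rowVal_eq (s : ℂ) (l : List ℤ) :
    (pol l).eval₂ (Int.castRingHom ℂ) s = rowVal s l := by
  induction l with
  | nil => simp [pol, rowVal]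
  | cons a l ih =>
    rw [pol, Polynomial.eval₂_add, Polynomial.eval₂_mul, Polynomial.eval₂_C, Polynomial.eval₂_X, ih, rowVal]
    simp

theorem sem_lit_nil (s : ℂ) : sem s (.lit []) = 0 := by simp [sem, Ex.poly, pol2]

theorem sem_lit_cons (s : ℂ) (r : List ℤ) (L : List (List ℤ)) :
    sem s (.lit (r :: L))
      = PowerSeries.C (rowVal s r) + PowerSeries.X * sem s (.lit L) := by
  simp [sem, Ex.poly, pol2, rowVal_eq]

theorem coeff_sem_lit (s : ℂ) : ∀ (L : List (List ℤ)) (k : ℕ),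
    PowerSeries.coeff k (sem s (.lit L)) = rowVal s (L.getD k [])
  | [], k => by simp [sem_lit_nil, rowVal]
  | r :: L, 0 => by simp [sem_lit_cons]
  | r :: L, k + 1 => by
    rw [sem_lit_cons, map_add, PowerSeries.coeff_succ_X_mul, coeff_sem_lit s L k,
      PowerSeries.coeff_C, if_neg (Nat.succ_ne_zero k), zero_add]
    simp

/-- A checked expression vanishes modulo `w^N`. -/
theorem sem_of_chk {e : Ex} {M N : ℕ} (h : e.chk M N = true) (s : ℂ) {k : ℕ} (hk : k < N) :
    PowerSeries.coeff k (sem s e) = 0 := by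
  have h0 := Ex.coeff_of_chk h
  rw [sem, Polynomial.eval₂_eq_sum, Polynomial.sum, map_sum]
  refine Finset.sum_eq_zero fun i _ => ?_
  rw [RingHom.comp_apply, PowerSeries.coeff_C_mul, PowerSeries.coeff_X_pow]
  split
  · subst_vars; rw [h0 _ hk]; simp
  · simp

/-- The scalar `c` times `w^n`. -/
def monL (c : ℤ) : ℕ → List (List ℤ)
  | 0 => [[c]]
  | n + 1 => [] :: monL c n

theorem sem_monL (s : ℂ) (c : ℤ) (n : ℕ) :
    sem s (.lit (monL c n)) = PowerSeries.C (c : ℂ) * PowerSeries.X ^ n := by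
  induction n with
  | zero => simp [monL, sem_lit_cons, sem_lit_nil, rowVal]
  | succ n ih => rw [monL, sem_lit_cons, ih, rowVal, map_zero, zero_add, pow_succ]; ring

/-- The reduction polynomial `90 s^5 - 1`. -/
def redL : List (List ℤ) := [[-1, 0, 0, 0, 0, 90]]

theorem sem_redL {s : ℂ} (hs : 90 * s ^ 5 = 1) : sem s (.lit redL) = 0 := by
  have : rowVal s [-1, 0, 0, 0, 0, 90] = 0 := by
    simp [rowVal]; linear_combination hs
  rw [redL, sem_lit_cons, sem_lit_nil, this]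
  simp

theorem ps_pow (p : Pt) : 90 * ps p ^ 5 = 1 := by
  rw [ps, mul_pow, pa_pow, one_mul, pb_pow]

theorem coeff_rhs (c : ℂ) (lo : ℤ) (u : LaurentSeries ℂ) (k : ℤ) :
    (HahnSeries.C c * single lo 1 * u).coeff k = c * u.coeff (k - lo) := by
  rw [mul_assoc, HahnSeries.C_mul_eq_smul, HahnSeries.coeff_smul, smul_eq_mul]
  conv_lhs => rw [show k = (k - lo) + lo by ring, HahnSeries.coeff_single_mul_add, one_mul]

theorem coeff_den (d : ℕ) (u : LaurentSeries ℂ) (k : ℤ) :
    ((d : LaurentSeries ℂ) * u).coeff k = (d : ℂ) * u.coeff k := by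
  rw [← map_natCast (HahnSeries.C (Γ := ℤ) (R := ℂ)) d, HahnSeries.C_mul_eq_smul,
    HahnSeries.coeff_smul, smul_eq_mul]

/-- `den · f` agrees with `μ w^lo · e(s, w)` below `w^(lo+N)`. -/
def Rep (μ : Pt → ℂ) (lo : ℤ) (den : ℕ) (N : ℕ) (e : Ex) (f : K) : Prop :=
  den ≠ 0 ∧ ∀ p, ∃ r : PowerSeries ℂ,
    (den : LaurentSeries ℂ) * f p = HahnSeries.C (μ p) * single lo 1 *
      ofPowerSeries ℤ ℂ (sem (ps p) e + PowerSeries.X ^ N * r)

variable {μ ν : Pt → ℂ} {lo lo' : ℤ} {den den' N N' : ℕ} {e e' : Ex} {f g : K}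

theorem Rep.mono (h : Rep μ lo den N e f) (hN : N' ≤ N) : Rep μ lo den N' e f := by
  refine ⟨h.1, fun p => ?_⟩
  obtain ⟨r, hr⟩ := h.2 p
  refine ⟨PowerSeries.X ^ (N - N') * r, ?_⟩
  rw [hr, ← mul_assoc (PowerSeries.X ^ N') _ r, ← pow_add, Nat.add_sub_cancel' hN]

theorem Rep.add (h : Rep μ lo den N e f) (h' : Rep μ lo den N e' g) :
    Rep μ lo den N (.add e e') (f + g) := by
  refine ⟨h.1, fun p => ?_⟩
  obtain ⟨r, hr⟩ := h.2 p
  obtain ⟨r', hr'⟩ := h'.2 p
  refine ⟨r + r', ?_⟩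
  rw [Pi.add_apply, mul_add, hr, hr', sem_add]
  simp only [map_add, mul_add]
  ring

theorem Rep.sub (h : Rep μ lo den N e f) (h' : Rep μ lo den N e' g) :
    Rep μ lo den N (.sub e e') (f - g) := by
  refine ⟨h.1, fun p => ?_⟩
  obtain ⟨r, hr⟩ := h.2 p
  obtain ⟨r', hr'⟩ := h'.2 p
  refine ⟨r - r', ?_⟩
  rw [Pi.sub_apply, mul_sub, hr, hr', sem_sub]
  simp only [map_sub, map_add, mul_add, mul_sub]
  ring

theorem Rep.mul (h : Rep μ lo den N e f) (h' : Rep ν lo' den' N' e' g) {M : ℕ} (hM : M ≤ N)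
    (hM' : M ≤ N') :
    Rep (fun p => μ p * ν p) (lo + lo') (den * den') M (.mul e e') (f * g) := by
  refine ⟨Nat.mul_ne_zero h.1 h'.1, fun p => ?_⟩
  obtain ⟨r, hr⟩ := (h.mono hM).2 p
  obtain ⟨r', hr'⟩ := (h'.mono hM').2 p
  refine ⟨r * (sem (ps p) e' + PowerSeries.X ^ M * r') + sem (ps p) e * r', ?_⟩
  rw [Pi.mul_apply, Nat.cast_mul,
    show ((den : LaurentSeries ℂ) * (den' : LaurentSeries ℂ)) * (f p * g p)
      = ((den : LaurentSeries ℂ) * f p) * ((den' : LaurentSeries ℂ) * g p) by ring, hr, hr',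
    sem_mul, map_mul HahnSeries.C, show (single (lo + lo') (1 : ℂ)) = single lo 1 * single lo' 1 by
      rw [HahnSeries.single_mul_single, mul_one]]
  simp only [map_add, map_mul, map_pow]
  ring

/-- Move to a lower `lo` and multiply the denominator by `c`. -/
theorem Rep.shift (h : Rep μ lo den N e f) (c : ℕ) (hc : c ≠ 0) (lo'' : ℤ)
    (k : ℕ) (hk : lo = lo'' + k) :
    Rep μ lo'' (c * den) (k + N) (.mul (.lit (monL c k)) e) f := by
  refine ⟨Nat.mul_ne_zero hc h.1, fun p => ?_⟩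
  obtain ⟨r, hr⟩ := h.2 p
  refine ⟨PowerSeries.C (c : ℂ) * r, ?_⟩
  rw [Nat.cast_mul, mul_assoc, hr, sem_mul, sem_monL, hk]
  have e1 : (single (lo'' + (k : ℤ)) (1 : ℂ)) = single lo'' 1 * ofPowerSeries ℤ ℂ (PowerSeries.X ^ k) := by
    rw [map_pow, HahnSeries.ofPowerSeries_X, HahnSeries.single_pow, HahnSeries.single_mul_single]
    simp
  rw [e1]
  simp only [map_add, map_mul, map_pow, pow_add, Int.cast_natCast, map_natCast]
  ring

/-- Scaling by a rational number `a/b`. -/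
theorem Rep.ratMul (h : Rep μ lo den N e f) (a : ℤ) (b : ℕ) (hb : b ≠ 0) :
    Rep μ lo (b * den) N (.mul (.lit (monL a 0)) e) (((a : ℂ) / (b : ℂ)) • f) := by
  refine ⟨Nat.mul_ne_zero hb h.1, fun p => ?_⟩
  obtain ⟨r, hr⟩ := h.2 p
  refine ⟨PowerSeries.C (a : ℂ) * r, ?_⟩
  rw [Nat.cast_mul, Pi.smul_apply, ← HahnSeries.C_mul_eq_smul,
    show (b : LaurentSeries ℂ) * (den : LaurentSeries ℂ) * (HahnSeries.C ((a : ℂ) / b) * f p)
      = ((b : LaurentSeries ℂ) * HahnSeries.C ((a : ℂ) / b)) * ((den : LaurentSeries ℂ) * f p)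
      by ring,
    hr, ← map_natCast (HahnSeries.C (Γ := ℤ) (R := ℂ)) b, ← map_mul,
    mul_div_cancel₀ _ (Nat.cast_ne_zero.2 hb), sem_mul, sem_monL]
  simp only [map_add, map_mul, map_pow, pow_zero, mul_one, HahnSeries.ofPowerSeries_C]
  ring

/-- Replace an expression by a checked normal form. -/
theorem Rep.norm (h : Rep μ lo den N e f) (L Q : List (List ℤ)) (den₂ : ℕ) (M N₂ : ℕ)
    (hd : den₂ ≠ 0) (hN : N₂ ≤ N)
    (hc : (Ex.sub (.sub (.mul (.lit (monL den₂ 0)) e) (.mul (.lit (monL den 0)) (.lit L)))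
      (.mul (.lit redL) (.lit Q))).chk M N₂ = true) :
    Rep μ lo den₂ N₂ (.lit L) f := by
  refine ⟨hd, fun p => ?_⟩
  obtain ⟨r, hr⟩ := (h.mono hN).2 p
  have hz : PowerSeries.X ^ N₂ ∣ PowerSeries.C (den₂ : ℂ) * sem (ps p) e
      - PowerSeries.C (den : ℂ) * sem (ps p) (.lit L) := by
    rw [PowerSeries.X_pow_dvd_iff]
    intro k hk
    have := sem_of_chk hc (ps p) hk
    simpa [sem_sub, sem_mul, sem_monL, sem_redL (ps_pow p)] using this
  obtain ⟨t, ht⟩ := hz
  refine ⟨PowerSeries.C ((den : ℂ)⁻¹) * (t + PowerSeries.C (den₂ : ℂ) * r), ?_⟩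
  have hden : (den : ℂ) ≠ 0 := Nat.cast_ne_zero.2 h.1
  have key : PowerSeries.C (den₂ : ℂ) * (sem (ps p) e + PowerSeries.X ^ N₂ * r)
      = PowerSeries.C (den : ℂ) * (sem (ps p) (.lit L) + PowerSeries.X ^ N₂ *
          (PowerSeries.C ((den : ℂ)⁻¹) * (t + PowerSeries.C (den₂ : ℂ) * r))) := by
    have e1 : PowerSeries.C (den : ℂ) * PowerSeries.C ((den : ℂ)⁻¹) = 1 := by
      rw [← map_mul, mul_inv_cancel₀ hden, map_one]
    linear_combination ht - (PowerSeries.X ^ N₂ * (t + PowerSeries.C (den₂ : ℂ) * r)) * e1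
  have hne : (den : LaurentSeries ℂ) ≠ 0 := by
    rw [← map_natCast (HahnSeries.C (Γ := ℤ) (R := ℂ))]
    exact fun h0 => hden (HahnSeries.C_injective (h0.trans (map_zero _).symm))
  apply mul_left_cancel₀ hne
  have k2 := congrArg (ofPowerSeries ℤ ℂ) key
  rw [map_mul, map_mul, HahnSeries.ofPowerSeries_C, HahnSeries.ofPowerSeries_C, map_natCast, map_natCast] at k2
  linear_combination (den₂ : LaurentSeries ℂ) * hr + (HahnSeries.C (μ p) * single lo 1) * k2

/-- Rows of the derivative of `w^lo · L`. -/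
def dwL : ℤ → List (List ℤ) → List (List ℤ)
  | _, [] => []
  | lo, r :: L => r.map (fun a => lo * a) :: dwL (lo + 1) L

theorem rowVal_map (s : ℂ) (c : ℤ) (l : List ℤ) :
    rowVal s (l.map fun a => c * a) = (c : ℂ) * rowVal s l := by
  induction l with
  | nil => simp [rowVal]
  | cons a l ih => simp [rowVal, ih]; ring

theorem coeff_dwL (s : ℂ) : ∀ (L : List (List ℤ)) (lo : ℤ) (k : ℕ),
    rowVal s ((dwL lo L).getD k []) = ((lo : ℂ) + k) * rowVal s (L.getD k [])
  | [], lo, k => by simp [dwL, rowVal]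
  | r :: L, lo, 0 => by simp [dwL, rowVal_map]
  | r :: L, lo, k + 1 => by
    simp only [dwL, List.getD_cons_succ]
    rw [coeff_dwL s L (lo + 1) k]
    push_cast; ring

theorem Rep.coeff {L : List (List ℤ)} (h : Rep μ lo den N (.lit L) f) (p : Pt) (k : ℕ)
    (hk : k < N) :
    (den : ℂ) * (f p).coeff (lo + k) = μ p * rowVal (ps p) (L.getD k []) := by
  obtain ⟨r, hr⟩ := h.2 p
  have := congrArg (fun u : LaurentSeries ℂ => u.coeff (lo + k)) hr
  simp only [coeff_den, coeff_rhs, add_sub_cancel_left] at this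
  rw [this, HahnSeries.ofPowerSeries_apply_coeff, map_add, coeff_sem_lit,
    PowerSeries.coeff_X_pow_mul', if_neg (by omega), add_zero]

theorem Rep.coeff_lt (h : Rep μ lo den N e f) (p : Pt) {k : ℤ} (hk : k < lo) :
    (f p).coeff k = 0 := by
  obtain ⟨r, hr⟩ := h.2 p
  have := congrArg (fun u : LaurentSeries ℂ => u.coeff k) hr
  simp only [coeff_den, coeff_rhs] at this
  have hz : (ofPowerSeries ℤ ℂ (sem (ps p) e + PowerSeries.X ^ N * r)).coeff (k - lo) = 0 :=
    (PowerSeries.coeff_coe _ _).trans (if_pos (by omega))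
  rw [hz, mul_zero, mul_eq_zero] at this
  exact this.resolve_left (Nat.cast_ne_zero.2 h.1)

/-- All entries in the first `n` rows vanish. -/
def zeroTo (n : ℕ) (L : List (List ℤ)) : Bool := (L.take n).all fun r => r.all fun a => a == 0

theorem rowVal_zeroTo {n : ℕ} {L : List (List ℤ)} (h : zeroTo n L = true) (s : ℂ) :
    ∀ k < n, rowVal s (L.getD k []) = 0 := by
  intro k hk
  by_cases hl : k < L.length
  · rw [List.getD_eq_getElem _ _ hl]
    have hm : L[k] ∈ L.take n := by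
      rw [List.mem_iff_getElem]
      exact ⟨k, by simp [hk, hl], by simp⟩
    simp only [zeroTo, List.all_eq_true] at h
    have hz := h _ hm
    have : ∀ l : List ℤ, (∀ a ∈ l, (a == 0) = true) → rowVal s l = 0 := by
      intro l
      induction l with
      | nil => simp [rowVal]
      | cons a l ih =>
        intro hl'
        have : a = 0 := by simpa using hl' a (by simp)
        simp [rowVal, this, ih fun b hb => hl' b (by simp [hb])]
    exact this _ hz
  · rw [List.getD_eq_default _ _ (not_lt.1 hl)]; rfl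

theorem Rep.reg {L : List (List ℤ)} (h : Rep μ lo den N (.lit L) f) (n : ℕ)
    (hn : lo + n = 0) (hnN : n ≤ N) (hz : zeroTo n L = true) : Reg f := by
  intro p k hk
  rcases lt_or_ge k lo with h1 | h1
  · exact h.coeff_lt p h1
  · obtain ⟨j, rfl⟩ : ∃ j : ℕ, k = lo + j := ⟨(k - lo).toNat, by omega⟩
    have := h.coeff p j (by omega)
    rw [rowVal_zeroTo hz _ j (by omega), mul_zero, mul_eq_zero] at this
    exact this.resolve_left (Nat.cast_ne_zero.2 h.1)

theorem Rep.ddw {L : List (List ℤ)} (h : Rep μ lo den N (.lit L) f) :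
    Rep μ (lo - 1) den N (.lit (dwL lo L)) (P266.ddw f) := by
  refine ⟨h.1, fun p => ?_⟩
  obtain ⟨r, hr⟩ := h.2 p
  refine ⟨PowerSeries.mk fun j => ((lo : ℂ) + (N + j : ℕ)) * PowerSeries.coeff j r, ?_⟩
  ext k
  have hd : (P266.ddw f p).coeff k = ((k + 1 : ℤ) : ℂ) * (f p).coeff (k + 1) := by
    simp [P266.ddw, LaurentSeries.hasseDeriv_coeff]
  have hf := congrArg (fun u : LaurentSeries ℂ => u.coeff (k + 1)) hr
  simp only [coeff_den, coeff_rhs] at hf
  rw [coeff_den, coeff_rhs, hd, mul_left_comm, hf, show k - (lo - 1) = k + 1 - lo by ring]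
  rcases lt_or_ge (k + 1 - lo) 0 with h1 | h1
  · have z1 : ∀ u : PowerSeries ℂ, (ofPowerSeries ℤ ℂ u).coeff (k + 1 - lo) = 0 := fun u =>
      (PowerSeries.coeff_coe _ _).trans (if_pos h1)
    rw [z1, z1]; simp
  · obtain ⟨j, hj⟩ : ∃ j : ℕ, k + 1 - lo = (j : ℤ) := ⟨(k + 1 - lo).toNat, by omega⟩
    rw [hj, HahnSeries.ofPowerSeries_apply_coeff, HahnSeries.ofPowerSeries_apply_coeff, map_add, map_add, coeff_sem_lit,
      coeff_sem_lit, coeff_dwL, PowerSeries.coeff_X_pow_mul', PowerSeries.coeff_X_pow_mul',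
      show k + 1 = lo + (j : ℤ) by omega]
    split
    · rw [PowerSeries.coeff_mk, Nat.add_sub_cancel' ‹N ≤ j›]; push_cast; ring
    · push_cast; ring

end

end P266
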