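import Vale.Agent.P266.Ring.Finite

/-!
P266: the complete local ring of the contracted formal neighbourhood: dimension two, not regular.
-/

namespace P266

set_option maxSynthPendingDepth 4

open Finset

noncomputable section

theorem wpow_not_mem_G {m n : ℕ} (h : n < m) : wpow (m : ℤ) ∉ G (n : ℤ) := by
  intro hG
  have hr : Reg (wpow (m : ℤ)) := by rw [wpow_eq_mono]; exact reg_mono 0 0 m
  obtain ⟨c, -, hc⟩ := reg_mem_G hG hr
  have hsum : ∑ i : Fin 5, ∑ j : Fin 5, ∑ k ∈ range (m + 1),
      ((if k ≤ n then c i j k else 0) - (if i = 0 ∧ j = 0 ∧ k = m then (1 : ℂ) else 0)) •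
        mono i j (k : ℤ) = 0 := by
    simp only [sub_smul, sum_sub_distrib, sub_eq_zero]
    have h1 : ∀ i j : Fin 5, ∑ k ∈ range (m + 1), (if k ≤ n then c i j k else 0) • mono i j (k : ℤ)
        = ∑ k ∈ range ((n : ℤ).toNat + 1), c i j k • mono i j (k : ℤ) := fun i j => by
      refine (sum_subset (range_subset_range.2 (by simp; omega)) fun k _ hk => ?_).symm.trans
        (sum_congr rfl fun k hk => ?_)
      · have hk' : ¬ k ≤ n := by simpa using hk
        rw [if_neg hk']
        exact zero_smul ℂ (mono i j (k : ℤ))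
      · have hk' : k ≤ n := by simpa using hk
        rw [if_pos hk']
    refine Eq.trans ?_ (Eq.trans hc.symm ?_)
    · exact sum_congr rfl fun i _ => sum_congr rfl fun j _ => by
        rw [h1]
    · rw [Finset.sum_eq_single (0 : Fin 5), Finset.sum_eq_single (0 : Fin 5),
        Finset.sum_eq_single m]
      · simp [wpow_eq_mono]
      all_goals first
        | (intro b _ hb; simp [hb])
        | simp
  have h0 := mono_indep (m + 1) _ hsum 0 0 m (by omega)
  simp [show ¬ m ≤ n by omega] at h0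

theorem exists_bideg :
    ∃ T : Finset (ℕ × ℕ), (∀ p q, p + q < 11 → (p, q) ∈ T) ∧ T.card = 66 := by
  refine ⟨(range 11).biUnion fun n => antidiagonal n, fun p q h => ?_, ?_⟩
  · exact mem_biUnion.2 ⟨p + q, mem_range.2 h, Finset.HasAntidiagonal.mem_antidiagonal.2 rfl⟩
  · rw [card_biUnion]
    · simp only [Finset.Nat.card_antidiagonal, sum_range_succ, sum_range_zero]
    · intro i _ j _ hij
      exact Finset.disjoint_left.2 fun t h1 h2 => hij
        ((Finset.HasAntidiagonal.mem_antidiagonal.1 h1).symm.trans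
          (Finset.HasAntidiagonal.mem_antidiagonal.1 h2))

namespace Model

variable (M : Model)

theorem maximalIdeal_mem_minimalPrimes :
    IsLocalRing.maximalIdeal M.ring ∈ (Ideal.span ({M.Phi, M.Psi} : Set M.ring)).minimalPrimes := by
  refine ⟨⟨inferInstance, ?_⟩, fun q hq _ x hx => ?_⟩
  · rw [Ideal.span_le]
    rintro _ (rfl | rfl)
    exacts [M.Phi_mem, M.Psi_mem]
  · have key : ∀ n, 21 + 7 * 0 = n → x ^ n ∈ Ideal.span ({M.Phi, M.Psi} : Set M.ring) := by
      intro n hn
      have h := M.J_le_span_pow 0 (show x ^ n ∈ M.J (21 + 7 * 0) by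
        rw [hn]; exact M.maximalIdeal_pow_le n (Ideal.pow_mem_pow hx n))
      rwa [zero_add, pow_one] at h
    exact hq.1.mem_of_pow_mem _ (hq.2 (key _ rfl))

theorem Phi_ne : M.Phi ≠ 0 := fun h => by
  have h' := M.Phi_spec.2
  rw [h, ZeroMemClass.coe_zero, map_zero] at h'
  exact zero_ne_one h'

theorem Psi_pow_low (k : ℕ) : Low (7 * k) ((M.Psi ^ k : M.ring) : S) ∧
    PowerSeries.coeff (7 * k) ((M.Psi ^ k : M.ring) : S) = wpow ((7 * k : ℕ) : ℤ) := by
  induction k with
  | zero => exact ⟨low_zero _, by simp [wpow_zero]⟩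
  | succ k ih =>
    rw [pow_succ, Subalgebra.coe_mul, Nat.mul_succ]
    refine ⟨low_mul ih.1 M.Psi_spec.1, ?_⟩
    rw [coeff_mul_low ih.1 M.Psi_spec.1, ih.2, M.Psi_spec.2, Nat.cast_add, wpow_add]
    rfl

theorem Psi_pow_not_mem (k : ℕ) : M.Psi ^ k ∉ Ideal.span ({M.Phi} : Set M.ring) := by
  intro h
  obtain ⟨g, hg⟩ := Ideal.mem_span_singleton'.1 h
  obtain ⟨hl, hc⟩ := M.Psi_pow_low k
  have hwne : wpow ((7 * k : ℕ) : ℤ) ≠ 0 := fun h => by
    have := congrFun h ((0, 0) : Pt)
    simp [wpow] at this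
  have hg0 : g ≠ 0 := fun e => hwne (by rw [← hc, ← hg, e]; simp)
  obtain ⟨e, he, hne⟩ := exists_lowest (f := (g : S)) fun h => hg0 (Subtype.ext h)
  rw [← hg, Subalgebra.coe_mul] at hl hc
  have h1 := coeff_mul_low he M.Phi_spec.1
  rw [M.Phi_spec.2, mul_one] at h1
  rcases lt_trichotomy (e + 7) (7 * k) with hlt | heq | hgt
  · exact hne (by rw [← h1]; exact low_S_iff.1 hl _ hlt)
  · rw [← heq] at hc
    rw [h1, show ((e + 7 : ℕ) : ℤ) = ((e + 7 : ℕ) : ℤ) from rfl] at hc
    exact wpow_not_mem_G (show e < e + 7 by omega) (hc ▸ g.2.1 e)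
  · exact hwne (by rw [← hc]; exact low_S_iff.1 (low_mul he M.Phi_spec.1) _ hgt)

theorem ringKrullDim : ringKrullDim M.ring = 2 := by
  classical
  have := M.isNoetherianRing
  rw [← IsLocalRing.maximalIdeal_height_eq_ringKrullDim]
  suffices h : (IsLocalRing.maximalIdeal M.ring).height = 2 by rw [h]; rfl
  refine le_antisymm ?_ ?_
  · refine (Ideal.height_le_card_of_mem_minimalPrimes_span (Set.toFinite _)
      M.maximalIdeal_mem_minimalPrimes).trans ?_
    have : ({M.Phi, M.Psi} : Set M.ring).ncard ≤ 2 := (Set.ncard_insert_le _ _).trans (by simp)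
    exact_mod_cast this
  · obtain ⟨P, hP, hPm⟩ : ∃ P : Ideal M.ring, (P.IsPrime ∧ Ideal.span {M.Phi} ≤ P) ∧
        P < IsLocalRing.maximalIdeal M.ring := by
      by_contra hno
      have hrad : IsLocalRing.maximalIdeal M.ring ≤ (Ideal.span ({M.Phi} : Set M.ring)).radical := by
        rw [Ideal.radical_eq_sInf]
        refine le_sInf fun q hq => ?_
        by_contra hle
        exact hno ⟨q, ⟨hq.2, hq.1⟩, lt_of_le_not_ge (IsLocalRing.le_maximalIdeal hq.2.ne_top) hle⟩
      obtain ⟨k, hk⟩ := hrad M.Psi_mem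
      exact M.Psi_pow_not_mem k hk
    have := hP.1
    have h0 : (⊥ : Ideal M.ring) < P := bot_lt_iff_ne_bot.2 fun h =>
      M.Phi_ne (by simpa [h] using hP.2 (Ideal.subset_span rfl))
    have h1 : 1 ≤ P.height := by
      refine le_trans le_add_self (Order.add_one_le_of_lt (Ideal.height_strict_mono_of_isPrime h0))
    calc (2 : ℕ∞) = 1 + 1 := rfl
      _ ≤ P.height + 1 := by gcongr
      _ ≤ _ := Order.add_one_le_of_lt (Ideal.height_strict_mono_of_isPrime hPm)

theorem mem_span_monomials {a b : M.ring}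
    (hab : IsLocalRing.maximalIdeal M.ring = Ideal.span {a, b}) (N : ℕ) (f : M.ring) :
    ∃ u ∈ Submodule.span ℂ {x : M.ring | ∃ p q, p + q < N ∧ a ^ p * b ^ q = x},
      f - u ∈ IsLocalRing.maximalIdeal M.ring ^ N := by
  set m := IsLocalRing.maximalIdeal M.ring
  induction N with
  | zero => exact ⟨0, Submodule.zero_mem _, by simp⟩
  | succ N ih =>
    set W := Submodule.span ℂ {x : M.ring | ∃ p q, p + q < N + 1 ∧ a ^ p * b ^ q = x}
    obtain ⟨u, hu, hv⟩ := ih
    have hpow : ∀ n, m ^ n ≤ Ideal.span {x : M.ring | ∃ p q, p + q = n ∧ a ^ p * b ^ q = x} := by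
      intro n
      induction n with
      | zero =>
        intro x _
        have h1 : (1 : M.ring) ∈ Ideal.span {x : M.ring | ∃ p q, p + q = 0 ∧ a ^ p * b ^ q = x} :=
          Ideal.subset_span ⟨0, 0, rfl, by simp⟩
        simpa using Ideal.mul_mem_left _ x h1
      | succ n ihn =>
        rw [pow_succ]
        refine le_trans (Ideal.mul_mono ihn hab.le) ?_
        rw [Ideal.span_mul_span', Ideal.span_le]
        rintro _ ⟨_, ⟨p, q, hpq, rfl⟩, _, hc, rfl⟩
        rcases hc with rfl | rfl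
        · exact Ideal.subset_span ⟨p + 1, q, by omega, by ring⟩
        · exact Ideal.subset_span ⟨p, q + 1, by omega, by ring⟩
    have key : ∀ v ∈ Ideal.span {x : M.ring | ∃ p q, p + q = N ∧ a ^ p * b ^ q = x},
        v ∈ m ^ N ∧ ∃ u' ∈ W, v - u' ∈ m ^ (N + 1) := by
      intro v hv
      induction hv using Submodule.span_induction with
      | mem x hx =>
        obtain ⟨p, q, hpq, rfl⟩ := hx
        refine ⟨?_, _, Submodule.subset_span ⟨p, q, by omega, rfl⟩, by simp⟩
        rw [← hpq, pow_add]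
        exact Ideal.mul_mem_mul (Ideal.pow_mem_pow (hab.ge (Ideal.subset_span (Or.inl rfl))) p)
          (Ideal.pow_mem_pow (hab.ge (Ideal.subset_span (Or.inr rfl))) q)
      | zero => exact ⟨Ideal.zero_mem _, 0, Submodule.zero_mem _, by simp⟩
      | add x y _ _ hx hy =>
        obtain ⟨hx1, u1, hu1, hx2⟩ := hx
        obtain ⟨hy1, u2, hu2, hy2⟩ := hy
        refine ⟨Ideal.add_mem _ hx1 hy1, u1 + u2, Submodule.add_mem _ hu1 hu2, ?_⟩
        rw [add_sub_add_comm]
        exact Ideal.add_mem _ hx2 hy2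
      | smul r x _ hx =>
        obtain ⟨hx1, u1, hu1, hx2⟩ := hx
        obtain ⟨z, hz⟩ := M.residue_surjective (IsLocalRing.residue M.ring r)
        have hr : r - algebraMap ℂ M.ring z ∈ m := by
          rw [IsScalarTower.algebraMap_apply ℂ M.ring (IsLocalRing.ResidueField M.ring)] at hz
          exact Ideal.Quotient.eq.1 hz.symm
        refine ⟨Ideal.mul_mem_left _ _ hx1, z • u1, Submodule.smul_mem _ _ hu1, ?_⟩
        have e : r • x - z • u1
            = (r - algebraMap ℂ M.ring z) * x + algebraMap ℂ M.ring z * (x - u1) := by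
          rw [smul_eq_mul, Algebra.smul_def]; ring
        rw [e]
        refine Ideal.add_mem _ ?_ (Ideal.mul_mem_left _ _ hx2)
        rw [pow_succ']
        exact Ideal.mul_mem_mul hr hx1
    obtain ⟨-, u', hu', hv'⟩ := key _ (hpow N hv)
    refine ⟨u + u', Submodule.add_mem _ (Submodule.span_mono ?_ hu) hu', ?_⟩
    · rintro x ⟨p, q, h, rfl⟩; exact ⟨p, q, by omega, rfl⟩
    · rwa [← sub_sub]

theorem not_regular : ¬ IsRegularLocalRing M.ring := by
  classical
  intro hreg
  have := M.isNoetherianRing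
  have h2 : (IsLocalRing.maximalIdeal M.ring).spanFinrank = 2 := by
    have h := hreg.spanFinrank_maximalIdeal
    rw [M.ringKrullDim] at h
    exact_mod_cast h
  obtain ⟨s, hs, hspan⟩ := Submodule.FG.exists_span_finset_card_eq_spanFinrank
    (IsNoetherian.noetherian (IsLocalRing.maximalIdeal M.ring))
  rw [h2, Finset.card_eq_two] at hs
  obtain ⟨a, b, -, rfl⟩ := hs
  have hab : IsLocalRing.maximalIdeal M.ring = Ideal.span {a, b} := by
    rw [← hspan]; simp [Ideal.span]
  obtain ⟨T, hTmem, hTcard⟩ := exists_bideg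
  have hlift : ∀ x : Fin 5 × Fin 5 × Fin 3, ∃ f : M.ring, Low 10 (f : S) ∧
      PowerSeries.coeff 10 (f : S) = mono x.1 x.2.1 ((x.2.2 : ℕ) : ℤ) := fun x => by
    have hm := mono_mem_RG (i := x.1) (j := x.2.1) (k := x.2.2) (n := 10) (by omega)
    obtain ⟨f, hf, h1, h2⟩ := M.exists_lift (show 7 ≤ 10 by norm_num) hm.1 hm.2
    exact ⟨⟨f, hf⟩, h1, h2⟩
  choose L hL hLc using hlift
  have li : LinearIndependent ℂ fun x => M.headL 11 (L x) := by
    refine Fintype.linearIndependent_iff.2 fun c hc => ?_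
    have h := congrFun hc ⟨10, by norm_num⟩
    simp only [Finset.sum_apply, Pi.smul_apply, Pi.zero_apply] at h
    simp only [headL, LinearMap.coe_mk, AddHom.coe_mk, hLc, Fintype.sum_prod_type] at h
    have h' := mono_indep 3
      (fun i j k => if hk : k < 3 then c (i, j, ⟨k, hk⟩) else 0) (by
        refine Eq.trans (sum_congr rfl fun i _ => sum_congr rfl fun j _ => ?_) h
        rw [← Fin.sum_univ_eq_sum_range
          (fun k => (if hk : k < 3 then c (i, j, ⟨k, hk⟩) else 0) • mono i j (k : ℤ))]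
        exact sum_congr rfl fun k _ => by rw [dif_pos k.2])
    rintro ⟨i, j, k⟩
    have h3 := h' i j k k.2
    rwa [dif_pos k.2] at h3
  let W : Submodule ℂ (Fin 11 → K) := Submodule.span ℂ
    ((T.image fun t => M.headL 11 (a ^ t.1 * b ^ t.2) : Finset (Fin 11 → K)) : Set (Fin 11 → K))
  have hsub : Submodule.span ℂ (Set.range fun x => M.headL 11 (L x)) ≤ W := by
    rw [Submodule.span_le]
    rintro _ ⟨x, rfl⟩
    obtain ⟨u, hu, hc⟩ := M.mem_span_monomials hab 11 (L x)
    have h0 : M.headL 11 (L x - u) = 0 :=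
      funext fun i => low_S_iff.1 (M.maximalIdeal_pow_le 11 hc) i i.2
    rw [map_sub, sub_eq_zero] at h0
    show M.headL 11 (L x) ∈ W
    rw [h0]
    have := Submodule.mem_map_of_mem (f := M.headL 11) hu
    rw [Submodule.map_span] at this
    refine Submodule.span_mono ?_ this
    rintro v ⟨z, ⟨p, q, hpq, hz⟩, hv⟩
    rw [Finset.mem_coe, Finset.mem_image]
    refine ⟨(p, q), hTmem p q hpq, ?_⟩
    dsimp only
    rw [hz]
    exact hv
  have : FiniteDimensional ℂ W := FiniteDimensional.span_finset ℂ _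
  have hle := Submodule.finrank_mono hsub
  rw [finrank_span_eq_card li] at hle
  have hW : Module.finrank ℂ W ≤ 66 :=
    (finrank_span_finset_le_card _).trans (Finset.card_image_le.trans (le_of_eq hTcard))
  simp only [Fintype.card_prod, Fintype.card_fin] at hle
  omega

end Model

end

end P266
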