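import Vale.Agent.P266.Exp

/-!
P266: vector fields `A T∂_T + B J∂_w`, their action, bracket and determinant.
-/

namespace P266

open Finset

noncomputable section

/-- `w d/dw` on Laurent series. -/
def eulerL (f : LaurentSeries ℂ) : LaurentSeries ℂ where
  coeff n := (n : ℂ) * f.coeff n
  isPWO_support' := f.isPWO_support'.mono fun n hn => by
    simp only [Function.mem_support] at hn ⊢
    exact fun h => hn (by simp [h])

theorem derivative_eq_euler (f : LaurentSeries ℂ) :
    LaurentSeries.derivative ℂ f = HahnSeries.single (-1 : ℤ) 1 * eulerL f := by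
  ext n
  rw [show n = n + 1 + (-1) by ring, HahnSeries.coeff_single_mul_add, one_mul]
  simp [eulerL]

theorem eulerL_mul (f g : LaurentSeries ℂ) :
    eulerL (f * g) = eulerL f * g + f * eulerL g := by
  ext n
  simp only [HahnSeries.coeff_add]
  have h1 : (eulerL f * g).coeff n = ∑ ij ∈ Finset.antidiagonal f.isPWO_support g.isPWO_support n,
      (ij.1 : ℂ) * f.coeff ij.1 * g.coeff ij.2 := by
    rw [HahnSeries.coeff_mul_left' (s := f.support) f.isPWO_support]
    · rfl
    · intro m hm
      simp only [HahnSeries.mem_support] at hm ⊢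
      exact fun h => hm (by simp [eulerL, h])
  have h2 : (f * eulerL g).coeff n = ∑ ij ∈ Finset.antidiagonal f.isPWO_support g.isPWO_support n,
      f.coeff ij.1 * ((ij.2 : ℂ) * g.coeff ij.2) := by
    rw [HahnSeries.coeff_mul_right' (s := g.support) g.isPWO_support]
    · rfl
    · intro m hm
      simp only [HahnSeries.mem_support] at hm ⊢
      exact fun h => hm (by simp [eulerL, h])
  rw [h1, h2, ← sum_add_distrib]
  show (n : ℂ) * (f * g).coeff n = _
  rw [HahnSeries.coeff_mul, mul_sum]
  refine sum_congr rfl fun ij hij => ?_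
  have : ij.1 + ij.2 = n := by
    simp at hij; omega
  subst this
  push_cast; ring

theorem smul_K (c : ℂ) (f : K) : c • f = algebraMap ℂ K c * f := by
  funext p
  show c • f p = algebraMap ℂ (LaurentSeries ℂ) c * f p
  rw [Algebra.algebraMap_eq_smul_one, smul_mul_assoc, one_mul]

theorem smul_S (c : ℂ) (f : S) : c • f = PowerSeries.C (algebraMap ℂ K c) * f := by
  refine PowerSeries.ext fun n => ?_
  rw [PowerSeries.coeff_C_mul, ← smul_K]
  simp

theorem dd_add (f g : K) : dd (f + g) = dd f + dd g := by
  funext p; simp [dd, ddw, mul_add]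

theorem dd_smul (c : ℂ) (f : K) : dd (c • f) = c • dd f := by
  funext p
  simp only [dd, ddw, Pi.mul_apply, Pi.smul_apply, map_smul, mul_smul_comm]

theorem dd_mul (f g : K) : dd (f * g) = dd f * g + f * dd g := by
  funext p
  simp only [dd, ddw, Pi.mul_apply, Pi.add_apply, derivative_eq_euler, eulerL_mul]
  ring

theorem dd_natCast_mul (n : ℕ) (f : K) : dd ((n : K) * f) = (n : K) * dd f := by
  induction n with
  | zero => simpa using dd_add 0 0
  | succ k ih => push_cast; rw [add_mul, one_mul, dd_add, ih, add_mul, one_mul]

theorem coeff_dS (f : S) (n : ℕ) : PowerSeries.coeff n (dS f) = dd (PowerSeries.coeff n f) := by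
  simp [dS]

theorem coeff_thetaS (f : S) (n : ℕ) :
    PowerSeries.coeff n (thetaS f) = (n : K) * PowerSeries.coeff n f := by
  simp [thetaS]

theorem dS_add (f g : S) : dS (f + g) = dS f + dS g := by
  refine PowerSeries.ext fun n => ?_
  simp [coeff_dS, dd_add]

theorem dS_smul (c : ℂ) (f : S) : dS (c • f) = c • dS f := by
  refine PowerSeries.ext fun n => ?_
  simp [coeff_dS, dd_smul]

theorem thetaS_add (f g : S) : thetaS (f + g) = thetaS f + thetaS g := by
  refine PowerSeries.ext fun n => ?_
  simp [coeff_thetaS, mul_add]

theorem thetaS_smul (c : ℂ) (f : S) : thetaS (c • f) = c • thetaS f := by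
  refine PowerSeries.ext fun n => ?_
  simp [coeff_thetaS, mul_smul_comm]

theorem dd_zero : dd 0 = 0 := by simpa using dd_add 0 0

theorem dd_sum {ι : Type*} (s : Finset ι) (F : ι → K) :
    dd (∑ i ∈ s, F i) = ∑ i ∈ s, dd (F i) := by
  classical
  induction s using Finset.induction with
  | empty => simp [dd_zero]
  | insert a t ha ih => simp [Finset.sum_insert ha, dd_add, ih]

theorem dS_mul (f g : S) : dS (f * g) = dS f * g + f * dS g := by
  refine PowerSeries.ext fun n => ?_
  simp [coeff_dS, PowerSeries.coeff_mul, dd_sum, dd_mul, sum_add_distrib]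

theorem thetaS_mul (f g : S) : thetaS (f * g) = thetaS f * g + f * thetaS g := by
  refine PowerSeries.ext fun n => ?_
  simp only [coeff_thetaS, map_add, PowerSeries.coeff_mul, mul_sum, ← sum_add_distrib]
  refine sum_congr rfl fun ij hij => ?_
  rw [← mem_antidiagonal.1 hij]
  push_cast; ring

theorem dS_thetaS (f : S) : dS (thetaS f) = thetaS (dS f) := by
  refine PowerSeries.ext fun n => ?_
  simp [coeff_dS, coeff_thetaS, dd_natCast_mul]

theorem act_add (D : VF) (f g : S) : act D (f + g) = act D f + act D g := by
  simp only [act, thetaS_add, dS_add]; ring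

theorem act_smul (D : VF) (c : ℂ) (f : S) : act D (c • f) = c • act D f := by
  simp only [act, thetaS_smul, dS_smul, smul_add, mul_smul_comm]

theorem act_mul (D : VF) (f g : S) : act D (f * g) = act D f * g + f * act D g := by
  simp only [act, thetaS_mul, dS_mul]; ring

theorem act_act (D E : VF) (f : S) :
    act D (act E f) = act (lie D E) f + act E (act D f) := by
  simp only [act, lie, thetaS_add, dS_add, thetaS_mul, dS_mul, dS_thetaS]
  ring

/-- The determinant changes by the divergence. -/
theorem act_det2 (D E F : VF) :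
    act D (det2 E F) = det2 (lie D E) F + det2 E (lie D F)
      + (thetaS D.1 + dS D.2) * det2 E F := by
  have t_sub : ∀ f g : S, thetaS (f - g) = thetaS f - thetaS g := fun f g => by
    have := thetaS_add (f - g) g; rw [sub_add_cancel] at this; rw [this]; ring
  have d_sub : ∀ f g : S, dS (f - g) = dS f - dS g := fun f g => by
    have := dS_add (f - g) g; rw [sub_add_cancel] at this; rw [this]; ring
  simp only [act, lie, det2, t_sub, d_sub, thetaS_mul, dS_mul]
  ring

/-- `act D` as a linear map. -/
def actL (D : VF) : S →ₗ[ℂ] S where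
  toFun := act D
  map_add' := act_add D
  map_smul' := act_smul D

/-- `lie D` as a linear map. -/
def lieL (D : VF) : VF →ₗ[ℂ] VF where
  toFun := lie D
  map_add' E F := by
    refine Prod.ext ?_ ?_ <;>
      simp only [lie, act, Prod.fst_add, Prod.snd_add, thetaS_add, dS_add] <;> ring
  map_smul' c E := by
    refine Prod.ext ?_ ?_ <;>
      simp only [lie, act, Prod.smul_fst, Prod.smul_snd, thetaS_smul, dS_smul,
        RingHom.id_apply] <;> simp only [smul_S] <;> ring

/-- The twisted derivation that follows the weight `T^6`. -/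
def twistL (D : VF) : S →ₗ[ℂ] S where
  toFun f := act D f - (thetaS D.1 + dS D.2) * f
  map_add' f g := by simp only [act_add]; ring
  map_smul' c f := by simp only [act_smul, RingHom.id_apply]; simp only [smul_S]; ring

end

end P266
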